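import Vale.Agent.P073Y.Nr.Sk
import Vale.Agent.P073Y.Ln.Brg
import Vale.Agent.P073Z.ACC.Tools

/-!
# The bottom cells
-/

open Set Metric Topology Filter MeasureTheory
open scoped NNReal ENNReal

namespace P073.Nr

open P073.Top P073.Zn P073.Ln

namespace Bt

theorem uface_inj {z z' : Fin 3 → ℤ} {I : Finset (Fin 3)} (h : uface z I = uface z' I) :
    z = z' := by
  have key : ∀ {z z' : Fin 3 → ℤ}, uface z I = uface z' I → ∀ i, z' i ≤ z i := fun {z z'} h i => by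
    have h1 : vt z ∈ uface z' I := h ▸ Rw.vt_mem z I
    have h2 := h1.1.1 i
    simp only [vt] at h2
    exact_mod_cast h2
  exact funext fun i => le_antisymm (key h.symm i) (key h i)

theorem uface_cvx (z : Fin 3 → ℤ) (I : Finset (Fin 3)) : Convex ℝ (uface z I) :=
  (convex_Icc _ _).inter (show Convex ℝ {ξ : E3 | ∀ i ∈ I, ξ i = z i} from
    fun x hx y hy s t _ _ hst i hi => by
      simp only [Pi.add_apply, Pi.smul_apply, smul_eq_mul, hx i hi, hy i hi]
      rw [← add_mul, hst, one_mul])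

theorem uface_meas (z : Fin 3 → ℤ) (I : Finset (Fin 3)) : MeasurableSet (uface z I) := by
  have h : IsClosed {ξ : E3 | ∀ i ∈ I, ξ i = z i} := by
    simp only [ofPred_forall]
    exact isClosed_iInter fun i => isClosed_iInter fun _ =>
      isClosed_eq (continuous_apply i) continuous_const
  exact (isClosed_Icc.inter h).measurableSet

theorem psi_eq {Ω : Set E3} (S : Src Ω) {φ : S.Q.ι} {z : Fin 3 → ℤ}
    (h : S.Q.cell φ = uface z {2}) : psi S φ = Ln.sq z := by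
  have h' : ∃ z, S.Q.cell φ = uface z {2} := ⟨z, h⟩
  rw [psi, dif_pos h', uface_inj (h'.choose_spec.symm.trans h)]

theorem tot_image {α β : Type} (A : Finset α) {b : α → β} (hb : InjOn b A) (f : β → ℝ≥0∞) :
    tot (b '' A) f = ∑ z ∈ A, f (b z) := by
  classical
  rw [tot, ← Finset.coe_image, ← sum_eq_tsum_indicator, Finset.sum_image hb]

theorem norm_dgs (I : Finset (Fin 3)) {a : ℝ} (ha : 0 ≤ a) :
    ‖(a • dgs I 0 : E3 →L[ℝ] E3)‖ₑ ≤ ENNReal.ofReal a := by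
  rw [← ofReal_norm]
  refine ENNReal.ofReal_le_ofReal (ContinuousLinearMap.opNorm_le_bound _ ha fun u => ?_)
  refine (pi_norm_le_iff_of_nonneg (by positivity)).2 fun i => ?_
  have h1 := norm_le_pi_norm u i
  by_cases hi : i ∈ I
  · simp [dgs, hi]
    positivity
  · simp only [dgs, smul_apply, Pi.smul_apply, ContinuousLinearMap.pi_apply,
      hi, if_false, one_smul, ContinuousLinearMap.proj_apply, norm_smul, Real.norm_eq_abs,
      abs_of_nonneg ha]
    exact mul_le_mul_of_nonneg_left h1 ha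

/-- the sharp clauses on the unit lattice -/
theorem sharp {p c₀ θ ϑ e a : ℝ} {C : ℝ≥0} {Ω : Set E3} {CM : ℝ≥0 → ℝ≥0} {S : Src Ω} {N : ℕ}
    {t : ℝ} {B : Set (Fin 3 → ℤ)} {g h : E3 → E3} {Nr : Set S.Q.ι} {η : ℝ≥0∞}
    {m : Fin 4 → S.Q.ι → ℝ≥0∞} {c : (Fin 3 → ℤ) → E3} {k : S.Q.ι → ℝ≥0∞} {I : Finset (Fin 3)}
    {W : Finset (Fin 3 → ℤ)} {bt : (Fin 3 → ℤ) → S.Q.ι} (ha : 0 < a)
    (H : NearOut p c₀ θ ϑ e C CM S N t B g h Nr η {φ | Marked S g θ φ (psi S φ) (a / 2)} (psi S)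
      (fun _ => a / 2) m c k)
    (hW : ∀ z ∈ W, bt z ∈ Nr ∧ S.Q.cell (bt z) = uface z I ∧ S.Q.dim (bt z) = 3 - I.card ∧
      ∀ z' l, segment ℝ (vt z') (nx z' l) ⊆ uface z I →
        ∃ w ∈ Nr, S.Q.dim w = 1 ∧ S.Q.cell w = segment ℝ (vt z') (nx z' l)) :
    Sharp p θ ϑ c₀ e a η I g h W
      (fun i : {z // z ∈ B ∨ z - Pi.single 2 1 ∈ B} => shp N t c i.1) := by
  refine ⟨fun z hz x hx i hi => ?_, fun z hz l hl i hi => ?_, fun hI z hz i hi hl => ?_⟩
  · obtain ⟨h1, h2, -⟩ := hW z hz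
    exact H.lat i.1 i.2 (bt z) h1 x (h2 ▸ hx) hi
  · obtain ⟨w, h1, h2, h3⟩ := (hW z hz).2.2.2 z l
      ((uface_cvx z I).segment_subset (Rw.vt_mem z I) (Rw.step_mem z hl))
    exact H.shE i.1 i.2 w h1 _ _ h2 h3 (h3 ▸ hi)
  · obtain ⟨h0, h2, h1, hw⟩ := hW z hz
    subst hI
    have hw' : ∀ z' l, segment ℝ (vt z') (nx z' l) ⊆ uface z {2} →
        ∃ w, S.Q.dim w = 1 ∧ S.Q.cell w = segment ℝ (vt z') (nx z' l) := fun z' l hs => by
      obtain ⟨w, -, hw⟩ := hw z' l hs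
      exact ⟨w, hw⟩
    have h3 := psi_eq S h2
    have hM : Marked S g θ (bt z) (psi S (bt z)) (a / 2) := by
      rw [h3]
      refine ⟨h1, sq_inj z, h2.trans (Fc.uface_eq z), by positivity, fun k t ht => ⟨?_, hl k t ht⟩⟩
      have ht' : |t| ≤ 1 := by rcases ht with rfl | rfl <;> simp
      have sub := (uface_cvx z {2}).segment_subset
        (Fc.sq_mem z (cor_mem k (s := -1) (by simp) ht'))
        (Fc.sq_mem z (cor_mem k (s := 1) (by simp) ht'))
      obtain rfl | rfl : k = 0 ∨ k = 1 := by omega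
      all_goals rcases ht with rfl | rfl
      · rw [Fc.sq_cor0mp, Fc.sq_cor0pp] at sub ⊢; exact hw' _ 0 sub
      · rw [Fc.sq_cor0mm, Fc.sq_cor0pm] at sub ⊢; exact hw' _ 0 sub
      · rw [Fc.sq_cor1mp, Fc.sq_cor1pp] at sub ⊢; exact hw' _ 1 sub
      · rw [Fc.sq_cor1mm, Fc.sq_cor1pm] at sub ⊢; exact hw' _ 1 sub
    have := H.shF i.1 i.2 (bt z) ⟨h0, hM⟩ (h2 ▸ hi)
    rwa [h3] at this

/-- a point off the slabs and the strips is deep inside a region between two slabs -/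
theorem locate {N : ℕ} {t r : ℝ} {B : Set (Fin 3 → ℤ)} {c : (Fin 3 → ℤ) → E3} {y : E3}
    {z : Fin 3 → ℤ} (ht : t ≤ 1 / 4) (hr : r ≤ t) (hr' : r ≤ 1 / 12)
    (hc : ∀ z ∈ nbr 1 B, c z ∈ mid N z) (hz : nbr 1 {z} ⊆ B) (hy : y ∈ lbox N 0 z)
    (h1 : y ∉ slabs N t B c) (h2 : y ∉ strips₁ N) :
    ∃ z', (z' ∈ B ∨ z' - Pi.single 2 1 ∈ B) ∧ closedBall y r ⊆ shp N t c z' := by
  have hB : z ∈ B := hz ⟨z, rfl, fun i => by simp⟩
  have w2 : wd N 2 = 1 := rfl
  have wl : ∀ i : Fin 3, i ≠ 2 → wd N i = N := fun i hi => by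
    fin_cases i <;> simp_all [wd]
  have hco : ∀ y' ∈ closedBall y r, ∀ i, |y' i - y i| ≤ r := fun y' hy' i => by
    rw [← Real.dist_eq]
    exact (dist_le_pi_dist _ _ i).trans hy'
  have hlat : ∀ y' ∈ closedBall y r, ∀ i : Fin 3, i ≠ 2 →
      z i * wd N i + 1 / 2 ≤ y' i ∧ y' i ≤ (z i + 1) * wd N i - 1 / 2 := fun y' hy' i hi => by
    have a1 := hy.1 i
    have a2 := hy.2 i
    have a3 : 1 < |y i - (z i : ℤ) * N| := not_le.1 fun h => h2 ⟨i, hi, z i, h⟩
    have a4 : 1 < |y i - (z i + 1 : ℤ) * N| := not_le.1 fun h => h2 ⟨i, hi, z i + 1, h⟩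
    have a5 := abs_le.1 (hco y' hy' i)
    simp only [wl i hi] at a1 a2 ⊢
    push_cast at a4
    rw [abs_of_nonneg (by linarith)] at a3
    rw [abs_of_nonpos (by linarith)] at a4
    constructor <;> linarith [a5.1, a5.2]
  have h3 : 2 * t < |y 2 - c z 2| := not_le.1 fun h => h1 ⟨z, ⟨z, hB, fun i => by simp⟩, hy, h⟩
  have b1 := hy.1 2
  have b2 := hy.2 2
  simp only [w2] at b1 b2
  rcases lt_abs.1 h3 with h3 | h3
  · have c2 := (hc (z + Pi.single 2 1) ⟨z, hB, fun i => by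
      simpa using Li.single_le 2 i⟩).1 2
    have e2 : (((z + Pi.single 2 1 : Fin 3 → ℤ) 2 : ℤ) : ℝ) = z 2 + 1 := by simp
    simp only [if_true, w2, e2] at c2
    refine ⟨z + Pi.single 2 1, Or.inr (by simpa using hB), fun y' hy' => ⟨fun i hi => ?_, ?_⟩⟩
    · have e3 : (z + Pi.single 2 1 : Fin 3 → ℤ) i = z i := by simp [hi]
      rw [e3]
      exact hlat y' hy' i hi
    · have a5 := abs_le.1 (hco y' hy' 2)
      rw [add_sub_cancel_right]
      constructor <;> linarith [a5.1, a5.2]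
  · have c2 := (hc (z - Pi.single 2 1) ⟨z, hB, fun i => by
      simpa using Li.single_le 2 i⟩).2 2
    have e2 : (((z - Pi.single 2 1 : Fin 3 → ℤ) 2 : ℤ) : ℝ) = z 2 - 1 := by simp
    simp only [if_true, w2, e2] at c2
    refine ⟨z, Or.inl hB, fun y' hy' => ⟨hlat y' hy', ?_⟩⟩
    have a5 := abs_le.1 (hco y' hy' 2)
    constructor <;> linarith [a5.1, a5.2]

/-- the number of bad cells -/
theorem count {n u s w x η C : ℝ≥0∞} {θ a t ϑ e Λ : ℝ} {R : ℕ} (hθ : 0 < θ) (ha : 0 < a)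
    (ht : 0 ≤ t) (hϑ : 0 ≤ ϑ) (he : 0 ≤ e) (hR : 1 ≤ R) (hΛ : R * a ≤ Λ) (hΛ' : Λ ≤ 2 * R * a)
    (hn : ENNReal.ofReal (θ * a) * n ≤ ENNReal.ofReal (θ * a) * u + 18 * x +
      4 * w * (ENNReal.ofReal (ϑ * a + 2 * e / R) + η))
    (hu : u ≤ s + 5 * C * ENNReal.ofReal t * w) :
    n ≤ (1 + 5 * C + 18 * (ENNReal.ofReal θ)⁻¹) * (ENNReal.ofReal (t + ϑ + e / Λ) * w + s +
      (ENNReal.ofReal a)⁻¹ * (x + w * η)) := by
  have hR' : (1 : ℝ) ≤ R := by exact_mod_cast hR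
  have hΛ0 : 0 < Λ := lt_of_lt_of_le (by positivity) hΛ
  have h1 : ϑ * a + 2 * e / R ≤ a * (4 * (t + ϑ + e / Λ)) := by
    have : 2 * e / R ≤ a * (4 * (e / Λ)) := by
      rw [div_le_iff₀ (by positivity), show a * (4 * (e / Λ)) * R = 2 * e * (2 * R * a / Λ) by ring]
      exact le_mul_of_one_le_right (by positivity) ((one_le_div hΛ0).2 hΛ')
    nlinarith [mul_nonneg ha.le ht, mul_nonneg ha.le hϑ]
  have h2 : ENNReal.ofReal (ϑ * a + 2 * e / R) ≤
      ENNReal.ofReal a * (4 * ENNReal.ofReal (t + ϑ + e / Λ)) := by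
    refine (ENNReal.ofReal_le_ofReal h1).trans (le_of_eq ?_)
    rw [ENNReal.ofReal_mul ha.le, ENNReal.ofReal_mul (by norm_num)]
    simp
  have h3 : ENNReal.ofReal t ≤ ENNReal.ofReal (t + ϑ + e / Λ) :=
    ENNReal.ofReal_le_ofReal (by have := div_nonneg he hΛ0.le; linarith)
  rw [ENNReal.ofReal_mul hθ.le] at hn
  generalize ENNReal.ofReal (t + ϑ + e / Λ) = τ at *
  have hθ0 : ENNReal.ofReal θ ≠ 0 := by simpa using hθ
  have ha0 : ENNReal.ofReal a ≠ 0 := by simpa using ha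
  have iθ := ENNReal.mul_inv_cancel hθ0 ENNReal.ofReal_ne_top
  have ia := ENNReal.mul_inv_cancel ha0 ENNReal.ofReal_ne_top
  generalize ENNReal.ofReal θ = T at *
  generalize ENNReal.ofReal a = A at *
  calc n = (T * T⁻¹) * (A * A⁻¹) * n := by rw [iθ, ia, one_mul, one_mul]
    _ = T⁻¹ * A⁻¹ * (T * A * n) := by ring
    _ ≤ T⁻¹ * A⁻¹ * (T * A * (s + 5 * C * τ * w) + 18 * x + 4 * w * (A * (4 * τ) + η)) := by
        gcongr
        refine hn.trans ?_
        gcongr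
        exact hu.trans (by gcongr)
    _ = (T * T⁻¹) * (A * A⁻¹) * (s + 5 * C * τ * w) + 18 * T⁻¹ * (A⁻¹ * x) +
          16 * T⁻¹ * (A * A⁻¹) * (τ * w) + 4 * T⁻¹ * (A⁻¹ * (w * η)) := by ring
    _ = s + 5 * C * (τ * w) + (16 * T⁻¹ * (τ * w) + 18 * T⁻¹ * (A⁻¹ * x) +
          4 * T⁻¹ * (A⁻¹ * (w * η))) := by rw [iθ, ia]; ring
    _ ≤ 1 * (τ * w + s + A⁻¹ * (x + w * η)) + 5 * C * (τ * w + s + A⁻¹ * (x + w * η)) +
          (18 * T⁻¹ * (τ * w + s) + 18 * T⁻¹ * (A⁻¹ * x) + 18 * T⁻¹ * (A⁻¹ * (w * η))) := by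
        gcongr
        · rw [one_mul]
          exact le_add_self.trans le_self_add
        · exact le_self_add.trans le_self_add
        · norm_num
        · exact le_self_add
        · norm_num
    _ = _ := by ring

/-- the final sum -/
theorem fin_sum {E M D K C c₁ c' A n w η t Q Z : ℝ≥0∞} (ht : t ≤ 1) (htQ : t * w ≤ Q)
    (hn : n ≤ c' * Q)
    (hE : E ≤ M + D * η * w + D * (D * ((K * (c₁ * A * n + Z) + 5 * C * t * (c₁ * A * w + Z)) +
      η * w) + A * n)) :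
    E ≤ M + (D + D * D + (D * D * K * c₁ + D) * c' + D * D * 5 * C * c₁ + D * D * (K + 5 * C)) *
      (A * Q + Z + w * η) := by
  refine hE.trans ?_
  have a1 : w * η ≤ A * Q + Z + w * η := le_add_self
  have a2 : A * Q ≤ A * Q + Z + w * η := le_self_add.trans le_self_add
  have a3 : Z ≤ A * Q + Z + w * η := le_add_self.trans le_self_add
  generalize A * Q + Z + w * η = T at *
  calc _ = M + (D * (w * η) + D * D * (w * η) + (D * D * K * c₁ + D) * (A * n) +
        D * D * 5 * C * c₁ * (A * (t * w)) + (D * D * K * Z + D * D * 5 * C * (t * Z))) := by ring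
    _ ≤ M + (D * T + D * D * T + (D * D * K * c₁ + D) * (c' * T) +
        D * D * 5 * C * c₁ * T + (D * D * K * T + D * D * 5 * C * (1 * T))) := by
        have a4 : A * n ≤ c' * T :=
          calc A * n ≤ A * (c' * Q) := by gcongr
            _ = c' * (A * Q) := by ring
            _ ≤ _ := by gcongr
        have a5 : A * (t * w) ≤ T := le_trans (by gcongr) a2
        exact add_le_add le_rfl (add_le_add (add_le_add (add_le_add (by gcongr)
          (mul_le_mul_right a4 _)) (mul_le_mul_right a5 _)) (by gcongr))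
    _ = _ := by ring

end Bt

open Bt in
theorem bot_of (hS : SUMK) : BOT := by
  classical
  intro p c₀ θ C c₁ hp hc₀ hθ hθ1 hc₁
  have hp0 : 0 ≤ p := by linarith
  refine ⟨2 ^ p + 2 ^ p * 2 ^ p + (2 ^ p * 2 ^ p * C ^ p * c₁ + 2 ^ p) *
    (1 + 5 * C + 18 * (ENNReal.ofReal θ)⁻¹) + 2 ^ p * 2 ^ p * 5 * C * c₁ +
    2 ^ p * 2 ^ p * (C ^ p + 5 * C), ?_, ?_⟩
  · have h1 : (2 : ℝ≥0∞) ^ p ≠ ⊤ := ENNReal.rpow_ne_top_of_nonneg hp0 (by simp)
    have h2 : (C : ℝ≥0∞) ^ p ≠ ⊤ := ENNReal.rpow_ne_top_of_nonneg hp0 (by simp)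
    have h3 : (ENNReal.ofReal θ)⁻¹ ≠ ⊤ := by simpa using hθ
    finiteness
  intro Ω ϑ e a o Λ CM S N R t B g h Nr η m c k I W V bt X Z hϑ hϑ1 he ha ho hN ht ht4 hR hRΛ hΛR
    hot ho12 hη1 hη hI H hbox hm0 hm1 hW hX hV
  obtain ⟨s1, s2⟩ := hS hp hη1 H hbox
  obtain ⟨𝓖, hG, hG1, hG2⟩ := line _ W V X hp hθ hθ1 hϑ hϑ1 (by linarith) he ha ho hR hη hI
    (sharp ha H hW) hX (fun z hz => ⟨(hV z hz).1, (hV z hz).2.1⟩)
  have hVW : V ⊆ W := fun z hz => (hV z hz).1 z (fun i => by simp) fun _ _ => rfl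
  have hinj : InjOn bt V := fun z hz z' hz' hb =>
    uface_inj (I := I) (by rw [← (hW z (hVW hz)).2.1, ← (hW z' (hVW hz')).2.1, hb])
  have cV : (V.card : ℝ≥0∞) ≤ W.card := by exact_mod_cast Finset.card_le_card hVW
  have cG : (𝓖.card : ℝ≥0∞) ≤ W.card := by exact_mod_cast Finset.card_le_card (hG.trans hVW)
  have cB : ((V \ 𝓖).card : ℝ≥0∞) ≤ W.card := by
    exact_mod_cast Finset.card_le_card (Finset.sdiff_subset.trans hVW)
  -- the cells that are not located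
  have hu : ((V.filter fun z => ∀ i : {z // z ∈ B ∨ z - Pi.single 2 1 ∈ B},
      ¬ closedBall (g (vt z)) (2 * R * a + o) ⊆ shp N t c i.1).card : ℝ≥0∞) ≤
      (V.filter fun z => g (vt z) ∈ strips₁ N).card + 5 * C * ENNReal.ofReal t * W.card := by
    have sub : (V.filter fun z => ∀ i : {z // z ∈ B ∨ z - Pi.single 2 1 ∈ B},
        ¬ closedBall (g (vt z)) (2 * R * a + o) ⊆ shp N t c i.1) ⊆
        (V.filter fun z => g (vt z) ∈ strips₁ N) ∪
          V.filter fun z => bt z ∈ hit S g (slabs N t B c) := fun z hz => by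
      obtain ⟨hz, hn⟩ := Finset.mem_filter.1 hz
      by_contra hc
      simp only [Finset.mem_union, Finset.mem_filter, hz, true_and, not_or] at hc
      have hv : vt z ∈ S.Q.cell (bt z) := (hW z (hVW hz)).2.1 ▸ Rw.vt_mem z I
      obtain ⟨z₀, a1, a2⟩ := hbox _ (hW z (hVW hz)).1 _ hv
      obtain ⟨z', b1, b2⟩ := locate (r := 2 * R * a + o) ht4 (by linarith) (by linarith) H.cen a1 a2
        (fun hs => hc.2 ⟨_, ⟨_, hv, rfl⟩, hs⟩) hc.1
      exact hn ⟨z', b1⟩ b2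
    have h1 := (s2 0 (bt '' V) (bt '' V) 1 hm0 Subset.rfl).2
    have e1 : bt '' V ∩ hit S g (slabs N t B c) =
        bt '' (V.filter fun z => bt z ∈ hit S g (slabs N t B c)) := by
      rw [Finset.coe_filter, ← image_inter_preimage]
      rfl
    rw [e1, tot_image _ (hinj.mono (Finset.coe_subset.2 (Finset.filter_subset _ _))),
      tot_image _ hinj] at h1
    simp only [Pi.one_apply, Finset.sum_const, nsmul_eq_mul, mul_one] at h1
    calc _ ≤ (((V.filter fun z => g (vt z) ∈ strips₁ N).card +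
          (V.filter fun z => bt z ∈ hit S g (slabs N t B c)).card : ℕ) : ℝ≥0∞) := by
          exact_mod_cast (Finset.card_le_card sub).trans (Finset.card_union_le _ _)
      _ ≤ _ := by
          push_cast
          gcongr
          exact h1.trans (by gcongr)
  have hn := count hθ ha ht.le hϑ he hR hRΛ hΛR hG2 hu
  -- the bad cells
  have bad : ∀ z ∈ V, En (3 - I.card) p (fun ξ => h ξ - (a • dgs I 0) ξ) (uface z I) ≤
      2 ^ p * (2 ^ p * (k (bt z) ^ p * om p CM S (vst N t ∘ g) (bt z) + η) +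
        ENNReal.ofReal a ^ p) := fun z hz => by
    obtain ⟨a1, a2, a3, -⟩ := hW z (hVW hz)
    have a4 := AT.ena6 z I
    have a5 := s1 (bt z) a1 (by
      rcases hI with rfl | rfl
      · exact Or.inl a3
      · refine Or.inr ⟨a3, ?_⟩
        rw [a2]
        simpa using a4)
    rw [a2, a3] at a5
    refine (ena.2.1 (3 - I.card) h (a • dgs I 0) hp (uface_meas z I)).1.trans ?_
    gcongr
    calc _ ≤ ENNReal.ofReal a ^ p * 1 := by
          gcongr
          exact norm_dgs I ha.le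
      _ = _ := mul_one _
  have hom : ∀ A ⊆ V, ∑ z ∈ A, om p CM S (vst N t ∘ g) (bt z) ≤
      c₁ * ENNReal.ofReal a ^ p * A.card + ∑ z ∈ V, Z z := fun A hA => by
    refine (Finset.sum_le_sum fun z hz => (hV z (hA hz)).2.2).trans ?_
    rw [Finset.sum_add_distrib, Finset.sum_const, nsmul_eq_mul, mul_comm]
    gcongr
  have hk := (s2 1 (bt '' V) (bt '' (V \ 𝓖 : Finset _)) _ hm1
    (image_mono (by simp))).1
  rw [tot_image _ (hinj.mono (by simp)), tot_image _ (hinj.mono (by simp)),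
    tot_image _ hinj] at hk
  refine fin_sum (t := ENNReal.ofReal t) (n := (V \ 𝓖).card)
    (ENNReal.ofReal_le_one.2 (by linarith)) ?_ hn ?_
  · refine le_trans ?_ (le_self_add.trans le_self_add)
    have hΛ0 : 0 ≤ Λ := le_trans (by positivity) hRΛ
    gcongr
    have := div_nonneg he hΛ0
    linarith
  · rw [← Finset.sum_sdiff hG, add_comm]
    refine add_le_add ?_ ?_
    · refine (Finset.sum_le_sum fun z hz => (hG1 z hz).2).trans ?_
      rw [Finset.sum_const, nsmul_eq_mul, mul_comm, add_mul,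
        Real.mul_rpow (by linarith) ha.le, ← mul_assoc, ENNReal.ofReal_mul (by positivity),
        ← ENNReal.ofReal_rpow_of_pos ha]
      gcongr
    · refine (Finset.sum_le_sum fun z hz => bad z (Finset.sdiff_subset hz)).trans ?_
      rw [← Finset.mul_sum, Finset.sum_add_distrib, ← Finset.mul_sum, Finset.sum_add_distrib,
        Finset.sum_const, Finset.sum_const, nsmul_eq_mul, nsmul_eq_mul, mul_comm _ η,
        mul_comm _ (ENNReal.ofReal a ^ p)]
      gcongr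
      refine hk.trans ?_
      gcongr
      · exact hom _ Finset.sdiff_subset
      · exact (hom V Subset.rfl).trans (by gcongr)

end P073.Nr
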