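import Vale.Agent.P073Y.Nr.Sk

/-!
# A target frame adapted to a type
-/

open Set Metric
open scoped NNReal

namespace P073.Nr

namespace Fr

/-- the matrix kills the basis vectors from `r` on and is bounded below on the others -/
def Ok (r : ℕ) (c : ℝ) (M : E3 →L[ℝ] E3) : Prop := ‖M‖ ≤ c ∧
  (∀ i : Fin 3, r ≤ (i : ℕ) → M (Pi.single i 1) = 0) ∧
  ∀ u : E3, (∀ i : Fin 3, r ≤ (i : ℕ) → u i = 0) → ‖u‖ ≤ c * ‖M u‖

/-- one more column, by the lemma of Riesz -/
theorem step {r : ℕ} (hr : r < 3) {c : ℝ} (hc : 1 ≤ c) {M : E3 →L[ℝ] E3} (hM : Ok r c M) :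
    ∃ N : E3 →L[ℝ] E3, Ok (r + 1) (5 * c) N ∧
      ∀ u : E3, (∀ i : Fin 3, r ≤ (i : ℕ) → u i = 0) → N u = M u := by
  obtain ⟨hn, hk, hl⟩ := hM
  set j : Fin 3 := ⟨r, hr⟩
  have hj : M (Pi.single j 1) = 0 := hk j le_rfl
  obtain ⟨w, hw, hw'⟩ := riesz_lemma_of_norm_lt (𝕜 := ℝ) (c := 2) (by norm_num) (R := 3)
    (by norm_num) (F := LinearMap.range (M : E3 →ₗ[ℝ] E3))
    (Submodule.closed_of_finiteDimensional _) (by
      by_contra h
      push Not at h
      have h1 : Function.Injective (M : E3 →ₗ[ℝ] E3) :=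
        LinearMap.injective_iff_surjective.2 fun y => h y
      have h2 := congrFun (h1 (hj.trans (map_zero _).symm)) j
      simp at h2)
  have hN : ∀ u, (M + (ContinuousLinearMap.proj j : E3 →L[ℝ] ℝ).smulRight w) u =
      M u + u j • w := fun u => rfl
  refine ⟨M + (ContinuousLinearMap.proj j : E3 →L[ℝ] ℝ).smulRight w, ⟨?_, fun i hi => ?_,
    fun u hu => ?_⟩, fun u hu => by rw [hN, hu j le_rfl, zero_smul, add_zero]⟩
  · refine ContinuousLinearMap.opNorm_le_bound _ (by positivity) fun u => ?_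
    rw [hN]
    have h1 := M.le_of_opNorm_le hn u
    have h2 := norm_add_le (M u) (u j • w)
    have h3 : ‖u j • w‖ ≤ ‖u‖ * 3 := by
      rw [norm_smul]
      exact mul_le_mul (norm_le_pi_norm u j) hw (norm_nonneg _) (norm_nonneg _)
    nlinarith [norm_nonneg u]
  · have h1 : j ≠ i := fun h => by
      rw [← h] at hi
      exact absurd hi (Nat.not_succ_le_self r)
    rw [hN, hk i ((Nat.le_succ r).trans hi), Pi.single_eq_of_ne h1, zero_smul, add_zero]
  · rw [hN]
    have h1 : ‖u j‖ ≤ ‖M u + u j • w‖ := by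
      rcases eq_or_ne (u j) 0 with h | h
      · rw [h, norm_zero]
        exact norm_nonneg _
      have h2 := hw' (M (-(u j)⁻¹ • u)) ⟨_, rfl⟩
      have h3 : M u + u j • w = u j • (w - M (-(u j)⁻¹ • u)) := by
        rw [map_smul, neg_smul, sub_neg_eq_add, smul_add, smul_smul, mul_inv_cancel₀ h, one_smul,
          add_comm]
      rw [h3, norm_smul]
      exact le_mul_of_one_le_right (norm_nonneg _) h2
    have h2 := hl (u - u j • Pi.single j 1) fun i hi => by
      rcases eq_or_ne i j with h | h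
      · simp [h]
      · simp [h, hu i (Nat.succ_le_of_lt (hi.lt_of_ne fun e => h (Fin.ext e.symm)))]
    rw [map_sub, map_smul, hj, smul_zero, sub_zero] at h2
    have h3 : ‖u‖ ≤ ‖u - u j • Pi.single j 1‖ + ‖u j‖ := by
      have := norm_add_le (u - u j • Pi.single j 1) (u j • (Pi.single j 1 : E3))
      rwa [sub_add_cancel, norm_smul, Pi.norm_single, norm_one, mul_one] at this
    have h4 : ‖M u‖ ≤ ‖M u + u j • w‖ + ‖u j‖ * 3 := by
      have := norm_sub_le (M u + u j • w) (u j • w)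
      rw [add_sub_cancel_right, norm_smul] at this
      exact this.trans (add_le_add le_rfl (mul_le_mul_of_nonneg_left hw (norm_nonneg _)))
    nlinarith [norm_nonneg (M u + u j • w), norm_nonneg (M u)]

theorem full (k : ℕ) : ∀ {r : ℕ} {c : ℝ} {M : E3 →L[ℝ] E3}, r + k = 3 → 1 ≤ c → Ok r c M →
    ∃ N : E3 →L[ℝ] E3, Ok 3 (5 ^ k * c) N ∧
      ∀ u : E3, (∀ i : Fin 3, r ≤ (i : ℕ) → u i = 0) → N u = M u := by
  induction k with
  | zero =>
    intro r c M hr _ hM
    obtain rfl : r = 3 := hr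
    exact ⟨M, by simpa using hM, fun _ _ => rfl⟩
  | succ k ih =>
    intro r c M hr hc hM
    obtain ⟨N, hN, e⟩ := step (by omega) hc hM
    obtain ⟨N', hN', e'⟩ := ih (r := r + 1) (by omega) (by linarith) hN
    refine ⟨N', by rwa [pow_succ, mul_assoc], fun u hu => ?_⟩
    rw [e' u fun i hi => hu i ((Nat.le_succ r).trans hi), e u hu]

theorem dgs_apply (T : Ty) (u : E3) (i : Fin 3) :
    dgs T.I 0 u i = if T.r ≤ (i : ℕ) then 0 else u i := by
  by_cases h : T.r ≤ (i : ℕ) <;> simp [dgs, Ty.I, h]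

theorem kill (T : Ty) (u : E3) : T.A (T.L (u - dgs T.I 0 u)) = 0 := by
  rw [pi_eq_sum_univ' (u - dgs T.I 0 u), map_sum, map_sum]
  refine Finset.sum_eq_zero fun i _ => ?_
  rw [map_smul, map_smul]
  by_cases h : T.r ≤ (i : ℕ)
  · exact smul_eq_zero_of_right _ (T.ker i h)
  · exact smul_eq_zero_of_left (by rw [Pi.sub_apply, dgs_apply, if_neg h, sub_self]) _

end Fr

open Fr

theorem frame : FRAME := by
  refine ⟨fun b => 125 * (b * b), fun T _ => ?_⟩
  have hb : (1 : ℝ) ≤ T.b := Nat.one_le_cast.2 T.b_pos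
  have hbb : (T.b : ℝ) ≤ T.b * T.b := le_mul_of_one_le_left (by positivity) hb
  obtain ⟨N, ⟨h1, -, h2⟩, e⟩ := full (3 - T.r) (r := T.r) (c := T.b * T.b)
    (M := T.A.comp (T.L : E3 →L[ℝ] E3)) (by have := T.r_le; omega) (hb.trans hbb)
    ⟨(T.A.opNorm_comp_le _).trans (mul_le_mul T.normA T.normL (norm_nonneg _) (by positivity)),
      T.ker, fun u hu => (T.low u hu).trans (mul_le_mul_of_nonneg_right hbb (norm_nonneg _))⟩
  have h3 : (5 : ℝ) ^ (3 - T.r) * (T.b * T.b) ≤ 125 * (T.b * T.b) :=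
    mul_le_mul_of_nonneg_right ((pow_le_pow_right₀ (by norm_num) (Nat.sub_le 3 _)).trans_eq
      (by norm_num)) (by positivity)
  have h4 : ∀ u, ‖u‖ ≤ 125 * (T.b * T.b) * ‖N u‖ := fun u =>
    (h2 u fun i hi => absurd i.2 (not_lt.2 hi)).trans
      (mul_le_mul_of_nonneg_right h3 (norm_nonneg _))
  have h5 : Function.Injective (N : E3 →ₗ[ℝ] E3) := (injective_iff_map_eq_zero _).2 fun u hu => by
    have := h4 u
    rw [show N u = 0 from hu, norm_zero, mul_zero] at this
    exact norm_le_zero_iff.1 this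
  let Q : E3 ≃L[ℝ] E3 := (LinearEquiv.ofInjectiveEndo _ h5).toContinuousLinearEquiv
  have hQ : ∀ u, Q u = N u := fun u => rfl
  refine ⟨Q.symm, ?_, ?_, fun u => ?_⟩
  · refine ContinuousLinearMap.opNorm_le_bound _ (by positivity) fun u => ?_
    have := h4 (Q.symm u)
    rw [← hQ, Q.apply_symm_apply] at this
    exact_mod_cast this
  · refine ContinuousLinearMap.opNorm_le_bound _ (by positivity) fun u => ?_
    exact_mod_cast N.le_of_opNorm_le (h1.trans h3) u
  · rw [Q.symm_apply_eq, hQ, e _ fun i hi => by rw [dgs_apply, if_pos hi]]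
    have h6 := kill T u
    rw [map_sub, map_sub] at h6
    exact sub_eq_zero.1 h6

end P073.Nr
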