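import Vale.Agent.P073Y.Nr.SpeedA

/-!
# The speeds on the wires near a type
-/

open Set Metric Topology Filter MeasureTheory
open scoped NNReal ENNReal

namespace P073.Nr

namespace Sp

open P073.Top P073.Zn P073.M2 P073.Ln
open P073.G2 (Fine1)
open Vale.Agent.P073.HB (GoodSeg)

/-- the norm of the stretched frame -/
noncomputable def kap (cb : ℝ≥0) (N : ℕ) (t : ℝ) : ℝ≥0∞ := ENNReal.ofReal (N / t) * cb

theorem enorm_le {L : E3 →L[ℝ] E3} {c : ℝ} (h : ‖L‖ ≤ c) : ‖L‖ₑ ≤ ENNReal.ofReal c := by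
  rw [← ofReal_norm]
  exact ENNReal.ofReal_le_ofReal h

theorem edist_lin {L : E3 →L[ℝ] E3} {c : ℝ} (h : ‖L‖ ≤ c) (u w : E3) :
    edist (L u) (L w) ≤ ENNReal.ofReal c * edist u w := by
  rw [edist_eq_enorm_sub, edist_eq_enorm_sub, ← map_sub]
  exact (L.le_opENorm _).trans (mul_le_mul_left (enorm_le h) _)

variable {p : ℝ} {K₂ cb M₀ : ℝ≥0} {Mt : Ty → ℕ → ℝ≥0} {Ω : Set E3} {f g₀ Θ g : E3 → E3}
  {F : E3 → (E3 →L[ℝ] E3)} {P : Par} {σ : E3 → ℝ} {𝓒 : Set (ℕ × (Fin 3 → ℤ))} {S₀ : Set E3}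
  {Sl : Ty → ℕ → Set E3} {𝓜 : Mesh2 Ω P σ 𝓒 M₀ Mt S₀ Sl} {j : Fin P.N} {Y : TyZ Ω f}
  {l Λ o : ℝ} {T : E3 ≃ᴬ[ℝ] E3} {Pw : 𝓜.Q.ι → (E3 ≃L[ℝ] E3)} {Ξ : Fin P.N → ℝ≥0∞} {δ : ℝ≥0∞}
  {e : 𝓜.Q.ι} {x y v : E3} {z : Fin 3 → ℤ} {k : Fin 3}

theorem one_le (Y : TyZ Ω f) : 1 ≤ (Y.N : ℝ) / Y.t := by
  have h : (1 : ℝ) ≤ Y.N := by exact_mod_cast Y.N_pos
  rw [le_div_iff₀ Y.t_pos]
  linarith [Y.t_le]

theorem vT (hy : Typ P j Y cb l Λ o T) (u w : E3) :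
    edist (vst Y.N Y.t (T u)) (vst Y.N Y.t (T w)) =
      ENNReal.ofReal l⁻¹ * edist (vst Y.N Y.t (Y.Bm u)) (vst Y.N Y.t (Y.Bm w)) := by
  obtain ⟨v, hv⟩ := hy.T_eq
  simp only [vst_eq, hv, edist_eq_enorm_sub, ← map_sub, sub_sub_sub_cancel_right, ← smul_sub,
    map_smul, enorm_smul]
  rw [Real.enorm_eq_ofReal (inv_nonneg.2 hy.l_pos.le)]

theorem vB (hy : Typ P j Y cb l Λ o T) (u w : E3) :
    edist (vst Y.N Y.t (T u)) (vst Y.N Y.t (T w)) ≤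
      ENNReal.ofReal l⁻¹ * kap cb Y.N Y.t * edist u w := by
  rw [vT hy, mul_assoc, kap, mul_assoc, vst_eq, vst_eq, ← ENNReal.ofReal_coe_nnreal]
  exact mul_le_mul_right ((edist_lin (norm_dgs (one_le Y) _) _ _).trans
    (mul_le_mul_right (edist_lin hy.nB u w) _)) _

/-- the hypotheses -/
structure Ctx (𝓜 : Mesh2 Ω P σ 𝓒 M₀ Mt S₀ Sl) (j : Fin P.N) (Y : TyZ Ω f) (cb K₂ : ℝ≥0)
    (l Λ o : ℝ) (T : E3 ≃ᴬ[ℝ] E3) (g₀ Θ g : E3 → E3) (F : E3 → (E3 →L[ℝ] E3))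
    (Pw : 𝓜.Q.ι → (E3 ≃L[ℝ] E3)) (Ξ : Fin P.N → ℝ≥0∞) (δ : ℝ≥0∞) : Prop where
  side : SIDE
  api : CubeApi Ω P
  mt : ∀ T m, M₀ ≤ Mt T m
  meas : Measurable F
  le_one : δ ≤ 1
  good : ∀ e x y, 𝓜.Q'.dim e = 1 → 𝓜.Q'.cell e = segment ℝ x y → GoodSeg f F x (y - x)
  latt : Latt P j 𝓜.Q (𝓜.ν j) (Sl (P.T j) (P.m j)) M₀ (Mt (P.T j) (P.m j))
  typ : Typ P j Y cb l Λ o T
  pw : ∀ e, 𝓜.Q.cell e ⊆ Fine1 P j → ∀ y, Pw e y = vst Y.N Y.t (Y.Bm y)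
  pw' : ∀ e, 𝓜.Q.cell e ⊆ P.U j → ¬ 𝓜.Q.cell e ⊆ Fine1 P j →
    Pw e = ContinuousLinearEquiv.refl ℝ E3
  eq : ∀ x, g x = g₀ (Θ x)
  pre : Pre P 𝓜.Q 𝓜.Q' f g₀ Θ K₂ Pw 𝓜.ν Ξ δ

namespace Ctx

variable (H : Ctx 𝓜 j Y cb K₂ l Λ o T g₀ Θ g F Pw Ξ δ)
include H

theorem sub_eq (x y : E3) : y - x = P.Lam j (𝓜.ν j y - 𝓜.ν j x) := by
  rw [map_sub, 𝓜.ν_eq, 𝓜.ν_eq, ← add_sub_add_left_eq_sub (P.Lam j _) _ P.w, H.api.lam_nu,
    H.api.lam_nu]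

theorem prm_fine (he : 𝓜.Q.dim e = 1) (hs : 𝓜.Q.cell e = segment ℝ x y)
    (hf : 𝓜.Q.cell e ⊆ Fine1 P j) :
    Prm (vst Y.N Y.t ∘ T ∘ g) x y (segVar (fun u => vst Y.N Y.t (T (g₀ u))) x y) := by
  have h := (H.pre.speed e x y he hs).1
  rw [hs] at h
  rw [segVar_mul (H := Pw e ∘ g₀) fun u w => by
    rw [vT H.typ, Function.comp_apply, Function.comp_apply, H.pw e hf, H.pw e hf]]
  exact prm_of h fun u w => by
    simp only [Function.comp_apply, H.pw e hf, H.eq, vT H.typ, le_refl]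

theorem prm (he : 𝓜.Q.dim e = 1) (hs : 𝓜.Q.cell e = segment ℝ x y) (hU : 𝓜.Q.cell e ⊆ P.U j) :
    Prm (vst Y.N Y.t ∘ T ∘ g) x y (ENNReal.ofReal l⁻¹ * kap cb Y.N Y.t * segVar g₀ x y) := by
  by_cases hf : 𝓜.Q.cell e ⊆ Fine1 P j
  · exact (H.prm_fine he hs hf).mono (segVar_le_mul fun u w => vB H.typ _ _)
  · have h := (H.pre.speed e x y he hs).1
    rw [hs, H.pw' e hU hf] at h
    exact prm_of h fun u w => by
      simpa only [Function.comp_apply, H.eq, ContinuousLinearEquiv.refl_apply] using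
        vB H.typ (g₀ (Θ u)) (g₀ (Θ w))

theorem varS (hs : 𝓜.Q.cell e = segment ℝ x y) (hU : 𝓜.Q.cell e ⊆ P.U j) :
    segVar g₀ x y ≤ K₂ * (∫⁻ u in 𝓜.Q.cell e, ‖F u‖ₑ ∂(μH[1])) + δ := by
  classical
  obtain ⟨η, h1, h2⟩ := H.pre.var
  rw [hs] at hU ⊢
  refine (G2.subw (η := fun e => if 𝓜.Q'.cell e ⊆ P.U j then η e else ⊤) 𝓜.cvx' H.meas
    (hs ▸ 𝓜.sub' e) H.good fun e x y a b => ?_).trans (add_le_add_right
    (le_trans (ENNReal.tsum_le_tsum fun i => ?_) h1) _)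
  · split_ifs with h
    · exact h2 e x y a b ⟨j, h⟩
    · simp
  · exact indicator_apply_le' (fun hi => (if_pos (Subset.trans hi hU)).le) fun _ => zero_le

theorem hold (hp : 1 ≤ p) (hs : 𝓜.Q.cell e = segment ℝ x y) (hU : 𝓜.Q.cell e ⊆ P.U j)
    (A : E3 →L[ℝ] E3) : (∫⁻ u in 𝓜.Q.cell e, ‖F u - A‖ₑ ∂(μH[1])) ^ p ≤
      ((P.T j).b : ℝ≥0∞) ^ (p - 1) *
        (ENNReal.ofReal P.η ^ (p - 1) * ∫⁻ u in 𝓜.Q.cell e, ‖F u - A‖ₑ ^ p ∂(μH[1])) := by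
  have hx : x ∈ 𝓜.Q.cell e := hs ▸ left_mem_segment ℝ x y
  have h := 𝓜.near_diam e j ⟨x, hx, hU hx⟩ x hx y (hs ▸ right_mem_segment ℝ x y)
  rw [hs]
  exact holder hp (H.meas.sub_const A).enorm h

theorem len (he : 𝓜.Q.dim e = 1) (hs : 𝓜.Q.cell e = segment ℝ x y) (hU : 𝓜.Q.cell e ⊆ P.U j) :
    1 ≤ (Mt (P.T j) (P.m j) * (P.T j).b : ℝ≥0∞) * edist (𝓜.ν j x) (𝓜.ν j y) := by
  have hx : x ∈ 𝓜.Q.cell e := hs ▸ left_mem_segment ℝ x y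
  have h1 := 𝓜.wire_len e e x y Subset.rfl he hs
  rw [𝓜.kf_near e j ⟨x, hx, hU hx⟩, dist_comm, dist_eq_norm, H.sub_eq] at h1
  have h2 : (𝓜.MI e : ℝ) ≤ Mt (P.T j) (P.m j) := by
    by_cases hf : 𝓜.far e
    · rw [𝓜.MI_far e hf]
      exact H.mt _ _
    · rw [𝓜.MI_near e j hf hU]
  have h3 := h1.trans (mul_le_mul h2 (H.api.lam_le j _) (norm_nonneg _) (NNReal.coe_nonneg _))
  rw [← dist_eq_norm, dist_comm] at h3
  have h4 : (1 : ℝ) ≤ Mt (P.T j) (P.m j) * (P.T j).b * dist (𝓜.ν j x) (𝓜.ν j y) :=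
    le_of_mul_le_mul_left (by rw [mul_one]; exact h3.trans_eq (by ring)) H.api.eta_pos
  rw [edist_nndist]
  exact_mod_cast h4

theorem near (hp : 1 ≤ p) (he : 𝓜.Q.dim e = 1) (hU : 𝓜.Q.cell e ⊆ P.U j) :
    lipc (vst Y.N Y.t ∘ T ∘ g ∘ (𝓜.ν j).symm) (𝓜.ν j '' 𝓜.Q.cell e) ^ p ≤
      (Mt (P.T j) (P.m j) * (P.T j).b * kap cb Y.N Y.t) ^ p * cst p K₂ (P.T j).b *
        ENNReal.ofReal l⁻¹ ^ p *
        (ENNReal.ofReal P.η ^ (p - 1) * (∫⁻ x in 𝓜.Q.cell e, ‖F x‖ₑ ^ p ∂(μH[1])) + δ) := by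
  obtain ⟨x, y, -, -, -, hs, -⟩ := 𝓜.cvx.exists_segment he
  have h1 := lipc_img (𝓜.ν j) (H.len he hs hU) (H.prm he hs hU)
  have h2 := H.hold hp hs hU 0
  simp only [sub_zero] at h2
  have h3 := est hp (a := 0) (by simpa only [mul_zero, add_zero] using H.varS hs hU) h2 H.le_one
  rw [ENNReal.zero_rpow_of_pos (by linarith), zero_add] at h3
  rw [← hs] at h1
  exact pow_est hp h1 h3

theorem varK (hp : 1 ≤ p) (hU : 𝓜.Q.cell e ⊆ P.U j)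
    (hz : 𝓜.ν j '' 𝓜.Q.cell e = segment ℝ (vt z) (nx z k)) (hk : k ∈ (P.T j).I) :
    segVar g₀ ((𝓜.ν j).symm (vt z)) ((𝓜.ν j).symm (nx z k)) ≤
      K₂ * (∫⁻ u in 𝓜.Q.cell e, ‖F u - (P.T j).A‖ₑ ∂(μH[1])) + δ := by
  have hs := cell_eq _ hz
  have hne : (𝓜.ν j).symm (vt z) ≠ (𝓜.ν j).symm (nx z k) := fun h => by
    simpa [(𝓜.ν j).symm.injective h] using (H.side.2.1 z k).2
  obtain ⟨u, hu, hm⟩ : midpoint ℝ (vt z) (nx z k) ∈ 𝓜.ν j '' 𝓜.Q.cell e :=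
    hz ▸ midpoint_mem_segment _ _
  obtain ⟨e', he'⟩ := 𝓜.keep e fun j' h => by
    rcases eq_or_ne j j' with rfl | hj
    · obtain ⟨z', -, hz'⟩ := (h hu).1
      rw [← 𝓜.ν_eq, hm] at hz'
      exact not_face hk hz'
    · exact disjoint_left.1 (H.api.U_disj j j' hj) (hU hu)
        (H.api.buf_U j' (H.api.fine_buf j' (h hu).1))
  obtain ⟨η, h1, h2⟩ := H.pre.var
  have h3 := he'.trans hs
  have h4 := G2.dim_seg 𝓜.cvx' h3 hne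
  refine (h2 e' _ _ h4 h3 ⟨j, he'.subset.trans hU⟩).trans (add_le_add (mul_le_mul_right ?_ _)
    ((ENNReal.le_tsum e').trans h1))
  rw [hs]
  refine (segv (P.T j).A hp hne H.meas (H.good e' _ _ h4 h3)).2.1 ?_
  rw [H.sub_eq, ContinuousAffineEquiv.apply_symm_apply, ContinuousAffineEquiv.apply_symm_apply,
    nx_sub]
  exact H.api.B_ker j k hk

theorem varL (hU : 𝓜.Q.cell e ⊆ P.U j)
    (hz : 𝓜.ν j '' 𝓜.Q.cell e = segment ℝ (vt z) (nx z k)) (hk : k ∉ (P.T j).I) :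
    segVar g₀ ((𝓜.ν j).symm (vt z)) ((𝓜.ν j).symm (nx z k)) ≤
      K₂ * ((∫⁻ u in 𝓜.Q.cell e, ‖F u - (P.T j).A‖ₑ ∂(μH[1])) +
        ((P.T j).b : ℝ≥0∞) ^ 2 * ENNReal.ofReal (P.a j)) + δ := by
  have hs := cell_eq _ hz
  refine (H.varS hs hU).trans (add_le_add_left (mul_le_mul_right ?_ _) _)
  refine (lintegral_mono (g := fun u => ‖F u - (P.T j).A‖ₑ + (P.T j).b) fun u => ?_).trans ?_
  · have h := enorm_add_le (F u - (P.T j).A) (P.T j).A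
    rw [sub_add_cancel] at h
    exact h.trans (add_le_add_right ((enorm_le (P.T j).normA).trans_eq
      (ENNReal.ofReal_natCast _)) _)
  · rw [lintegral_add_right _ measurable_const, setLIntegral_const, pow_two, mul_assoc]
    refine add_le_add_right (mul_le_mul_right ?_ _) _
    have h := H.api.lam_flat j (Pi.single k 1) fun i hi => by
      simp [show i ≠ k from fun e => hk (e ▸ hi)]
    rw [hs, hausdorffMeasure_segment, edist_comm, edist_eq_enorm_sub, H.sub_eq,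
      ContinuousAffineEquiv.apply_symm_apply, ContinuousAffineEquiv.apply_symm_apply, nx_sub,
      ← ofReal_norm, ← ENNReal.ofReal_natCast, ← ENNReal.ofReal_mul (Nat.cast_nonneg _)]
    exact ENNReal.ofReal_le_ofReal (by simpa [Pi.norm_single] using h)

theorem buf (hp : 1 ≤ p) (he : 𝓜.Q.dim e = 1) (hB : 𝓜.Q.cell e ⊆ P.BufSet j) :
    lipc (vst Y.N Y.t ∘ T ∘ g ∘ (𝓜.ν j).symm) (𝓜.ν j '' 𝓜.Q.cell e) ^ p ≤
      (1 * kap cb Y.N Y.t) ^ p * cst p K₂ (P.T j).b * ENNReal.ofReal l⁻¹ ^ p *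
        (ENNReal.ofReal (P.a j) ^ p + ENNReal.ofReal P.η ^ (p - 1) *
          (∫⁻ x in 𝓜.Q.cell e, ‖F x - (P.T j).A‖ₑ ^ p ∂(μH[1])) + δ) := by
  obtain ⟨z, k, hz⟩ := H.latt.edge e he hB
  have hU := hB.trans (H.api.buf_U j)
  have hs := cell_eq _ hz
  have h1 := lipc_img (𝓜.ν j) (c := 1) (by simp [(H.side.2.1 z k).2]) (H.prm he hs hU)
  rw [← hs] at h1
  refine pow_est hp h1 (est hp ?_ (H.hold hp hs hU _) H.le_one)
  by_cases hk : k ∈ (P.T j).I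
  · exact (H.varK hp hU hz hk).trans (add_le_add_left (mul_le_mul_right le_self_add _) _)
  · exact H.varL hU hz hk

theorem step (hk : k ∉ (P.T j).I) :
    ((l⁻¹ • (Y.Bm : E3 →L[ℝ] E3)).comp (P.B j)) (nx z k - vt z) = Pi.single k (P.a j / l) := by
  have h : Y.Bm (P.B j (Pi.single k 1)) = Pi.single k (P.a j) := by
    rw [Par.B, ContinuousLinearMap.comp_apply, lam_single P j hk, H.typ.frame, dgs_single hk]
  rw [nx_sub, ContinuousLinearMap.comp_apply, smul_apply,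
    ContinuousLinearEquiv.coe_coe, h, ← Pi.single_smul', smul_eq_mul, div_eq_inv_mul]

theorem fix {z' : Fin 3 → ℤ} (hz : z ∈ P.Inner j) (h : vt z' ∈ ucube z) :
    g ((𝓜.ν j).symm (vt z')) = g₀ ((𝓜.ν j).symm (vt z')) := by
  obtain ⟨c, hc⟩ := H.latt.vtx z (H.api.inner_buf j hz) z' h
  have h1 := H.pre.keep c
  rw [hc, image_singleton, singleton_eq_singleton_iff] at h1
  rw [H.eq, h1]

theorem a_nonneg : 0 ≤ P.a j / l := (div_pos (H.api.a_pos j) H.typ.l_pos).le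

theorem dev (hv : ∀ y, T y = l⁻¹ • Y.Bm y - v) (hz : z ∈ P.Inner j) (hk : k ∉ (P.T j).I) :
    Dev (P.a j / l) (T ∘ g ∘ (𝓜.ν j).symm) (vt z) (nx z k) k
      (segVar (fun u => (l⁻¹ • (Y.Bm : E3 →L[ℝ] E3)) (g₀ ((𝓜.ν j).symm u)) + -v -
        (l⁻¹ • (Y.Bm : E3 →L[ℝ] E3)).comp (P.B j) u) (vt z) (nx z k)) := by
  have D := Ln.dev (g := fun u => (l⁻¹ • (Y.Bm : E3 →L[ℝ] E3)) (g₀ ((𝓜.ν j).symm u)) + -v) _ k
    H.a_nonneg (H.step (z := z) hk)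
  obtain ⟨e, he, hs, -⟩ := H.latt.seg z (H.api.inner_buf j hz) z k
    ((seg_sub z hk).trans fun _ h => h.1)
  refine ⟨fun i => le_of_eq_of_le ?_ (D.var i), ?_⟩
  · have h := (H.pre.speed e _ _ he (cell_eq _ hs)).2
      ((ContinuousLinearMap.proj i).comp (l⁻¹ • (Y.Bm : E3 →L[ℝ] E3)))
    rw [← segVar_map, ← segVar_map] at h
    refine (segVar_eq fun u w => ?_).trans (h.trans (segVar_eq fun u w => ?_))
    · simp [hv, H.eq, edist_sub_right]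
    · simp [edist_add_right]
  · have h := D.net
    simpa only [Function.comp_apply, hv, nx, H.fix hz (Rw.vt_mem z ∅).1,
      H.fix hz (Rw.step_mem z hk).1, smul_apply, ContinuousLinearEquiv.coe_coe,
      ← sub_eq_add_neg] using h

theorem fine (hv : ∀ y, T y = l⁻¹ • Y.Bm y - v) (hz : z ∈ P.Inner j) (hk : k ∉ (P.T j).I)
    (he : 𝓜.Q.dim e = 1) (hs : 𝓜.ν j '' 𝓜.Q.cell e = segment ℝ (vt z) (nx z k)) :
    𝓜.Q.cell e ⊆ P.BufSet j ∧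
    lipc (vst Y.N Y.t ∘ T ∘ g ∘ (𝓜.ν j).symm) (𝓜.ν j '' 𝓜.Q.cell e) ≤
      ENNReal.ofReal (P.a j / l) + ENNReal.ofReal (Y.N / Y.t) *
        segVar (fun u => (l⁻¹ • (Y.Bm : E3 →L[ℝ] E3)) (g₀ ((𝓜.ν j).symm u)) + -v -
          (l⁻¹ • (Y.Bm : E3 →L[ℝ] E3)).comp (P.B j) u) (vt z) (nx z k) := by
  have hf : 𝓜.Q.cell e ⊆ Fine1 P j := fun u hu => by
    have h : P.nu j u ∈ segment ℝ (vt z) (nx z k) := by
      rw [← 𝓜.ν_eq, ← hs]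
      exact mem_image_of_mem _ hu
    exact ⟨⟨z, hz, seg_sub z hk h⟩, k, fun i hi => ⟨_, seg_coord hi h⟩⟩
  refine ⟨fun u hu => H.api.fine_buf j (hf hu).1, ?_⟩
  have hc := cell_eq _ hs
  have h1 := lipc_img (𝓜.ν j) (c := 1) (by simp [(H.side.2.1 z k).2]) (H.prm_fine he hc hf)
  rw [← hc, one_mul, ← segVar_map] at h1
  have h2 := G2.segVar_comp_le'
    (fun u => (l⁻¹ • (Y.Bm : E3 →L[ℝ] E3)) (g₀ ((𝓜.ν j).symm u)) + -v)
    ((l⁻¹ • (Y.Bm : E3 →L[ℝ] E3)).comp (P.B j)) (dgs {2} (Y.N / Y.t)) (vt z) (nx z k)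
  have h3 : k ∉ ({2} : Finset (Fin 3)) := fun h => hk <| by
    rw [Finset.mem_singleton.1 h]
    simpa [Ty.I] using H.typ.r_le
  rw [H.step hk, dgs_single h3, ← ofReal_norm, Pi.norm_single,
    Real.norm_of_nonneg H.a_nonneg] at h2
  refine h1.trans (le_trans (le_of_eq ?_) (h2.trans (add_le_add_right
    (mul_le_mul_left (enorm_le (norm_dgs (one_le Y) _)) _) _)))
  simp only [vst_eq, hv, sub_eq_add_neg, smul_apply,
    ContinuousLinearEquiv.coe_coe]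

end Ctx

end Sp

open Sp in
theorem speed {p : ℝ} (hp : 1 ≤ p) (hs : SIDE) : SPEED p := by
  intro K₂ cb Mt
  have h0 : 0 ≤ p := by linarith
  have hk : ∀ c N t, kap c N t ≠ ⊤ := fun c N t =>
    ENNReal.mul_ne_top ENNReal.ofReal_ne_top ENNReal.coe_ne_top
  have hc : ∀ b : ℕ, cst p K₂ b ≠ ⊤ := fun b =>
    cst_ne hp ENNReal.coe_ne_top (ENNReal.natCast_ne_top b)
  refine ⟨fun b N t => (1 * kap (cb b) N t) ^ p * cst p K₂ b * ENNReal.ofReal (N / t),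
    fun T N t m => (Mt T m * T.b * kap (cb T.b) N t) ^ p * cst p K₂ T.b, fun b N t => ?_,
    fun T N t m => ?_, ?_⟩
  · have := hk (cb b) N t
    have := hc b
    finiteness
  · have := hk (cb T.b) N t
    have := hc T.b
    finiteness
  intro Ω f g₀ Θ g F P σ 𝓒 M₀ S₀ Sl 𝓜 j Y l Λ o T Pw Ξ δ hΩ hO h1 h2 h3 h4 h5 h6 h7 h8 h9 h10
  have H : Ctx 𝓜 j Y (cb (P.T j).b) K₂ l Λ o T g₀ Θ g F Pw Ξ δ :=
    ⟨hs, cube_thm P hΩ hO, h1, h2, h3, h4, h5, h6, h7, h8, h9, h10⟩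
  obtain ⟨v, hv⟩ := h6.T_eq
  have hl := h6.l_pos
  have hs1 : 1 ≤ ENNReal.ofReal (Y.N / Y.t) := ENNReal.one_le_ofReal.2 (one_le Y)
  refine ⟨_, ⟨fun e he hU => H.near hp he hU, fun e he hB => (H.buf hp he hB).trans
    (mul_le_mul_left (mul_le_mul_left (le_mul_of_one_le_right' hs1) _) _),
    fun z hz k hk => H.dev hv hz hk, fun z hz k hk e he hs => ?_⟩, fun W hW => ?_⟩
  · obtain ⟨hB, h⟩ := H.fine hv hz hk he hs
    refine fine_est hp (ENNReal.ofReal_pos.2 (div_pos (H.api.a_pos j) hl)).ne'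
      ENNReal.ofReal_ne_top hs1 ?_ h (H.buf hp he hB)
    rw [div_eq_inv_mul, ENNReal.ofReal_mul (inv_nonneg.2 hl.le)]
  · refine (h10.dev j _ (-v) W hW).trans (mul_le_mul_left (enorm_le ?_) _)
    rw [norm_smul, Real.norm_of_nonneg (inv_nonneg.2 hl.le), div_eq_inv_mul]
    exact mul_le_mul_of_nonneg_left h6.nB (inv_nonneg.2 hl.le)

end P073.Nr
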