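import Vale.Agent.P073Y.Nr.Sk

/-!
# Sums over sets of cells
-/

open Set Metric Topology Filter MeasureTheory
open scoped NNReal ENNReal

namespace P073.Nr

open P073.Top P073.Zn

namespace Sm

variable {ι κ : Type} {A B : Set ι} {a b : ι → ℝ≥0∞}

theorem tot_eq (A : Set ι) (a : ι → ℝ≥0∞) : tot A a = ∑' i : A, a i := (tsum_subtype A a).symm

theorem tot_mono (h : A ⊆ B) (h' : ∀ i ∈ A, a i ≤ b i) : tot A a ≤ tot B b :=
  ENNReal.tsum_le_tsum fun i => indicator_apply_le' (fun hi => by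
    rw [indicator_of_mem (h hi)]
    exact h' i hi) fun _ => zero_le

theorem tot_mono_set (h : A ⊆ B) (a : ι → ℝ≥0∞) : tot A a ≤ tot B a :=
  tot_mono h fun _ _ => le_rfl

theorem tot_mono_fun (h : ∀ i ∈ A, a i ≤ b i) : tot A a ≤ tot A b := tot_mono subset_rfl h

theorem tot_congr (h : ∀ i ∈ A, a i = b i) : tot A a = tot A b :=
  le_antisymm (tot_mono_fun fun i hi => (h i hi).le) (tot_mono_fun fun i hi => (h i hi).ge)

theorem tot_empty (a : ι → ℝ≥0∞) : tot ∅ a = 0 := by simp [tot]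

theorem tot_univ (a : ι → ℝ≥0∞) : tot univ a = ∑' i, a i := by simp [tot]

theorem le_tot {i : ι} (h : i ∈ A) (a : ι → ℝ≥0∞) : a i ≤ tot A a :=
  (indicator_of_mem h a).ge.trans (ENNReal.le_tsum i)

theorem tot_add (A : Set ι) (a b : ι → ℝ≥0∞) :
    tot A (fun i => a i + b i) = tot A a + tot A b := by
  simp only [tot_eq, ENNReal.tsum_add]

theorem tot_mul_left (A : Set ι) (c : ℝ≥0∞) (a : ι → ℝ≥0∞) :
    tot A (fun i => c * a i) = c * tot A a := by
  simp only [tot_eq, ENNReal.tsum_mul_left]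

theorem tot_mul_right (A : Set ι) (c : ℝ≥0∞) (a : ι → ℝ≥0∞) :
    tot A (fun i => a i * c) = tot A a * c := by
  simp only [tot_eq, ENNReal.tsum_mul_right]

theorem tot_union_le (A B : Set ι) (a : ι → ℝ≥0∞) : tot (A ∪ B) a ≤ tot A a + tot B a := by
  simp only [tot_eq]
  exact ENNReal.tsum_union_le a A B

theorem tot_le_add {C : Set ι} (h : C ⊆ A ∪ B) (a : ι → ℝ≥0∞) : tot C a ≤ tot A a + tot B a :=
  (tot_mono_set h a).trans (tot_union_le A B a)

theorem tot_const (A : Set ι) (c : ℝ≥0∞) : tot A (fun _ => c) = A.encard * c := by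
  rw [tot_eq, ENNReal.tsum_set_const]

theorem tot_le_const {c : ℝ≥0∞} (h : ∀ i ∈ A, a i ≤ c) : tot A a ≤ A.encard * c :=
  (tot_mono_fun h).trans_eq (tot_const A c)

theorem tot_indicator (A B : Set ι) (a : ι → ℝ≥0∞) : tot A (B.indicator a) = tot (A ∩ B) a := by
  rw [tot, indicator_indicator, tot]

theorem tot_finset (s : Finset ι) (a : ι → ℝ≥0∞) : tot (s : Set ι) a = ∑ i ∈ s, a i :=
  (sum_eq_tsum_indicator a s).symm

theorem tot_image {f : κ → ι} {D : Set κ} (h : InjOn f D) (a : ι → ℝ≥0∞) :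
    tot (f '' D) a = tot D fun k => a (f k) := by
  rw [tot_eq, tot_eq, tsum_image a h]

theorem tot_image_le (f : κ → ι) (D : Set κ) (a : ι → ℝ≥0∞) :
    tot (f '' D) a ≤ tot D fun k => a (f k) := by
  rw [tot_eq, tot_eq]
  exact ENNReal.tsum_le_tsum_comp_of_surjective (surjective_mapsTo_image_restrict f D)
    fun i => a i

theorem tot_image_finset {f : κ → ι} {s : Finset κ} (h : InjOn f s) (a : ι → ℝ≥0∞) :
    tot (f '' s) a = ∑ k ∈ s, a (f k) := by
  rw [tot_image h, tot_finset]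

theorem tot_image_finset_le (f : κ → ι) (s : Finset κ) (a : ι → ℝ≥0∞) :
    tot (f '' s) a ≤ ∑ k ∈ s, a (f k) := (tot_image_le f s a).trans_eq (tot_finset _ _)

theorem tot_sum (A : Set ι) (s : Finset κ) (a : κ → ι → ℝ≥0∞) :
    tot A (fun i => ∑ k ∈ s, a k i) = ∑ k ∈ s, tot A (a k) := by
  simp only [tot_eq]
  exact Summable.tsum_finsetSum fun _ _ => ENNReal.summable

theorem lipAt_le_lipc {S T : Type} [MetricSpace S] [PseudoEMetricSpace T] (h : S → T) {X : Set S}
    {x : S} (hx : x ∈ X) : lipAt h X x ≤ lipc h X :=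
  iInf₂_le_of_le 1 one_pos (iSup₂_le fun y hy => le_iSup₂_of_le y hy.1 (le_iSup₂_of_le x hx le_rfl))

theorem en_le_lipc {S T : Type} [MetricSpace S] [MeasurableSpace S] [BorelSpace S]
    [PseudoEMetricSpace T] (k : ℕ) {p : ℝ} (hp : 0 ≤ p) (h : S → T) {X : Set S}
    (hX : MeasurableSet X) : En k p h X ≤ lipc h X ^ p * μH[(k : ℝ)] X := by
  unfold En
  rw [← setLIntegral_const]
  exact setLIntegral_mono' hX fun x hx => ENNReal.rpow_le_rpow (lipAt_le_lipc h hx) hp

theorem A_eq {Ω : Set E3} (S : Src Ω) (G : E3 → E3) (c : S.Q.ι) :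
    S.A G c = tot (wires S c) fun e => lipc G (S.Q.cell e) := by
  classical
  refine tsum_congr fun e => ?_
  rw [indicator_apply]
  congr

theorem add_rpow_le {p : ℝ} (hp : 1 ≤ p) (x y : ℝ≥0∞) : (x + y) ^ p ≤ 2 ^ p * (x ^ p + y ^ p) :=
  (ENNReal.rpow_add_le_mul_rpow_add_rpow x y hp).trans (mul_le_mul_left
    (ENNReal.rpow_le_rpow_of_exponent_le one_le_two (by linarith)) _)

end Sm

open Sm

theorem dbl : DBL := by
  intro α β ρ A B u M h1 h2
  calc tot A (fun a => tot {b | ρ a b} u)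
      = ∑' a, ∑' b, {a | a ∈ A ∧ ρ a b}.indicator (fun _ => u b) a := tsum_congr fun a => by
        by_cases ha : a ∈ A
        · rw [indicator_of_mem ha]
          exact tsum_congr fun b => by by_cases h : ρ a b <;> simp [ha, h]
        · simp [ha]
    _ = ∑' b, ({a | a ∈ A ∧ ρ a b}.encard : ℝ≥0∞) * u b :=
        ENNReal.tsum_comm.trans (tsum_congr fun b => tot_const _ _)
    _ ≤ ∑' b, M * B.indicator u b := ENNReal.tsum_le_tsum fun b => by
        by_cases hb : b ∈ B
        · rw [indicator_of_mem hb]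
          exact mul_le_mul_left (h2 b hb) _
        · rw [eq_empty_of_forall_notMem (s := {a | a ∈ A ∧ ρ a b}) fun a h => hb (h1 a h.1 b h.2)]
          simp
    _ = _ := ENNReal.tsum_mul_left

theorem om_le : OM := by
  intro Ω S p CM G c M hp hM hr hw
  have hp0 : 0 < p := by linarith
  unfold om
  split_ifs with h
  · refine (le_tot (A := wires S c) ⟨h, subset_rfl⟩ fun e => lipc G (S.Q.cell e) ^ p).trans
      (le_mul_of_one_le_left' (one_le_mul le_add_self (ENNReal.one_le_rpow hM hp0)))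
  · set τ := tot (wires S c) fun e => lipc G (S.Q.cell e) ^ p
    have h1 : S.A G c ≤ M * τ ^ p⁻¹ := by
      rw [A_eq]
      exact (tot_le_const fun e he => (ENNReal.le_rpow_inv_iff hp0).2
        (le_tot he fun e => lipc G (S.Q.cell e) ^ p)).trans (mul_le_mul_left hw _)
    have h2 := ENNReal.rpow_le_rpow h1 hp0.le
    rw [ENNReal.mul_rpow_of_nonneg _ _ hp0.le, ENNReal.rpow_inv_rpow hp0.ne'] at h2
    rw [mul_assoc]
    exact mul_le_mul' le_self_add ((mul_le_of_le_one_left'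
      (pow_le_one' (by exact_mod_cast hr) 2)).trans h2)

theorem sumk : SUMK := by
  intro Ω p c₀ θ ϑ e C CM S N t B g h Nr η 𝓢 ψ a m c k hp hη H hB
  have hp0 : 0 < p := by linarith
  refine ⟨fun φ hφ hd => ?_, fun i Φ Φ' ω hm hΦ => ?_⟩
  · unfold om
    rcases hd with hd | ⟨hd, hμ⟩
    · obtain ⟨u, hu⟩ := (S.Q.ball φ).nonempty
      obtain ⟨z, z1, z2⟩ := hB φ hφ u hu
      rw [if_neg (by omega), hd]
      exact (H.deep φ hφ hd ⟨g u, mem_image_of_mem g hu, mem_biUnion (z1 ⟨z, rfl, by simp⟩) z2⟩).trans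
        (le_mul_of_one_le_left' (ENNReal.one_le_rpow one_le_two hp0))
    · rw [if_pos hd, hd]
      refine (en_le_lipc 1 hp0.le h (S.Q.ball φ).isClosed.measurableSet).trans
        ((mul_le_of_le_one_right' (by rwa [Nat.cast_one])).trans
          ((ENNReal.rpow_le_rpow (H.wire φ hφ φ hd subset_rfl) hp0.le).trans
            ((add_rpow_le hp _ _).trans ?_)))
      rw [ENNReal.mul_rpow_of_nonneg _ _ hp0.le]
      exact mul_le_mul_right (add_le_add_right (ENNReal.rpow_le_self_of_le_one hη hp) _) _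
  · have h1 : tot (Φ ∩ hit S g (slabs N t B c)) (fun φ => k φ ^ p * ω φ) ≤
        5 * C * ENNReal.ofReal t * tot Φ ω := by
      have h2 := H.sum i
      rw [hm, tot_indicator, Fintype.card_fin] at h2
      refine (tot_mono inter_subset_right fun φ hφ => ?_).trans (h2.trans ?_)
      · rw [indicator_of_mem hφ.1, mul_comm]
      · exact mul_le_mul' (by norm_num) (tot_mono_set inter_subset_right _)
    refine ⟨(tot_le_add (A := Φ' \ hit S g (slabs N t B c)) (B := Φ ∩ hit S g (slabs N t B c))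
      (fun φ hφ => ?_) _).trans (add_le_add ?_ h1), le_trans (tot_mono_fun fun φ _ => ?_) h1⟩
    · by_cases h2 : φ ∈ hit S g (slabs N t B c)
      · exact Or.inr ⟨hΦ hφ, h2⟩
      · exact Or.inl ⟨hφ, h2⟩
    · rw [← tot_mul_left]
      exact tot_mono sdiff_subset fun φ hφ =>
        mul_le_mul_left (ENNReal.rpow_le_rpow (H.k_le φ hφ.2) hp0.le) _
    · exact le_mul_of_one_le_left' (ENNReal.one_le_rpow (H.one_le φ) hp0)

end P073.Nr
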