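import Vale.Agent.P073Y.Nr.Sk2
import Vale.Agent.P073Y.Nr.Sums
import Vale.Agent.P073Z.ACC.Cube

/-!
# The bottom cells of the cubes which meet `K`
-/

open Set Metric Topology Filter MeasureTheory
open scoped NNReal ENNReal

namespace P073.Nr

open P073.Top P073.Zn P073.M2 P073.Ln Sm

namespace S1

variable {Ω : Set E3} {f : E3 → E3} {P : Par} {j : Fin P.N}

theorem I_eq (T : Ty) (h : T.r ≤ 2) : T.I = {2} ∨ T.I = {1, 2} := by
  have h1 := T.r_pos
  unfold Ty.I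
  rcases (by omega : T.r = 2 ∨ T.r = 1) with e | e <;> rw [e]
  · exact Or.inl (by decide)
  · exact Or.inr (by decide)

theorem vt_mem (z : Fin 3 → ℤ) : vt z ∈ ucube z :=
  ⟨le_rfl, fun _ => le_add_of_nonneg_right zero_le_one⟩

/-- the window of a cube which meets `K` consists of inner cubes -/
theorem win (api : CubeApi Ω P) {Y : TyZ Ω f} {cb : ℝ≥0} {l Λ o : ℝ} {T : E3 ≃ᴬ[ℝ] E3}
    (hT : Typ P j Y cb l Λ o T) {R : ℕ} (hR : R * (P.a j / l) ≤ Λ) {z z' : Fin 3 → ℤ}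
    (hz : z ∈ Vs P j Y.K) (h1 : ∀ i, |z' i - z i| ≤ R) (h2 : ∀ i ∈ (P.T j).I, z' i = z i) :
    z' ∈ P.Inner j := by
  obtain ⟨x, hx, hx'⟩ := hz
  have e : P.nu j (x + P.Lam j (vt z' - vt z)) = P.nu j x + (vt z' - vt z) := by
    rw [← api.nu_lam j (P.nu j x + _), map_add, ← add_assoc, api.lam_nu]
  refine ⟨x + P.Lam j (vt z' - vt z), hT.thick (mem_cthickening_of_dist_le _ x _ _ hx ?_), ?_⟩
  · have h3 : ‖vt z' - vt z‖ ≤ R := (pi_norm_le_iff_of_nonneg (Nat.cast_nonneg R)).2 fun i => by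
      have := h1 i
      simp only [vt, Pi.sub_apply, Real.norm_eq_abs]
      exact_mod_cast this
    have h4 : R * P.a j ≤ l * Λ := by
      rw [← mul_div_assoc, div_le_iff₀ hT.l_pos] at hR
      linarith
    rw [dist_self_add_left]
    refine (api.lam_flat j _ fun i hi => by simp [vt, h2 i hi]).trans ?_
    rw [mul_assoc]
    refine mul_le_mul_of_nonneg_left (le_trans ?_ h4) (Nat.cast_nonneg _)
    rw [mul_comm]
    exact mul_le_mul_of_nonneg_right h3 (api.a_pos j).le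
  · rw [e]
    refine ⟨fun i => ?_, fun i => ?_⟩
    · have := hx'.1 i
      simp only [vt, Pi.sub_apply, Pi.add_apply] at this ⊢
      linarith
    · have := hx'.2 i
      simp only [vt, Pi.sub_apply, Pi.add_apply] at this ⊢
      linarith

theorem alg {v s a₁ A A' τ c₂ c₃ k L E w w' w'' x z u u₁ u₂ i η δ : ℝ≥0∞}
    (h : s ≤ a₁ * A * w + c₂ * (A * (τ * w + w' + A' * (x + w * η)) + z + w * η))
    (h1 : w * v ≤ u) (h2 : w' * v ≤ u₁ + u₂) (h3 : w * η ≤ w'' * δ)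
    (h4 : z ≤ k * (c₃ * (A * A' * x + L * (E * i + w'' * δ)))) :
    v * s ≤ A * (a₁ * u + c₂ * (1 + k) * (τ * u + u₁ + u₂)) +
      c₂ * (1 + k) * (1 + c₃) * v * (A * A' * x + L * E * i + (1 + L + A * A') * w'' * δ) := by
  set t := A * A' * x + L * E * i + (1 + L + A * A') * w'' * δ
  have t1 : A * A' * x + (1 + A * A') * (w'' * δ) ≤ t :=
    le_self_add.trans_eq (b := _ + (L * E * i + L * w'' * δ)) (by ring)
  have t2 : A * A' * x + L * (E * i + w'' * δ) ≤ t :=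
    le_self_add.trans_eq (b := _ + (1 + A * A') * w'' * δ) (by ring)
  calc v * s ≤ v * (a₁ * A * w + c₂ * (A * (τ * w + w' + A' * (x + w * η)) + z + w * η)) := by
        gcongr
    _ = A * (a₁ * (w * v) + c₂ * 1 * (τ * (w * v) + w' * v)) +
        c₂ * v * (A * A' * x + (1 + A * A') * (w * η) + z) := by ring
    _ ≤ A * (a₁ * u + c₂ * (1 + k) * (τ * u + (u₁ + u₂))) + c₂ * v * (t + k * (c₃ * t)) := by
        gcongr A * (a₁ * ?_ + c₂ * ?_ * (τ * ?_ + ?_)) + c₂ * v * (?_ + ?_)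
        · exact le_self_add
        · exact le_trans (by gcongr) t1
        · exact h4.trans (by gcongr)
    _ ≤ _ := add_le_add (by rw [add_assoc])
        (le_self_add.trans_eq (b := _ + c₂ * v * (k + c₃) * t) (by ring))

end S1

open S1 in
theorem sum1_of {p : ℝ} (hp : 1 ≤ p) (hs : SIDE) (hD : DBL) (hO : OM) (hB : BOT) : SUM1 p := by
  classical
  intro C M₀ M₁ CM c₀ θ hc hθ hθ'
  have p0 : 0 ≤ p := by linarith
  set κ : ℝ≥0∞ := (CM M₁ + 1) * (M₀ : ℝ≥0∞) ^ p with hκ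
  have κt : κ ≠ ⊤ := ENNReal.mul_ne_top (by finiteness)
    (ENNReal.rpow_ne_top_of_nonneg p0 ENNReal.coe_ne_top)
  obtain ⟨c₂, c₂t, hb⟩ := hB C (κ * (M₀ * 2 ^ p)) hp hc hθ hθ' (ENNReal.mul_ne_top κt
    (ENNReal.mul_ne_top ENNReal.coe_ne_top (ENNReal.rpow_ne_top_of_nonneg p0 (by finiteness))))
  refine ⟨c₂ * (1 + κ * M₀), by finiteness, ?_⟩
  intro Ω f P j S ν n Nr Sl Mt M₂ cb F Y e l Λ o T gt ht c₃ c₄ δ η X W V hΩ hP hν hY he hη hδ hδ'
    hW hV hL hN hT hS hR ho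
  rcases V.eq_empty_or_nonempty with rfl | ⟨z₀, hz₀⟩
  · simp
  have api := cube_thm P hΩ hP
  have a0 : 0 < P.a j / l := div_pos (api.a_pos j) hT.l_pos
  have aΛ : P.a j / l ≤ Λ := by
    rw [div_le_iff₀ hT.l_pos, mul_comm]
    exact hT.a_le
  set R := ⌊Λ / (P.a j / l)⌋₊
  have R1 : 1 ≤ R := Nat.le_floor (by rw [Nat.cast_one, le_div_iff₀ a0, one_mul]; exact aΛ)
  have R2 : R * (P.a j / l) ≤ Λ :=
    (le_div_iff₀ a0).1 (Nat.floor_le (div_nonneg (a0.le.trans aΛ) a0.le))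
  have R3 : Λ ≤ 2 * R * (P.a j / l) := by
    have h1 : Λ / (P.a j / l) < R + 1 := Nat.lt_floor_add_one _
    have h2 : (1 : ℝ) ≤ R := by exact_mod_cast R1
    exact (div_le_iff₀ a0).1 (by linarith)
  have mW : ∀ z, z ∈ W ↔ z ∈ P.Inner j := fun z => by rw [← hW, Finset.mem_coe]
  have mV : ∀ z, z ∈ V ↔ z ∈ Vs P j Y.K := fun z => by rw [← hV, Finset.mem_coe]
  have wn : ∀ z ∈ V, ∀ z', (∀ i, |z' i - z i| ≤ R) → (∀ i ∈ (P.T j).I, z' i = z i) → z' ∈ W :=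
    fun z hz z' h1 h2 => (mW z').2 (win api hT R2 ((mV z).1 hz) h1 h2)
  have WB : ∀ z ∈ W, z ∈ P.Buf j := fun z hz => api.inner_buf j ((mW z).1 hz)
  have VB : ∀ z ∈ V, z ∈ P.Buf j := fun z hz => WB z (wn z hz z (by simp) fun _ _ => rfl)
  have : Nonempty S.Q.ι := ⟨(hL.box z₀ (VB z₀ hz₀) ∅).choose⟩
  choose! bt b1 b2 b3 using fun z hz => hL.box z hz (P.T j).I
  have b4 : ∀ z ∈ P.Buf j, S.Q.cell (bt z) ⊆ P.BufSet j := fun z hz =>
    (b3 z hz).trans (Cube.cube_buf hz)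
  have ci : ∀ c c', ν '' S.Q.cell c = ν '' S.Q.cell c' → c = c' := fun c c' h =>
    n.src.Q.cell_injective h
  have eΦ : Φ₀ P j S.Q ν Y.K = bt '' V := by
    ext c
    refine ⟨fun ⟨z, hz, h⟩ => ⟨z, (mV z).2 hz, ci _ _ ?_⟩, ?_⟩
    · rw [h, b1 z (VB z ((mV z).2 hz))]
    · rintro ⟨z, hz, rfl⟩
      exact ⟨z, (mV z).1 hz, b1 z (VB z hz)⟩
  have wi : ∀ z e, e ∈ wires n.src (bt z) → S.Q.dim e = 1 ∧ S.Q.cell e ⊆ S.Q.cell (bt z) :=
    fun z e h => ⟨h.1, (image_subset_image_iff ν.injective).1 h.2⟩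
  set A := ENNReal.ofReal (P.a j / l)
  set E : Set S.Q.ι := {e | S.Q.dim e = 1 ∧ S.Q.cell e ⊆ P.BufSet j}
  set ρ : S.Q.ι → (Fin 3 → ℤ) × Fin 3 → Prop := fun e q => q ∈ W ×ˢ (P.T j).Iᶜ ∧
    ν '' S.Q.cell e = segment ℝ (vt q.1) (nx q.1 q.2)
  set ζ : S.Q.ι → ℝ≥0∞ := fun e => c₃ * (A ^ p * A⁻¹ * tot {q | ρ e q} (fun q => X q.1 q.2) +
    ENNReal.ofReal l⁻¹ ^ p * (ENNReal.ofReal P.η ^ (p - 1) *
      (∫⁻ x in S.Q.cell e, ‖F x - (P.T j).A‖ₑ ^ p ∂(μH[1])) + δ))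
  obtain ⟨B, c, k, hB', hO'⟩ := hR.ex
  have t1 := Y.t_le
  have o1 := hT.o_pos
  have o2 := hT.rad
  have key := hb (S := n.src) (R := R) (o := 2 * o) (Λ := Λ) W V bt X
    (fun z => κ * tot (wires n.src (bt z)) ζ) Y.ϑ_pos.le (by linarith [Y.ϑ_le, Y.θ_le]) he a0
    (by linarith) Y.N_pos Y.t_pos t1 R1 R2 R3 (by linarith) (by linarith) (hη.trans hδ)
    (hη.trans hδ') (I_eq _ hT.r_le) hO' hB' (congrArg (indicator · 1) eΦ)
    (congrArg (indicator · (om p CM n.src (vst Y.N Y.t ∘ gt))) eΦ)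
    (fun z hz => ⟨(hN.buf _ (b4 z (WB z hz))).1, b1 z (WB z hz), b2 z (WB z hz), fun z' i h => by
      obtain ⟨w, h1, h2, h3⟩ := hL.seg z (WB z hz) z' i (h.trans (sep_subset _ _))
      exact ⟨w, (hN.buf _ (h3.trans (Cube.cube_buf (WB z hz)))).1, h1, h2⟩⟩)
    (fun z hz => hS.dev z ((mW z).1 hz)) fun z hz => ⟨wn z hz, fun x hx => ?_, ?_⟩
  rotate_left
  · obtain ⟨y, -, hy⟩ := (mV z).1 hz
    linarith [dist_triangle_right (gt x) (gt (vt z)) (T (f y)), ho z (VB z hz) x hx.1 y hy,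
      ho z (VB z hz) _ (vt_mem z) y hy]
  · have h1 := hN.buf _ (b4 z (VB z hz))
    have h2 : ((wires n.src (bt z)).encard : ℝ≥0∞) ≤ M₀ := le_trans
      (ENat.toENNReal_le.2 (encard_le_encard fun e h => (wi z e h).2))
      (hL.faces_buf _ (b4 z (VB z hz)))
    refine (hO n.src CM _ (bt z) hp (by exact_mod_cast hL.one_le.1) (hN.r_le _ h1.1) h2).trans ?_
    rw [show n.src.M (bt z) = M₁ from h1.2, mul_assoc κ, ← mul_add]
    refine mul_le_mul_right ((tot_mono_fun (b := fun e => 2 ^ p * A ^ p + ζ e) fun e h => ?_).trans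
      ?_) _
    · obtain ⟨h3, h4⟩ := wi z e h
      obtain ⟨z', i, h5⟩ := hL.edge e h3 (h4.trans (b4 z (VB z hz)))
      obtain ⟨h6, h7, h8⟩ := hs.1 z z' i (P.T j).I (by
        rw [← h5, ← b1 z (VB z hz)]
        exact image_mono h4)
      have h9 := wn z hz z' (fun i => (h7 i).trans (by exact_mod_cast R1)) h8
      refine (hS.fine z' ((mW z').1 h9) i h6 e h3 h5).trans ?_
      have h10 := le_tot (A := {q | ρ e q}) (i := (z', i))
        ⟨Finset.mem_product.2 ⟨h9, Finset.mem_compl.2 h6⟩, h5⟩ fun q => X q.1 q.2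
      simp only [ζ]
      gcongr
    · exact (tot_add _ _ _).trans_le (add_le_add_left ((tot_const _ _).trans_le
        ((mul_le_mul_left h2 _).trans_eq (mul_assoc _ _ _).symm)) _)
  have cU : ∀ {D : Set S.Q.ι}, (∀ c ∈ D, S.Q.cell c ⊆ P.BufSet j) →
      (D.encard : ℝ≥0∞) ≤ {c | S.Q.cell c ⊆ P.U j}.encard := fun h =>
    ENat.toENNReal_le.2 (encard_le_encard fun c hc => (h c hc).trans (api.buf_U j))
  have cc : ∀ s : Finset (Fin 3 → ℤ), ((s : Set (Fin 3 → ℤ)).encard : ℝ≥0∞) = s.card := fun s => by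
    rw [encard_coe_eq_coe_finsetCard, ENat.toENNReal_coe]
  refine alg key ?_ ?_ (mul_le_mul' ?_ hη) ?_
  · rw [← cc, hW]
    exact api.count_inner j
  · rw [← cc]
    refine (Cube.count api.nu_lam api.lam_nu j fun z hz y hy => ?_).trans (measure_union_le _ _)
    obtain ⟨h1, i, hi, m, hm⟩ := Finset.mem_filter.1 hz
    by_cases hK : y ∈ Y.K
    · refine Or.inl ⟨hK, i, hi, m, ?_⟩
      have h2 := (dist_le_pi_dist _ _ i).trans (ho z (VB z h1) _ (vt_mem z) y hy)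
      rw [Real.dist_eq, abs_le] at h2
      rw [abs_le] at hm ⊢
      constructor <;> linarith [hm.1, hm.2, h2.1, h2.2]
    · exact Or.inr ⟨api.buf_U j (Cube.cube_buf (VB z h1) hy), hK⟩
  · rw [← cc, ← InjOn.encard_image (f := bt) fun z hz z' hz' h => hs.2.2.2 (P.T j).I z z' (by
      rw [← b1 z (WB z hz), h, b1 z' (WB z' hz')])]
    exact cU (by rintro _ ⟨z, hz, rfl⟩; exact b4 z (WB z hz))
  · rw [← Finset.mul_sum, mul_assoc κ, ← tot_finset]
    refine mul_le_mul_right ((hD (fun z (e : S.Q.ι) => e ∈ wires n.src (bt z)) V E ζ M₀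
      (fun z hz e h => ⟨h.1, (wi z e h).2.trans (b4 z (VB z hz))⟩) fun e _ => le_trans
      (ENat.toENNReal_le.2 (encard_le_encard fun z h => And.intro (VB z h.1)
        ((wi z e h.2).2.trans (b3 z (VB z h.1))))) (hL.cubes e)).trans (mul_le_mul_right ?_ _)) _
    have h1 := hD ρ E (W ×ˢ (P.T j).Iᶜ : Finset _) (fun q => X q.1 q.2) 1 (fun _ _ _ h => h.1)
      fun q _ => by
        have : {e | e ∈ E ∧ ρ e q}.encard ≤ 1 :=
          encard_le_one_iff.2 fun e e' h h' => ci _ _ (h.2.2.trans h'.2.2.symm)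
        exact_mod_cast this
    rw [one_mul, tot_finset, Finset.sum_product] at h1
    have h2 := hL.grid fun x => ‖F x - (P.T j).A‖ₑ ^ p
    have h3 := cU (D := E) fun _ h => h.2
    simp only [ζ, tot_mul_left, tot_add, tot_const]
    gcongr

end P073.Nr
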