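import Vale.Agent.P073Y.Nr.Sk2
import Vale.Agent.P073Y.Nr.Sums

/-!
# The faces of the buffer and the cells off the compact set
-/

open Set Metric Topology Filter MeasureTheory
open scoped NNReal ENNReal

namespace P073.Nr

open P073.Top P073.Zn P073.M2 P073.Ln Sm

namespace S2

theorem card_le {ι : Type} {A B : Set ι} (h : A ⊆ B) : (A.encard : ℝ≥0∞) ≤ B.encard :=
  ENat.toENNReal_le.2 (encard_le_encard h)

/-- the energies of a family of cells are bounded by the speeds on their wires -/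
theorem core {p : ℝ} (hp : 1 ≤ p) (hD : DBL) (hO : OM) (hK : SUMK) {Ω : Set E3}
    {c₀ θ ϑ e : ℝ} {C : ℝ≥0} {CM : ℝ≥0 → ℝ≥0} {S : Src Ω} {N : ℕ} {t : ℝ}
    {B : Set (Fin 3 → ℤ)} {g h : E3 → E3} {Nr : Set S.Q.ι} {η : ℝ≥0∞} {𝓢 : Set S.Q.ι}
    {ψ : S.Q.ι → (E2 →ᵃ[ℝ] E3)} {a : S.Q.ι → ℝ} {m : Fin 4 → S.Q.ι → ℝ≥0∞}
    {c : (Fin 3 → ℤ) → E3} {k : S.Q.ι → ℝ≥0∞} (hη : η ≤ 1) (ht : t ≤ 1)
    (H : NearOut p c₀ θ ϑ e C CM S N t B g h Nr η 𝓢 ψ a m c k)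
    (hB : ∀ φ ∈ Nr, ∀ u ∈ S.Q.cell φ, ∃ z, nbr 1 {z} ⊆ B ∧ g u ∈ lbox N 0 z) (i : Fin 4)
    {Φ W : Set S.Q.ι} {κ M M₀ : ℝ≥0∞} (hm : m i = Φ.indicator (om p CM S (vst N t ∘ g)))
    (hM : 1 ≤ M)
    (hΦ : ∀ φ ∈ Φ, φ ∈ Nr ∧ (S.Q.dim φ = 2 ∨ (S.Q.dim φ = 1 ∧ μH[1] (S.Q.cell φ) ≤ 1)) ∧
      S.r φ ≤ 1 ∧ (CM (S.M φ) : ℝ≥0∞) ≤ κ ∧ ((wires S φ).encard : ℝ≥0∞) ≤ M ∧ wires S φ ⊆ W)
    (hc : ∀ e, ({c | S.Q.cell e ⊆ S.Q.cell c}.encard : ℝ≥0∞) ≤ M₀) :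
    tot Φ (fun φ => En (S.Q.dim φ) p h (S.Q.cell φ)) ≤
      2 ^ p * ((C ^ p + 5 * C) * ((κ + 1) * M ^ p * M₀) *
        tot W (fun e => lipc (vst N t ∘ g) (S.Q.cell e) ^ p) + Φ.encard * η) := by
  obtain ⟨h1, h2⟩ := hK hp hη H hB
  have h3 := (h2 i Φ Φ _ hm subset_rfl).1
  have h4 : tot Φ (om p CM S (vst N t ∘ g)) ≤ (κ + 1) * M ^ p * M₀ *
      tot W (fun e => lipc (vst N t ∘ g) (S.Q.cell e) ^ p) := by
    refine (tot_mono_fun fun φ hφ => (hO S CM _ φ hp hM (hΦ φ hφ).2.2.1 (hΦ φ hφ).2.2.2.2.1).trans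
      (mul_le_mul_left (mul_le_mul_left (add_le_add_left (hΦ φ hφ).2.2.2.1 _) _) _)).trans ?_
    rw [tot_mul_left, mul_assoc _ M₀]
    exact mul_le_mul_right (hD (fun φ e => e ∈ wires S φ) Φ W _ M₀
      (fun φ hφ e he => (hΦ φ hφ).2.2.2.2.2 he)
      fun e _ => (card_le fun φ hφ => hφ.2.2).trans (hc e)) _
  refine (tot_mono_fun fun φ hφ => h1 φ (hΦ φ hφ).1 (hΦ φ hφ).2.1).trans ?_
  rw [tot_mul_left, tot_add, tot_const, mul_assoc (_ + _)]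
  refine mul_le_mul_right (add_le_add_left (h3.trans (le_trans ?_ (mul_le_mul_right h4 _))) _) _
  rw [add_mul]
  exact add_le_add_right (mul_le_mul_left
    (mul_le_of_le_one_right' (ENNReal.ofReal_le_one.2 ht)) _) _

theorem arith {q D L x U δ τ n η : ℝ≥0∞} (h1 : τ ≤ L * (x + U * δ)) (h2 : n ≤ U) (h3 : η ≤ δ) :
    q * (D * τ + n * η) ≤ q * (D + 1) * (L * x + (1 + L) * U * δ) := by
  rw [mul_assoc q]
  refine mul_le_mul_right ((add_le_add (mul_le_mul_right h1 _) (mul_le_mul' h2 h3)).trans ?_) _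
  exact le_iff_exists_add.2 ⟨D * (U * δ) + L * x + L * (U * δ), by ring⟩

end S2

open S2

theorem sum23_of {p : ℝ} (hp : 1 ≤ p) (hs : SIDE) (hD : DBL) (hO : OM) (hK : SUMK) :
    SUM23 p := by
  intro C M₀ M₁ CM
  have hp0 : 0 ≤ p := zero_le_one.trans hp
  have hf : ∀ x : ℝ≥0, (x : ℝ≥0∞) ^ p ≠ ⊤ := fun x =>
    ENNReal.rpow_ne_top_of_nonneg hp0 ENNReal.coe_ne_top
  have h2 : (2 : ℝ≥0∞) ^ p ≠ ⊤ := ENNReal.rpow_ne_top_of_nonneg hp0 ENNReal.ofNat_ne_top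
  refine ⟨2 ^ p * ((C ^ p + 5 * C) * ((CM M₁ + 1) * M₀ ^ p * M₀) * M₀ + 1),
    fun Mt M₂ => 2 ^ p * ((C ^ p + 5 * C) * ((CM M₁ + CM M₂ + 1) * Mt ^ p * M₀) + 1),
    by have := hf C; have := hf M₀; finiteness,
    fun Mt M₂ => by have := hf C; have := hf Mt; finiteness, ?_⟩
  intro Ω P j S ν n Nr K Sl Mt M₂ F c₀ θ ϑ e t l a N gt ht c₃ c₄ δ η _ _ _ ht1 hη hδ L Ne Sp
    ⟨B, c, k, hB, H⟩
  have hi : ∀ a b, n.src.Q.cell a ⊆ n.src.Q.cell b ↔ S.Q.cell a ⊆ S.Q.cell b := fun a b =>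
    image_subset_image_iff ν.injective
  have hc : ∀ e, ({c | n.src.Q.cell e ⊆ n.src.Q.cell c}.encard : ℝ≥0∞) ≤ M₀ := fun e =>
    (card_le fun c hc => (hi _ _).1 hc).trans (L.cof e)
  have hU : ∀ c, S.Q.cell c ⊆ P.BufSet j → S.Q.cell c ⊆ P.U j := fun c hc =>
    Ne.sub c (Ne.buf c hc).1
  have h0 : (1 : ℝ≥0∞) ≤ M₀ := by exact_mod_cast L.one_le.1
  refine ⟨?_, ?_⟩
  · have h3 := core hp hD hO hK (hη.trans hδ) ht1 H hB 2 (Φ := Φ₂ P j S.Q)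
      (W := {e | S.Q.dim e = 1 ∧ S.Q.cell e ⊆ P.BufSet j}) (κ := CM M₁) rfl h0
      (fun φ hφ => ⟨(Ne.buf φ hφ.2).1, Or.inl hφ.1, Ne.r_le φ (Ne.buf φ hφ.2).1,
        by rw [← (Ne.buf φ hφ.2).2]; rfl,
        (card_le fun e he => (hi _ _).1 he.2).trans (L.faces_buf φ hφ.2),
        fun e he => ⟨he.1, ((hi _ _).1 he.2).trans hφ.2⟩⟩) hc
    have h4 : tot {e | S.Q.dim e = 1 ∧ S.Q.cell e ⊆ P.BufSet j}
        (fun e => lipc (vst N t ∘ gt) (ν '' S.Q.cell e) ^ p) ≤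
        M₀ * (c₃ * ENNReal.ofReal l⁻¹ ^ p * (ENNReal.ofReal (P.a j) ^ p * (P.Buf j).encard +
          ENNReal.ofReal P.η ^ (p - 1) *
            (∫⁻ x in {x ∈ P.U j | P.nu j x ∈ gridLines}, ‖F x - (P.T j).A‖ₑ ^ p ∂(μH[1])) +
          {c | S.Q.cell c ⊆ P.U j}.encard * δ)) := by
      refine (tot_mono_fun fun e he => Sp.buf e he.1 he.2).trans ?_
      rw [tot_mul_left, tot_add, tot_add, tot_const, tot_const, tot_mul_left,
        mul_left_comm (M₀ : ℝ≥0∞), mul_add (M₀ : ℝ≥0∞), mul_add (M₀ : ℝ≥0∞),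
        mul_comm (_ ^ p) ((P.Buf j).encard : ℝ≥0∞), ← mul_assoc (M₀ : ℝ≥0∞)]
      refine mul_le_mul_right (add_le_add (add_le_add (mul_le_mul_left
        ((card_le fun e he => he.2).trans L.count) _) ?_) ?_) _
      · exact (mul_le_mul_right (L.grid _) _).trans (le_mul_of_one_le_left' h0)
      · exact (mul_le_mul_left (card_le fun e he => hU e he.2) _).trans
          (le_mul_of_one_le_left' h0)
    refine (tot_congr fun φ hφ => ?_).trans_le (h3.trans (le_trans ?_ (arith le_rfl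
      (card_le (A := Φ₂ P j S.Q) fun φ hφ => hU φ hφ.2) hη)))
    · exact congrArg (fun d => En d p ht (ν '' S.Q.cell φ)) hφ.1.symm
    · rw [mul_assoc _ (M₀ : ℝ≥0∞)]
      exact mul_le_mul_right (add_le_add_left (mul_le_mul_right h4 _) _) _
  · have h3 := core hp hD hO hK (hη.trans hδ) ht1 H hB 3 (Φ := Φ₃ P j S.Q Nr K)
      (W := {e | S.Q.dim e = 1 ∧ S.Q.cell e ⊆ P.U j \ K}) (κ := CM M₁ + CM M₂) (M := Mt) rfl
      (h0.trans (by exact_mod_cast L.one_le.2))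
      (fun φ hφ => ⟨hφ.1, hφ.2.2.imp_right fun h => ⟨h.1, by
          obtain ⟨z, k, h'⟩ := L.edge φ h.1 h.2
          exact (congrArg _ h').trans_le (hs.2.1 z k).1⟩, Ne.r_le φ hφ.1, by
          by_cases h : S.Q.cell φ ⊆ P.BufSet j
          · rw [← (Ne.buf φ h).2]
            exact le_self_add
          · rw [← Ne.rest φ hφ.1 h]
            exact le_add_self,
        (card_le fun e he => (hi _ _).1 he.2).trans (L.faces φ (Ne.sub φ hφ.1)),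
        fun e he => ⟨he.1, ((hi _ _).1 he.2).trans
          (subset_sdiff.2 ⟨Ne.sub φ hφ.1, hφ.2.1⟩)⟩⟩) hc
    have h4 : tot {e | S.Q.dim e = 1 ∧ S.Q.cell e ⊆ P.U j \ K}
        (fun e => lipc (vst N t ∘ gt) (ν '' S.Q.cell e) ^ p) ≤
        c₄ * ENNReal.ofReal l⁻¹ ^ p * (ENNReal.ofReal P.η ^ (p - 1) *
          (∫⁻ x in {x ∈ P.U j \ K | P.η⁻¹ • (x - P.w) ∈ Sl}, ‖F x‖ₑ ^ p ∂(μH[1])) +
          {c | S.Q.cell c ⊆ P.U j}.encard * δ) := by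
      refine (tot_mono_fun fun e he => Sp.near e he.1 (he.2.trans sdiff_subset)).trans ?_
      rw [tot_mul_left, tot_add, tot_const, tot_mul_left]
      exact mul_le_mul_right (add_le_add (mul_le_mul_right (L.lines K _) _)
        (mul_le_mul_left (card_le fun e he => he.2.trans sdiff_subset) _)) _
    rw [mul_assoc _ (_ ^ (p - 1))]
    exact h3.trans (arith h4 (card_le (A := Φ₃ P j S.Q Nr K) fun φ hφ => Ne.sub φ hφ.1) hη)

end P073.Nr
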