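import Vale.Agent.P073Y.Nr.Near
import Vale.Agent.P073Y.Nr.Speed
import Vale.Agent.P073Y.Nr.Sum1
import Vale.Agent.P073Y.Nr.Sum23
import Vale.Agent.P073Y.Nr.Bot
import Vale.Agent.P073Y.Nr.Frame

/-!
# The accounting near the types, assembled
-/

namespace P073.Nr

theorem near {p : ℝ} (hp : 1 ≤ p) : NEAR p :=
  near_of hp (speed hp side) (sum1_of hp side dbl om_le (bot_of sumk))
    (sum23_of hp side dbl om_le sumk)

end P073.Nr
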