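import Vale.Agent.P073Y.Nr.Sk3
import Vale.Agent.P073Y.Nr.Sums
import Vale.Agent.P073Y.Rf.Top
import Vale.Agent.P073Z.ACC.Tools

/-!
# The near cells outside the buffer
-/

open Set Metric Topology Filter MeasureTheory
open scoped NNReal ENNReal

namespace P073.Nr

open P073.Top P073.Zn P073.M2

namespace Tr

theorem measurableSet_sub {Q : RCx E3} {X : Set E3} (h : Q.Sub X) : MeasurableSet X := by
  have := Q.countable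
  rw [h.eq_iUnion]
  exact .iUnion fun i => .iUnion fun _ => (Q.isClosed_cell i).measurableSet

theorem dim_le {Q : RCx E3} (h : Q.Cvx) (c : Q.ι) : Q.dim c ≤ 3 := by
  rw [(h c).2.2]
  exact (Submodule.finrank_le _).trans (by simp)

variable {Ω : Set E3} {P : Par} {σ : E3 → ℝ} {𝓒 : Set (ℕ × (Fin 3 → ℤ))} {M₀ : ℝ≥0}
  {Mt : Ty → ℕ → ℝ≥0} {S₀ : Set E3} {Sl : Ty → ℕ → Set E3} (𝓜 : Mesh2 Ω P σ 𝓒 M₀ Mt S₀ Sl)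

theorem fin (ok : P.Ok Ω) (j : Fin P.N) : {c | 𝓜.Q.cell c ⊆ P.U j}.Finite := by
  have b : (0 : ℝ) ≤ (P.T j).b * P.η := mul_nonneg (Nat.cast_nonneg _) Cube.eta_pos.le
  refine (𝓜.Q.finite_subset ((ok.compact j).cthickening (r := 100 * (P.T j).b * P.η))
    fun x hx => 𝓜.carrier.symm ▸ (ok.big j x hx).1).subset fun c hc => Subset.trans hc ?_
  exact thickening_subset_cthickening_of_le (by nlinarith) _

/-- one transition cell -/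
theorem cell_le {p : ℝ} (hp : 0 < p) (ok : P.Ok Ω) {s : ℝ≥0} (hs : (s : ℝ) = P.η) {j : Fin P.N}
    {h h' : E3 → E3} {CR : ℝ≥0 → ℝ≥0} {δ : ℝ≥0∞} (hR : Ref 𝓜 p CR h h' δ j) {i : 𝓜.Q.ι}
    (hi : i ∈ nrc 𝓜 j) (hd : 𝓜.Q.dim i = 3) (hb : ¬ 𝓜.Q.cell i ⊆ P.BufSet j) :
    En 3 p h' (𝓜.Q.cell i) ≤ CR (Mt (P.T j) (P.m j)) * s *
      tot {φ | 𝓜.Q.cell φ ⊆ 𝓜.Q.bd i ∧ 𝓜.Q.dim φ = 2} (fun φ => En 2 p h (𝓜.Q.cell φ)) +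
      ((s⁻¹ : ℝ≥0) : ℝ≥0∞) ^ p * (s : ℝ≥0∞) ^ 3 * δ := by
  have s0 : (0 : ℝ) < s := hs ▸ Cube.eta_pos
  obtain ⟨x₀, hx₀⟩ := 𝓜.Q.cell_nonempty i
  obtain ⟨e1, e2⟩ := 𝓜.nm_iso i fun j' hj' => by
    by_cases e : j' = j
    · exact hb (e ▸ hj')
    · exact Set.disjoint_left.1 (Cube.U_disj ok j' j e) (Cube.buf_U ok j' (hj' hx₀)) (hi.2 hx₀)
  have e3 : (2 : ℝ) ^ 𝓜.kf i = (s : ℝ)⁻¹ := by
    rw [𝓜.kf_near i j ⟨x₀, hx₀, hi.2 hx₀⟩, hs, Par.η, inv_pow, inv_inv]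
  have d : ∀ u w, dist (𝓜.nm i u) (𝓜.nm i w) = (s⁻¹ : ℝ≥0) * dist u w := fun u w => by
    rw [e1, e1, e3, dist_smul₀, norm_inv, NNReal.norm_eq, NNReal.coe_inv]
  have l1 : LipschitzWith s⁻¹ (𝓜.nm i) := .of_dist_le_mul fun u w => (d u w).le
  have l2 : LipschitzWith s (𝓜.nm i).symm := .of_dist_le_mul fun u w => by
    have := d ((𝓜.nm i).symm u) ((𝓜.nm i).symm w)
    rw [(𝓜.nm i).apply_symm_apply, (𝓜.nm i).apply_symm_apply] at this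
    rw [this, NNReal.coe_inv, mul_inv_cancel_left₀ s0.ne']
  refine (Rf.en_aff hp (𝓜.nm i) l1 l2 (𝓜.Q.isCompact_cell i) _).1.trans
    ((mul_le_mul_right (hR i hi hd) _).trans ?_)
  rw [mul_add, e2, 𝓜.MI_near i j hi.1 hi.2]
  refine add_le_add_left ((mul_le_mul_right (mul_le_mul_right
    (Rf.en_aff hp (𝓜.nm i) l1 l2 (𝓜.Q.isCompact_bd i) _).2 _) _).trans ?_) _
  rw [Rf.scale_eq (NNReal.coe_pos.1 s0) hp]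
  have h1 := ena.1 𝓜.Q (ContinuousAffineEquiv.refl ℝ E3) 2 h hp (𝓜.Q.sub_bd i)
    (𝓜.Q.isCompact_bd i) fun l hl => by
      have := 𝓜.Q.dim_lt hl
      omega
  simp only [ContinuousAffineEquiv.coe_refl, image_id] at h1
  exact mul_le_mul_right h1 _

end Tr

open Tr

theorem trans {p : ℝ} (hp : 1 ≤ p) : TRANS p := by
  intro Ω P σ 𝓒 M₀ Mt S₀ Sl 𝓜 _ ok
  have hp0 : 0 < p := one_pos.trans_le hp
  obtain ⟨s, hs⟩ : ∃ s : ℝ≥0, (s : ℝ) = P.η := ⟨⟨P.η, Cube.eta_pos.le⟩, rfl⟩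
  have hs' : ENNReal.ofReal P.η = s := by rw [← hs, ENNReal.ofReal_coe_nnreal]
  obtain ⟨c, hc⟩ : ∃ c, c = ((s⁻¹ : ℝ≥0) : ℝ≥0∞) ^ p * (s : ℝ≥0∞) ^ 3 := ⟨_, rfl⟩
  obtain ⟨n, hn⟩ : ∃ n : ℝ≥0∞, n = ∑ j, ({i | 𝓜.Q.cell i ⊆ P.U j}.encard : ℝ≥0∞) := ⟨_, rfl⟩
  have hD : 2 ^ p * (n * c) ≠ ⊤ := by
    refine ENNReal.mul_ne_top (ENNReal.rpow_ne_top_of_nonneg hp0.le ENNReal.ofNat_ne_top)
      (ENNReal.mul_ne_top ?_ ?_)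
    · rw [hn]
      exact ENNReal.sum_ne_top.2 fun j _ => by simpa using (Tr.fin 𝓜 ok j).encard_lt_top.ne
    · rw [hc]
      exact ENNReal.mul_ne_top (ENNReal.rpow_ne_top_of_nonneg hp0.le ENNReal.coe_ne_top)
        (ENNReal.pow_ne_top ENNReal.coe_ne_top)
  refine ⟨(2 ^ p * (n * c)).toNNReal, ?_⟩
  intro j K F k h h' CR δ hK hF hk hR
  rw [ENNReal.coe_toNNReal hD]
  have hsub : 𝓜.Q.Sub (nrs 𝓜 j) := fun x ⟨i, hi, hx⟩ => ⟨i, hx, fun y hy => ⟨i, hi, hy⟩⟩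
  have hX : MeasurableSet (nrs 𝓜 j \ P.BufSet j) :=
    (measurableSet_sub hsub).diff (measurableSet_sub (𝓜.sub_buf ok j))
  have hU : nrs 𝓜 j \ P.BufSet j ⊆ P.U j \ K := fun x ⟨⟨i, hi, hx⟩, hb⟩ =>
    ⟨hi.2 hx, fun hxK => Set.disjoint_left.1 (𝓜.disj_K ok fun h => hb (h hx)) hx (hK hxK)⟩
  have h1 : ∫⁻ x in nrs 𝓜 j \ P.BufSet j, ‖fderiv ℝ k x - F x‖ₑ ^ p ≤
      2 ^ p * ((∫⁻ x in nrs 𝓜 j \ P.BufSet j, ‖fderiv ℝ h' x‖ₑ ^ p) +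
        ∫⁻ x in nrs 𝓜 j \ P.BufSet j, ‖F x‖ₑ ^ p) := by
    rw [← lintegral_add_right _ (hF.enorm.pow_const p), ← lintegral_const_mul' _ _
      (ENNReal.rpow_ne_top_of_nonneg hp0.le ENNReal.ofNat_ne_top)]
    refine setLIntegral_mono' hX fun x hx => ?_
    rw [(hk x fun hb => ?_).fderiv_eq]
    · exact (ENNReal.rpow_le_rpow enorm_sub_le hp0.le).trans (Sm.add_rpow_le hp _ _)
    · obtain ⟨j', hj'⟩ := mem_iUnion.1 hb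
      by_cases e : j' = j
      · exact hx.2 (e ▸ hj')
      · exact Set.disjoint_left.1 (Cube.U_disj ok j' j e) (Cube.buf_U ok j' hj') (hU hx).1
  obtain ⟨A, hA⟩ : ∃ A, A = {i ∈ nrc 𝓜 j | 𝓜.Q.dim i = 3 ∧ ¬ 𝓜.Q.cell i ⊆ P.BufSet j} :=
    ⟨_, rfl⟩
  have h2 : ∫⁻ x in nrs 𝓜 j \ P.BufSet j, ‖fderiv ℝ h' x‖ₑ ^ p ≤
      tot A fun i => En 3 p h' (𝓜.Q.cell i) := by
    refine ena.2.2.2.1 𝓜.Q A h' hp0 𝓜.cvx (sdiff_subset.trans hsub.subset_carrier) ?_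
    rintro i hi ⟨x, hx, ⟨l, hl, hxl⟩, hb⟩
    have e : i = l := 𝓜.Q.eq_of_subset_of_dim_le (𝓜.Q.cell_subset_of_mem hx hxl)
      ((dim_le 𝓜.cvx l).trans hi.ge)
    rw [hA]
    exact ⟨e ▸ hl, hi, fun h => hb (h hx.1)⟩
  have h3 := dbl (fun i φ => 𝓜.Q.cell φ ⊆ 𝓜.Q.bd i ∧ 𝓜.Q.dim φ = 2) A
    ({φ ∈ nrc 𝓜 j | 𝓜.Q.dim φ = 2 ∧ Disjoint (𝓜.Q.cell φ) K} ∪
      {φ | 𝓜.far φ ∧ 𝓜.Q.dim φ = 2 ∧ (𝓜.Q.cell φ ∩ P.U j).Nonempty})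
    (fun φ => En 2 p h (𝓜.Q.cell φ)) M₀
    (fun i hi φ hφ => by
      rw [hA] at hi
      have hs := hφ.1.trans (𝓜.Q.bd_subset i)
      by_cases hf : 𝓜.far φ
      · obtain ⟨x, hx⟩ := 𝓜.Q.cell_nonempty φ
        exact Or.inr ⟨hf, hφ.2, x, hx, hi.1.2 (hs hx)⟩
      · exact Or.inl ⟨⟨hf, hs.trans hi.1.2⟩, hφ.2, (𝓜.disj_K ok hi.2.2).mono hs hK⟩)
    fun φ _ => by
      obtain ⟨x, hx⟩ := 𝓜.Q.cell_nonempty φ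
      exact (ENat.toENNReal_le.2 (encard_le_encard fun i hi =>
        𝓜.Q.bd_subset i (hi.2.1 hx))).trans (𝓜.mult x)
  have h4 : (A.encard : ℝ≥0∞) ≤ n := by
    rw [hn, hA]
    exact (ENat.toENNReal_le.2 (encard_le_encard fun i hi => hi.1.2)).trans
      (Finset.single_le_sum (f := fun j => ({i | 𝓜.Q.cell i ⊆ P.U j}.encard : ℝ≥0∞))
        (fun _ _ => zero_le) (Finset.mem_univ j))
  have h5 : (tot A fun i => En 3 p h' (𝓜.Q.cell i)) ≤ CR (Mt (P.T j) (P.m j)) * s * (M₀ *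
      (tot {φ ∈ nrc 𝓜 j | 𝓜.Q.dim φ = 2 ∧ Disjoint (𝓜.Q.cell φ) K}
        (fun φ => En 2 p h (𝓜.Q.cell φ)) +
      tot {φ | 𝓜.far φ ∧ 𝓜.Q.dim φ = 2 ∧ (𝓜.Q.cell φ ∩ P.U j).Nonempty}
        fun φ => En 2 p h (𝓜.Q.cell φ))) + n * (c * δ) := by
    refine (Sm.tot_mono_fun fun i hi => cell_le 𝓜 hp0 ok hs hR (hA ▸ hi).1 (hA ▸ hi).2.1
      (hA ▸ hi).2.2).trans ?_
    rw [Sm.tot_add, Sm.tot_mul_left, Sm.tot_const, ← hc]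
    exact add_le_add (mul_le_mul_right (h3.trans (mul_le_mul_right (Sm.tot_union_le _ _ _) _)) _)
      (mul_le_mul_left h4 _)
  refine h1.trans ((mul_le_mul_right (add_le_add (h2.trans h5)
    (lintegral_mono_set hU)) _).trans (le_of_eq ?_))
  rw [farE, hs']
  ring

end P073.Nr
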