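import Vale.Agent.P073Y.Nr.Sel
import Vale.Agent.P073Y.Nr.Sk4
import Vale.Agent.P073Y.Nr.All
import Vale.Agent.P073Y.Nr.Trans
import Vale.Agent.P073Y.Gd.Msh
import Vale.Agent.P073Z.HAJ

/-!
# The accounting near the types with the choice of the parameters
-/

open Set Metric Topology Filter MeasureTheory
open scoped NNReal ENNReal

namespace P073.Nr

open P073.Top P073.Zn P073.M2
open P073.G2 (Maj good3 mesh_box)
open P073.Mn (cst)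

namespace Se

theorem alg5 {X Y c₁ c₂ c₃ c₄ c₅ θ U e St m g₁ g₂ τ n Mj Z Lo D D' δ T C M₀ Fo Fa J ε : ℝ≥0∞}
    (h1 : X ≤ c₁ * θ * U + c₂ * (e * U + St) + c₃ * (m * U + (g₁ * (τ + n) * U + g₂ * Mj)) +
      c₄ * Z + c₅ * Lo + D * δ) (h2 : Y ≤ T * (C * M₀ * (Fo + Fa) + J) + D' * δ)
    (h3 : Fo ≤ c₅ * Lo + D * δ) (e1 : c₁ * θ ≤ ε) (e2 : c₂ * e ≤ ε) (e3 : c₂ * St ≤ ε * U)
    (e4 : c₃ * m ≤ ε) :
    X + Y ≤ 4 * ε * U + c₃ * g₁ * (τ + n) * U +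
      (c₃ * g₂ * Mj + c₄ * Z + c₅ * (1 + T * C * M₀) * Lo + T * J) +
      (D + T * C * M₀ * D + D') * δ + T * C * M₀ * Fa := by
  calc X + Y ≤ c₁ * θ * U + c₂ * (e * U + St) + c₃ * (m * U + (g₁ * (τ + n) * U + g₂ * Mj)) +
        c₄ * Z + c₅ * Lo + D * δ + (T * (C * M₀ * (c₅ * Lo + D * δ + Fa) + J) + D' * δ) :=
        add_le_add h1 (h2.trans (by gcongr))
    _ = c₁ * θ * U + c₂ * e * U + c₂ * St + c₃ * m * U + (c₃ * g₁ * (τ + n) * U +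
        (c₃ * g₂ * Mj + c₄ * Z + c₅ * (1 + T * C * M₀) * Lo + T * J) +
        (D + T * C * M₀ * D + D') * δ + T * C * M₀ * Fa) := by ring
    _ ≤ ε * U + ε * U + ε * U + ε * U + (c₃ * g₁ * (τ + n) * U +
        (c₃ * g₂ * Mj + c₄ * Z + c₅ * (1 + T * C * M₀) * Lo + T * J) +
        (D + T * C * M₀ * D + D') * δ + T * C * M₀ * Fa) := by gcongr
    _ = _ := by ring

theorem alg6 {ε U a C τ τ' n b G R Γ : ℝ≥0∞} (h0 : τ' = C * τ) (h1 : n ≤ τ)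
    (h2 : (a * (C + 1) + b) * τ ≤ ε) (h3 : G ≤ Γ) :
    4 * ε * U + a * (τ' + n) * U + (b * τ * U + G * R) ≤ 5 * ε * U + Γ * R := by
  calc _ ≤ 4 * ε * U + a * (C * τ + τ) * U + (b * τ * U + Γ * R) := by rw [h0]; gcongr
    _ = 4 * ε * U + (a * (C + 1) + b) * τ * U + Γ * R := by ring
    _ ≤ 4 * ε * U + ε * U + Γ * R := by gcongr
    _ = _ := by ring

theorem strip {c St K U ε : ℝ≥0∞} {N : ℕ} (h1 : N * St ≤ 10 * K) (hN : 1 ≤ N)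
    (h2 : c * 10 * (N : ℝ≥0∞)⁻¹ ≤ ε) (h3 : K ≤ U) : c * St ≤ ε * U := by
  calc c * St = c * (N : ℝ≥0∞)⁻¹ * (N * St) := by
        rw [mul_assoc, ENNReal.inv_mul_cancel_left (Nat.cast_ne_zero.2 (by omega))
          (ENNReal.natCast_ne_top N)]
    _ ≤ c * (N : ℝ≥0∞)⁻¹ * (10 * U) := mul_le_mul_right (h1.trans (mul_le_mul_right h3 _)) _
    _ = c * 10 * (N : ℝ≥0∞)⁻¹ * U := by ring
    _ ≤ _ := mul_le_mul_left h2 _

theorem cho {p : ℝ} (hp : 0 ≤ p) (c₁ g₁ : ℕ → ℝ≥0) (c₂ : ℕ → ℝ → ℝ≥0)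
    (c₃ : ℕ → ℝ → ℕ → ℝ → ℝ≥0) (c₄ : ℕ → ℝ → ℕ → ℝ → ℕ → ℝ≥0) (c₅ : Ty → ℝ → ℕ → ℝ → ℕ → ℝ≥0)
    (g₂ : ℕ → ℕ → ℝ≥0) (Mt : Ty → ℕ → ℝ≥0) (a : Ty → ℕ → ℝ≥0∞) (ha : ∀ T m, a T m ≠ ⊤)
    {τ₁ : ℕ → ℝ} (C : ℝ) {ε : ℝ≥0∞} (hε : 0 < ε) (hτ : ∀ b, 0 < τ₁ b) {cb : ℕ → ℝ≥0}
    (Bm : Ty → (E3 ≃L[ℝ] E3)) (hB : ∀ T : Ty, T.r ≤ 2 → ‖(Bm T : E3 →L[ℝ] E3)‖ ≤ cb T.b ∧
      ‖((Bm T).symm : E3 →L[ℝ] E3)‖ ≤ cb T.b) :
    ∃ c : Cho, c.Bm = Bm ∧ (∀ b, c.τ b ≤ τ₁ b ∧ 2 ≤ c.m b ∧ c₁ b * ENNReal.ofReal (c.θ b) ≤ ε ∧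
      c₂ b (c.θ b) * ENNReal.ofReal (3 * c.t b) ≤ ε ∧ c₂ b (c.θ b) * 10 * (c.N b : ℝ≥0∞)⁻¹ ≤ ε ∧
      c₃ b (c.θ b) (c.N b) (c.t b) * (c.m b : ℝ≥0∞)⁻¹ ≤ ε ∧
      (c₃ b (c.θ b) (c.N b) (c.t b) * g₁ b * (ENNReal.ofReal C + 1) +
        (c₃ b (c.θ b) (c.N b) (c.t b) * g₂ b (c.m b) * cst b (c.m b) * (b + 2) +
        c₄ b (c.θ b) (c.N b) (c.t b) (c.m b) * (cst b (c.m b) + 1))) *
        ENNReal.ofReal (c.τ b) ≤ ε) ∧
      ∀ T : Ty, (c.Γ T : ℝ≥0∞) = gam p T.b (c.m T.b) (Mt T (c.m T.b))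
        (c₃ T.b (c.θ T.b) (c.N T.b) (c.t T.b) * g₂ T.b (c.m T.b))
        (c₄ T.b (c.θ T.b) (c.N T.b) (c.t T.b) (c.m T.b))
        (c₅ T (c.θ T.b) (c.N T.b) (c.t T.b) (c.m T.b) * (1 + a T (c.m T.b))) (2 ^ p) +
        a T (c.m T.b) := by
  choose θ t τ N m a1 a2 a3 a4 a5 a6 a7 a8 using
    fun b => sel c₁ g₁ c₂ c₃ c₄ g₂ C hε (hτ b) b
  obtain ⟨Γ, hΓ⟩ := On.exists_nn (fun T : Ty => gam p T.b (m T.b) (Mt T (m T.b))
    (c₃ T.b (θ T.b) (N T.b) (t T.b) * g₂ T.b (m T.b)) (c₄ T.b (θ T.b) (N T.b) (t T.b) (m T.b))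
    (c₅ T (θ T.b) (N T.b) (t T.b) (m T.b) * (1 + a T (m T.b))) (2 ^ p) + a T (m T.b)) fun T => by
      have := ha T (m T.b)
      exact ENNReal.add_ne_top.2 ⟨gam_ne hp _ _ ENNReal.coe_ne_top (by finiteness)
        ENNReal.coe_ne_top (by finiteness) (Det.two_rpow_ne_top hp), this⟩
  exact ⟨⟨θ, t, τ, N, m, fun b => cb b * cb b + b ^ 2 * m b, Γ, Bm, a1, a2, a3, a4,
    fun b => one_le_two.trans (a6 b), fun b => one_le_two.trans (a7 b), fun _ => le_add_self,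
    fun T hT => ⟨cb T.b, cb T.b, (Bm T : E3 →L[ℝ] E3).lipschitzWith_of_opNorm_le (hB T hT).1,
      ((Bm T).symm : E3 →L[ℝ] E3).lipschitzWith_of_opNorm_le (hB T hT).2, le_self_add⟩⟩, rfl,
    fun b => ⟨a5 b, a7 b, a8 b⟩, hΓ⟩

theorem dist_le {l t o : ℝ} {cb : ℝ≥0} {B : E3 ≃L[ℝ] E3} {T : E3 → E3} {v x y : E3} (hl : 0 < l)
    (hB : ‖(B : E3 →L[ℝ] E3)‖ ≤ cb) (hT : ∀ y, T y = l⁻¹ • B y - v) (h : dist x y ≤ o)
    (ho : o ≤ t * l / (cb + 1)) : dist (T x) (T y) ≤ t := by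
  rw [hT, hT, dist_sub_right, dist_eq_norm, ← smul_sub, ← map_sub, norm_smul, norm_inv,
    Real.norm_eq_abs, abs_of_pos hl, inv_mul_le_iff₀ hl]
  have h1 := (B : E3 →L[ℝ] E3).le_opNorm (x - y)
  rw [← dist_eq_norm] at h1
  rw [le_div_iff₀ (by positivity)] at ho
  have h2 : ‖(B : E3 →L[ℝ] E3)‖ * dist x y ≤ (cb + 1) * o :=
    mul_le_mul (hB.trans (le_add_of_nonneg_right zero_le_one)) h dist_nonneg (by positivity)
  exact h1.trans (h2.trans (by linarith))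

open Classical in
theorem loc {Q : RCx E3} {U : Set E3} {a b : E3 → E3 → ℝ≥0∞} {η : Q.ι → ℝ≥0∞}
    (h : ∀ e x y, Q.dim e = 1 → Q.cell e = segment ℝ x y → Q.cell e ⊆ U → a x y ≤ b x y + η e) :
    (∀ e x y, Q.dim e = 1 → Q.cell e = segment ℝ x y →
      a x y ≤ b x y + if Q.cell e ⊆ U then η e else ⊤) ∧ ∀ {Z : Set E3}, Z ⊆ U →
      ∑' e, {e | Q.cell e ⊆ Z}.indicator (fun e => if Q.cell e ⊆ U then η e else ⊤) e ≤
        ∑' e, η e := by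
  refine ⟨fun e x y a b => ?_, fun hZ => ENNReal.tsum_le_tsum fun e =>
    indicator_apply_le' (fun he => (if_pos (Subset.trans he hZ)).le) fun _ => zero_le⟩
  split_ifs with h'
  exacts [h e x y a b h', by simp]

theorem num_n {C β η m n : ℝ} (hβ : 0 < β) (hC : 1 ≤ C) (hη : η ≤ 1) (hm : 1 ≤ m) (hn : 1 ≤ n)
    (h : C / β ≤ n) : C * (η / (m * n)) ≤ β := by
  rw [div_le_iff₀ hβ] at h
  rw [← mul_div_assoc, div_le_iff₀ (by positivity)]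
  have := mul_le_of_le_one_right (zero_le_one.trans hC) hη
  have := mul_le_mul_of_nonneg_right hm (by positivity : 0 ≤ n * β)
  linarith

section

variable {Ω : Set E3} {P : Par} {σ : E3 → ℝ} {𝓒 : Set (ℕ × (Fin 3 → ℤ))} {M₀ : ℝ≥0}
  {Mt : Ty → ℕ → ℝ≥0} {S₀ : Set E3} {Sl : Ty → ℕ → Set E3} (𝓜 : Mesh2 Ω P σ 𝓒 M₀ Mt S₀ Sl)

theorem buf_nrc (ok : P.Ok Ω) {j : Fin P.N} {c : 𝓜.Q.ι} (h : 𝓜.Q.cell c ⊆ P.BufSet j) :
    c ∈ nrc 𝓜 j :=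
  let ⟨_, hx⟩ := 𝓜.Q.cell_nonempty c
  ⟨𝓜.not_far hx ok (h hx), h.trans (Cube.buf_U ok j)⟩

theorem buf_nrs (ok : P.Ok Ω) (j : Fin P.N) : P.BufSet j ⊆ nrs 𝓜 j := fun _ hx =>
  let ⟨i, h1, h2⟩ := 𝓜.sub_buf ok j _ hx
  ⟨i, buf_nrc 𝓜 ok h2, h1⟩

theorem cube_cell {j : Fin P.N} {z : Fin 3 → ℤ} (hz : z ∈ P.Buf j) :
    ∃ i, 𝓜.Q.cell i = P.cube j z ∧ 𝓜.Q.cell i ⊆ P.BufSet j :=
  let ⟨i, hi⟩ := 𝓜.box_cell j z hz _ ⟨z, fun i => z i + 1, fun _ => Or.inr rfl, by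
    simp only [ucube, Int.cast_add, Int.cast_one]⟩ Subset.rfl
  ⟨i, hi, fun _ hx => ⟨z, hz, (hi.subset hx : _)⟩⟩

end

end Se

open Se

theorem near2L_of {p : ℝ} (hp : 1 ≤ p) (hN : NEAR p) (hT : TRANS p) : NEAR2L p := by
  classical
  intro K₂ M₀ κ₀ c₀ Cz CM CR Mt Sl ε₀ h1 hκ hc₀ hε₀ hMt
  have hp0 : 0 ≤ p := by linarith
  obtain ⟨cb, hcb⟩ := frame
  choose! Bm b1 b2 b3 using hcb
  obtain ⟨c₁, c₂, c₃, c₄, c₅, hN⟩ :=
    hN K₂ M₀ M₀ (CR M₀) c₀ Cz CM Mt (fun T m => Mt T m * (T.b * m)) cb hc₀ h1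
  obtain ⟨τ₁, Cg, g₁, g₂, hg, hG⟩ := good3 κ₀ hκ K₂
  obtain ⟨C, hC, hH⟩ := haj
  obtain ⟨x, x1, -, x3⟩ := small (c := 5) (by norm_num) hε₀ one_pos
  have hε := ENNReal.ofReal_pos.2 x1
  generalize ENNReal.ofReal x = ε at x3 hε
  have fT := Det.two_rpow_ne_top hp0
  obtain ⟨c, rfl, hc, hΓ⟩ := cho hp0 c₁ g₁ c₂ c₃ c₄ c₅ g₂ Mt
    (fun T m => 2 ^ p * CR (Mt T m) * M₀) (fun T m => by finiteness)
    (τ₁ := fun b => min (τ₁ b / C) (1 / 10)) C hε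
    (fun b => lt_min (div_pos (hg b).1 hC) (by norm_num)) Bm fun T hT => ⟨b1 T hT, b2 T hT⟩
  refine ⟨c, ?_⟩
  intro Ω Λ f F n T Y l Tg r₁ hΩ hf hF hI hW hr₁ fit
  have hl := fun j => (fit j).l_pos
  have ht := fun j => (Y j).t_pos
  have hb : ∀ j, (0 : ℝ) < (T j).b := fun j => by exact_mod_cast (T j).b_pos
  have hm : ∀ j, (0 : ℝ) < c.m (T j).b := fun j => by exact_mod_cast c.m_pos _
  have hj : ∀ j, ∀ x ∈ (Y j).K, ∀ y ∈ (Y j).K, dist x y ≤ r₁ / 3 →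
      ‖f y - f x - (T j).A (y - x)‖ ≤ C * c.τ (T j).b * ‖y - x‖ := fun j x hx y hy hxy => by
    have h3 : 3 * (r₁ / 3) = r₁ := by ring
    have hs : ∀ x ∈ (Y j).K, ball x r₁ ⊆ Ω := fun x hx =>
      (ball_subset_closedBall.trans (closedBall_subset_cthickening hx r₁)).trans (fit j).sub
    refine hH _ hΩ hf hI hW (c.τ_pos _).le ?_ ?_ ?_ ?_ hxy <;> rw [h3]
    exacts [hs x hx, hs y hy, ((fit j).close x hx).2, ((fit j).close y hy).2]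
  obtain ⟨o, o1, o2⟩ := exists_pos_le (fun j => (Y j).t / 12 * l j / (cb (T j).b + 1)) fun j => by
    have := hl j
    have := ht j
    positivity
  refine ⟨o, o1, fun r hr => ?_⟩
  obtain ⟨Lam, L1, L2, L3⟩ : ∃ Lam : Fin n → ℝ, (∀ j, 0 < Lam j) ∧
      (∀ j, (T j).b * (l j * Lam j) ≤ r) ∧ ∀ j, Lam j ≤ (Y j).t / 12 :=
    ⟨fun j => min (r / ((T j).b * l j)) ((Y j).t / 12), fun j => lt_min
      (div_pos hr (mul_pos (hb j) (hl j))) (div_pos (ht j) (by norm_num)), fun j => by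
        rw [← mul_assoc, ← le_div_iff₀' (mul_pos (hb j) (hl j))]
        exact min_le_left _ _, fun j => min_le_right _ _⟩
  obtain ⟨e, e1, e2⟩ := exists_pos_le (fun j => (Y j).t * Lam j) fun j => mul_pos (ht j) (L1 j)
  obtain ⟨s, s1, s2⟩ := exists_pos_le (fun j => l j * Lam j) fun j => mul_pos (hl j) (L1 j)
  obtain ⟨k₁, hk₁⟩ := exists_pow_lt_of_lt_one (lt_min s1 (by positivity : 0 < r₁ / 3))
    (by norm_num : (2 : ℝ)⁻¹ < 1)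
  refine ⟨e, e1, k₁, fun k₀ hk₀ => ?_⟩
  have hη : (2 : ℝ)⁻¹ ^ k₀ ≤ min s (r₁ / 3) :=
    (pow_le_pow_of_le_one (by norm_num) (by norm_num) hk₀).trans hk₁.le
  have hη0 : (0 : ℝ) < 2⁻¹ ^ k₀ := by positivity
  obtain ⟨d, d1, d2⟩ := exists_pos_le
    (fun j => c.τ (T j).b * 2⁻¹ ^ k₀ / ((T j).b * c.m (T j).b)) fun j =>
      div_pos (mul_pos (c.τ_pos _) hη0) (mul_pos (hb j) (hm j))
  have d3 : ∀ j, (T j).b * c.m (T j).b * d / 2⁻¹ ^ k₀ ≤ c.τ (T j).b := fun j => by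
    rw [div_le_iff₀ hη0, ← le_div_iff₀' (mul_pos (hb j) (hm j))]
    exact d2 j
  have τ1 : ∀ b, c.τ b ≤ 1 / 10 := fun b => (hc b).1.trans (min_le_right _ _)
  have d4 : ∀ j, 10 * ((T j).b : ℝ) * c.m (T j).b * d ≤ 2⁻¹ ^ k₀ := fun j =>
    le_of_eq_of_le (by ring) ((le_div_iff₀ (by norm_num : (0 : ℝ) < 10)).1
      (((div_le_iff₀ hη0).1 ((d3 j).trans (τ1 _))).trans_eq (by ring)))
  refine ⟨d, d1, fun β' hβ' => ?_⟩
  obtain ⟨n₁, hn₁⟩ := exists_nat_le fun j => max (Cg (T j).b / β') (c.τ (T j).b)⁻¹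
  refine ⟨n₁, fun n' hn' ς ok₀ => ?_⟩
  have hn : ∀ j, max (Cg (T j).b / β') (c.τ (T j).b)⁻¹ ≤ n' := fun j =>
    (hn₁ j).trans (by exact_mod_cast hn')
  have mn := Mean.sum Finset.univ fun (j : Fin n) _ => (Mean.const (4 * ε *
      volume ((par T c.m (fun j => (Y j).K) r ς k₀ n' 0).U j) +
      c₃ (T j).b (Y j).θ (Y j).N (Y j).t * g₁ (T j).b * (ENNReal.ofReal (C * c.τ (T j).b) +
        (n' : ℝ≥0∞)⁻¹) * volume ((par T c.m (fun j => (Y j).K) r ς k₀ n' 0).U j))).add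
    (mean_err hp ok₀ j (Y j).cpt.measurableSet hF (hMt (T j) (c.m (T j).b)).2.1
      (hMt (T j) (c.m (T j).b)).2.2 (div_pos (mul_pos (mul_pos (hb j) (hm j)) d1) hη0) (d3 j)
      ((τ1 _).trans (by norm_num)) (fun x hx => ((fit j).close x hx).1)
      (c₃ (T j).b (Y j).θ (Y j).N (Y j).t * g₂ (T j).b (c.m (T j).b))
      (c₄ (T j).b (Y j).θ (Y j).N (Y j).t (c.m (T j).b))
      (c₅ (T j) (Y j).θ (Y j).N (Y j).t (c.m (T j).b) *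
        (1 + 2 ^ p * CR (Mt (T j) (c.m (T j).b)) * M₀)) (2 ^ p))
  have hc' := fun j => (hc (T j).b).2.2
  have hΓ' := fun j => hΓ (T j)
  simp only [← fun j => (fit j).θ, ← fun j => (fit j).N, ← fun j => (fit j).t] at hc' hΓ'
  refine ⟨_, (mn.add (Mean.const ε)).mono ?_, ?_⟩
  · refine (add_le_add (Finset.sum_le_sum fun j _ => alg6 (ENNReal.ofReal_mul hC.le)
      (inv_le (c.τ_pos _) ((le_max_right _ _).trans (hn j))) (hc' j).2.2.2.2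
      (le_self_add.trans (hΓ' j).ge)) le_rfl).trans ?_
    rw [Finset.sum_add_distrib, ← Finset.mul_sum, add_right_comm, mul_add, mul_one]
    exact add_le_add (add_le_add (mul_le_mul' x3 (cube_thm _ hΩ ok₀).sum_U)
      ((le_mul_of_one_le_left' (by norm_num)).trans x3)) le_rfl
  clear mn
  intro w σ 𝓒 S₀ 𝓜 ok β hβ hmod hgs
  have hA := cube_thm _ hΩ ok
  have ty : ∀ j, Typ (par T c.m (fun j => (Y j).K) r ς k₀ n' w) j (Y j) (cb (T j).b) (l j) (Lam j)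
      ((Y j).t / 12) (Tg j) := fun j =>
    ⟨(fit j).r_le, (fit j).Bm ▸ b3 _ (fit j).r_le, (fit j).Bm ▸ b1 _ (fit j).r_le,
      (fit j).Bm ▸ b2 _ (fit j).r_le, hl j, (fit j).T_eq,
      (div_le_self hη0.le (by exact_mod_cast c.m_pos _)).trans
        (hη.trans ((min_le_left _ _).trans (s2 j))), cthickening_mono (L2 j) _,
      (div_pos (ht j) (by norm_num)).le, by linarith [L3 j]⟩
  obtain ⟨D, δ₀, Pw, n1, n2, hN⟩ := hN (Λ := Λ) 𝓜 (𝓜.src h1) (𝓜.nrm h1 ok) (nrc 𝓜) Y l Lam _ Tg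
    rfl hΩ ok (fun j => (hc _).2.1) (fun T m => (hMt T m).1) hF hgs
    fun j => ⟨ty j, 𝓜.nea h1 ok j⟩
  obtain ⟨D', hT⟩ := hT 𝓜 hΩ ok
  choose γ γ1 γ2 using fun j : Fin n => hG (par T c.m (fun j => (Y j).K) r ς k₀ n' w) j 𝓜.Q'
    (Y j).K (τ := C * c.τ (T j).b) (β' := β') (β := β) (d := d) hΩ ok (𝓜.wm j)
    (mesh_box 𝓜 j) hF (self_subset_cthickening _) hβ (mul_pos hC (c.τ_pos _)).le
    ((le_div_iff₀' hC).1 ((hc _).1.trans (min_le_left _ _)))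
    (fun x hx y hy hxy => hj j x hx y hy (hxy.trans (hη.trans (min_le_right _ _))))
    (hmod j) (d4 j) (num_n hβ' (hg _).2 hA.eta_le (Nat.one_le_cast.2 (c.m_pos _))
      (Nat.one_le_cast.2 ok.n_pos) ((le_max_left _ _).trans (hn j))) hgs
  obtain ⟨y, y1, -, y3⟩ := small (c := ∑ j, ((D : ℝ≥0∞) +
    2 ^ p * CR (Mt (T j) (c.m (T j).b)) * M₀ * D + D'))
    (ENNReal.sum_ne_top.2 fun j _ => by finiteness) hε one_pos
  refine ⟨γ, min δ₀ (ENNReal.ofReal y), Pw, lt_min n1 (ENNReal.ofReal_pos.2 y1), γ1, n2, ?_⟩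
  have y4 := (mul_le_mul_right (min_le_right δ₀ (ENNReal.ofReal y)) _).trans y3
  have y5 := min_le_left δ₀ (ENNReal.ofReal y)
  have y6 := lt_min n1 (ENNReal.ofReal_pos.2 y1)
  generalize min δ₀ (ENNReal.ofReal y) = δ at y4 y5 y6 ⊢
  intro g₀ Θ g hg' pre
  obtain ⟨η', η1, η2⟩ := pre.var
  have dv := fun (j : Fin n) A v W hW => (γ2 j g₀ _ (𝓜.ν j) A v W (pre.aff j)
    (loc (fun e x y a b h => η2 e x y a b ⟨j, h⟩)).1 (𝓜.ν_eq j) hW).trans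
    (mul_le_mul_right (add_le_add le_rfl (mul_le_mul_right
      (((loc (fun e x y a b h => η2 e x y a b ⟨j, h⟩)).2 fun x hx =>
        hA.buf_U j (hA.fine_buf j hx.1)).trans η1) _)) _)
  obtain ⟨𝓢, ψ, a, m, m1, hN⟩ := hN g₀ Θ g _ δ y6 y5 hg' ⟨pre.var, pre.keep, pre.speed, dv⟩
    fun j z hz x hx y hy => by
      obtain ⟨i, i1, i2⟩ := cube_cell 𝓜 hz
      obtain ⟨v, hv⟩ := (fit j).T_eq
      rw [hg' j x (hA.buf_U j (i2 (i1.superset hx)))]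
      exact dist_le (hl j) (ty j).nB hv (pre.osc j i (i2.trans (hA.buf_U j)) x (i1.superset hx) y
        (i1.superset hy)) (o2 j)
  refine ⟨𝓢, ψ, a, m, m1, fun h h' B η hη' hO hsk hre => ?_⟩
  obtain ⟨⟨k, k1, k2, k3⟩, k4⟩ := hN h h' B e η e1.le hη' hO
    (fun j u hu => hsk j u ⟨hu.1, buf_nrs 𝓜 ok j hu.2⟩) fun j i hi hb => by
      have := hre j i (buf_nrc 𝓜 ok hb) hi
      rwa [(𝓜.nm_buf i j hb).1, (𝓜.nm_buf i j hb).2] at this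
  refine ⟨k, k1, fun x hx => k2 x fun h => ?_, ?_⟩
  · obtain ⟨j, hj⟩ := mem_iUnion.1 h
    exact hx j (buf_nrs 𝓜 ok j hj)
  refine (Finset.sum_le_sum fun j _ => ((lintegral_mono_set
    (subset_union_right.trans union_sdiff_self.ge)).trans (lintegral_union_le _ _ _)).trans
    (alg5 (k3 j) (hT j (self_subset_cthickening _) hF k2 (hre j))
      (k4 j) (hc' j).1 ((mul_le_mul_right (ENNReal.ofReal_le_ofReal ?_) _).trans (hc' j).2.1) ?_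
      (hc' j).2.2.2.1)).trans ?_
  · rw [(fit j).ϑ, ← (fit j).t]
    have := (div_le_iff₀ (L1 j)).2 (e2 j)
    linarith only [this]
  · refine strip (fit j).strip (Y j).N_pos (hc' j).2.2.1 (measure_mono ?_)
    exact (self_subset_cthickening _).trans (hA.K_U j)
  · rw [Finset.sum_add_distrib, Finset.sum_add_distrib, ← Finset.sum_mul]
    exact add_le_add (add_le_add le_rfl y4) (Finset.sum_le_sum fun j _ =>
      mul_le_mul_left (le_add_self.trans (hΓ' j).ge) _)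

theorem near2L {p : ℝ} (hp : 1 ≤ p) : NEAR2L p := near2L_of hp (near hp) (trans hp)

theorem near2 {p : ℝ} (hp : 1 ≤ p) : NEAR2 p := by
  intro K₂ M₀ κ₀ c₀ Cz CM CR Mt Sl ε h1 hκ hc₀ hε hMt
  refine (near2L hp K₂ M₀ κ₀ c₀ Cz CM CR Mt Sl ε h1 hκ hc₀ hε hMt).imp fun c H => ?_
  intro Ω Λ f F n T Y l Tg r₁ a1 a2 a3 a4 a5 a6 a7
  refine (H (Λ := Λ) T Y l Tg r₁ a1 a2 a3 a4 a5 a6 a7).imp fun o H => H.imp_right fun H r hr => ?_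
  refine (H r hr).imp fun e H => H.imp_right fun H => H.imp fun k₁ H k₀ hk => ?_
  refine (H k₀ hk).imp fun d H => H.imp_right fun H β' hβ => (H β' hβ).imp fun n₁ H n' hn ς ok => ?_
  refine (H n' hn ς ok).imp fun Φ H => H.imp_right fun H w σ 𝓒 S₀ 𝓜 ok β b1 b2 b3 => ?_
  obtain ⟨γ, δ, Pw, c1, c2, c3, H⟩ := H w 𝓜 ok β b1 b2 b3
  refine ⟨γ, δ, Pw, c1, c2, c3, fun g₀ Θ g hg pre => H g₀ Θ g (fun _ x _ => hg x)
    ⟨pre.aff, pre.var.imp fun η h => ⟨h.1, fun e x y a b _ => h.2 e x y a b⟩, pre.keep, pre.speed,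
      pre.osc⟩⟩

theorem move : MOVE := by
  intro Q f f₁ κ₀ β γ U h1 h2 h3
  have h4 : ∀ i ∈ γ.G, γ.s i / γ.M i ≤ β := fun i hi => by
    obtain ⟨a, b, c⟩ := γ.pos i hi
    exact (div_le_self a.le b).trans ((le_mul_of_one_le_left a.le b).trans c)
  have h5 : ∀ i ∈ γ.G, ∀ e x y, Q.cell e = segment ℝ x y → x ∈ Q.cell i →
      EqOn f₁ f (segment ℝ x y) := fun i hi e x y he hx =>
    h1.mono (he ▸ h2 i hi e ⟨x, he ▸ left_mem_segment _ _ _, hx⟩)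
  refine ⟨{ γ with
    vert := fun v hv h0 x hx => (γ.vert v hv h0 hx).trans
      (h1 (h2 v hv v ((inter_self _).symm ▸ Q.cell_nonempty v) hx)).symm
    wire := fun v hv e x y he hx hs => ?_
    far := fun i hi e he hd x hx y hy => ?_
    ang := fun i hi e x y he hs hx hy => ?_ }, rfl, rfl, rfl, rfl⟩
  · have h := h5 v hv e x y hs (hx ▸ rfl)
    rw [h (left_mem_segment _ _ _), h (right_mem_segment _ _ _), eVariationOn.eq_of_eqOn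
      (f' := fun t : ℝ => f (AffineMap.lineMap x y t) - AffineMap.lineMap (f x) (f y) t)
      fun t ht => by simp only [h (lineMap_mem_segment ℝ x y ht)]]
    exact γ.wire v hv e x y he hx hs
  · by_cases h : f₁ x = f x
    · exact h ▸ γ.far i hi e he hd x hx y hy
    · exact (h4 i hi).trans (h3 i hi x (Q.cell_subset_carrier e hx) h y hy)
  · have h := h5 i hi e x y hs hx
    rw [h (left_mem_segment _ _ _), h (right_mem_segment _ _ _)]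
    exact γ.ang i hi e x y he hs hx hy

end P073.Nr
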