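import Vale.Agent.P073Y.Nr.Sk4

/-!
# The accounting near the types without refilling: statement
-/

open Set Metric Topology Filter MeasureTheory
open scoped NNReal ENNReal

namespace P073.Nr

open P073.Top P073.Zn P073.M2
open P073.G2 (Fine1)
open Vale.Agent.P073.HB (GoodSeg WeakDeriv)

/-- **the accounting near the types without refilling**: the batches control the near cells of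
dimension three -/
def NEAR3 (p : ℝ) : Prop := ∀ (K₂ M₀ : ℝ≥0) (κ₀ : ℝ → ℝ) (c₀ : ℝ) (Cz : ℝ → ℝ≥0)
  (CM : ℝ → ℝ≥0 → ℝ≥0) (Mt : Ty → ℕ → ℝ≥0) (Sl : Ty → ℕ → Set E3) (ε : ℝ≥0∞)
  (h1 : 1 ≤ M₀), (∀ M, 0 < κ₀ M) → 1 ≤ c₀ → 0 < ε →
  (∀ T m, M₀ ≤ Mt T m ∧ MeasurableSet (Sl T m) ∧ ∀ y, μH[1] (Sl T m ∩ closedBall y 1) ≤ Mt T m) →
  ∃ c : Cho, ∀ {Ω Λ : Set E3} {f : E3 → E3} {F : E3 → (E3 →L[ℝ] E3)} {n : ℕ} (T : Fin n → Ty)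
    (Y : Fin n → TyZ Ω f) (l : Fin n → ℝ) (Tg : Fin n → (E3 ≃ᴬ[ℝ] E3)) (r₁ : ℝ),
  IsOpen Ω → ContinuousOn f Ω → Measurable F → LocallyIntegrableOn F Ω volume →
  WeakDeriv volume Ω f F → 0 < r₁ → (∀ j, c.Fit F r₁ (T j) (Y j) (l j) (Tg j)) →
  ∃ o : ℝ, 0 < o ∧ ∀ r : ℝ, 0 < r → ∃ e : ℝ, 0 < e ∧ ∃ k₁ : ℕ, ∀ k₀, k₁ ≤ k₀ →
  ∃ d : ℝ, 0 < d ∧ ∀ β' : ℝ, 0 < β' → ∃ n₁ : ℕ, ∀ n', n₁ ≤ n' → ∀ ς : E3 → ℝ,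
  (par T c.m (fun j => (Y j).K) r ς k₀ n' 0).Ok Ω →
  ∃ Φ : E3 → ℝ≥0∞, Mean 1 Φ (ε * (volume Ω + 1) + ∑ j, c.Γ (T j) *
      ∫⁻ x in (par T c.m (fun j => (Y j).K) r ς k₀ n' 0).U j \ (Y j).K, (1 + ‖F x‖ₑ ^ p)) ∧
  ∀ (w : E3) {σ : E3 → ℝ} {𝓒 : Set (ℕ × (Fin 3 → ℤ))} {S₀ : Set E3}
    (𝓜 : Mesh2 Ω (par T c.m (fun j => (Y j).K) r ς k₀ n' w) σ 𝓒 M₀ Mt S₀ Sl)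
    (ok : (par T c.m (fun j => (Y j).K) r ς k₀ n' w).Ok Ω) (β : ℝ), β' ≤ β →
  (∀ j, ∀ x ∈ (par T c.m (fun j => (Y j).K) r ς k₀ n' w).U j, ∀ y ∈ Ω,
    dist (f x) (f y) ≤ 20 * β' → dist x y ≤ d) →
  (∀ e x y, 𝓜.Q'.dim e = 1 → 𝓜.Q'.cell e = segment ℝ x y → GoodSeg f F x (y - x)) →
  ∃ (γ : Fin n → Good 𝓜.Q' f κ₀ β) (δ : ℝ≥0∞) (Pw : 𝓜.Q.ι → (E3 ≃L[ℝ] E3)), 0 < δ ∧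
    (∀ j, ∀ i ∈ (γ j).G, 𝓜.Q'.cell i ⊆ Fine1 (par T c.m (fun j => (Y j).K) r ς k₀ n' w) j ∧
      ∀ x ∈ 𝓜.Q'.cell i, ∃ v ∈ 𝓜.Q'.cell i ∩ (Y j).K, dist ((γ j).A i x) (f v) ≤ β') ∧
    (∀ e, (∀ j, ¬ 𝓜.Q.cell e ⊆ Fine1 (par T c.m (fun j => (Y j).K) r ς k₀ n' w) j) →
      Pw e = ContinuousLinearEquiv.refl ℝ E3) ∧
  ∀ (g₀ Θ g : E3 → E3),
    (∀ j, ∀ x ∈ (par T c.m (fun j => (Y j).K) r ς k₀ n' w).U j, g x = g₀ (Θ x)) →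
    Pre2L (par T c.m (fun j => (Y j).K) r ς k₀ n' w) 𝓜.Q 𝓜.Q' f g₀ Θ K₂ γ Pw o δ →
  ∃ (𝓢 : Fin n → Set 𝓜.Q.ι) (ψ : Fin n → 𝓜.Q.ι → (E2 →ᵃ[ℝ] E3)) (a : Fin n → 𝓜.Q.ι → ℝ)
    (m : Fin n → Fin 4 → 𝓜.Q.ι → ℝ≥0∞),
    (∀ j, ∀ φ ∈ 𝓢 j, Marked (𝓜.nrm h1 ok j).src (Tg j ∘ g ∘ (𝓜.ν j).symm) (Y j).θ φ (ψ j φ)
      (a j φ)) ∧
  ∀ (h : ConHomeo Ω Λ) (B : Fin n → Set (Fin 3 → ℤ)) (η : ℝ≥0∞), η ≤ δ →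
    (∀ j, (∀ φ ∈ nrc 𝓜 j, ∀ u ∈ 𝓜.Q.cell φ,
        ∃ z, nbr 1 {z} ⊆ B j ∧ Tg j (g u) ∈ lbox (Y j).N 0 z) ∧
      (∃ c k, NearOut p c₀ (Y j).θ (Y j).ϑ e (Cz (Y j).θ) (CM (Y j).θ) (𝓜.nrm h1 ok j).src (Y j).N
        (Y j).t (B j) (Tg j ∘ g ∘ (𝓜.ν j).symm) (Tg j ∘ h.toFun ∘ (𝓜.ν j).symm) (nrc 𝓜 j) η (𝓢 j)
        (ψ j) (a j) (m j) c k) ∧
      ∀ c' ∈ nrc 𝓜 j, 𝓜.Q.dim c' = 3 →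
        lipc (Tg j ∘ h.toFun ∘ (𝓜.ν j).symm) (𝓜.ν j '' 𝓜.Q.cell c') ≤
          CM (Y j).θ ((𝓜.nrm h1 ok j).M c') *
            (𝓜.nrm h1 ok j).src.A (vst (Y j).N (Y j).t ∘ Tg j ∘ g ∘ (𝓜.ν j).symm) c' + η) →
    ∃ k : ConHomeo Ω Λ, (∀ x ∈ Ω, ∃ y ∈ Ω, dist y x ≤ ς x ∧ k.toFun x = h.toFun y) ∧
      (∀ x, (∀ j, x ∉ nrs 𝓜 j) → k.toFun =ᶠ[𝓝 x] h.toFun) ∧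
      ∑ j, ∫⁻ x in nrs 𝓜 j, ‖fderiv ℝ k.toFun x - F x‖ₑ ^ p ≤ Φ w

end P073.Nr
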