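import Vale.Agent.P073Y.Nr.NearB
import Vale.Agent.P073Y.Nr.Near2
import Vale.Agent.P073Y.Nr.Sk5

/-!
# The accounting near the types without refilling, with the choice of the parameters
-/

open Set Metric Topology Filter MeasureTheory
open scoped NNReal ENNReal

namespace P073.Nr

open P073.Top P073.Zn P073.M2
open P073.G2 (Maj good3 mesh_box)
open P073.Mn (cst)
open Se

theorem T3.alg7 {X Y c₁ c₂ c₃ c₄ c₅ θ U e St m g₁ g₂ τ n Mj Z Lo D δ T Fo J ε : ℝ≥0∞}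
    (h1 : X ≤ c₁ * θ * U + c₂ * (e * U + St) + c₃ * (m * U + (g₁ * (τ + n) * U + g₂ * Mj)) +
      c₄ * Z + c₅ * Lo + D * δ) (h2 : Y ≤ T * (Fo + J))
    (h3 : Fo ≤ c₅ * Lo + D * δ) (e1 : c₁ * θ ≤ ε) (e2 : c₂ * e ≤ ε) (e3 : c₂ * St ≤ ε * U)
    (e4 : c₃ * m ≤ ε) :
    X + Y ≤ 4 * ε * U + c₃ * g₁ * (τ + n) * U +
      (c₃ * g₂ * Mj + c₄ * Z + c₅ * (1 + T) * Lo + T * J) + (D + T * D) * δ := by
  have := alg5 (C := 1) (M₀ := 1) (Fa := 0) (D' := 0) (T := T) (J := J) (Y := Y) h1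
    (by simpa only [one_mul, add_zero, zero_mul] using h2) h3 e1 e2 e3 e4
  simpa only [mul_one, add_zero, mul_zero] using this

open T3 (alg7)

theorem near3_of {p : ℝ} (hp : 1 ≤ p) (hN : NEARB p) : NEAR3 p := by
  classical
  intro K₂ M₀ κ₀ c₀ Cz CM Mt Sl ε₀ h1 hκ hc₀ hε₀ hMt
  have hp0 : 0 ≤ p := by linarith
  obtain ⟨cb, hcb⟩ := frame
  choose! Bm b1 b2 b3 using hcb
  obtain ⟨c₁, c₂, c₃, c₄, c₅, hN⟩ :=
    hN K₂ M₀ M₀ c₀ Cz CM Mt (fun T m => Mt T m * (T.b * m)) cb hc₀ h1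
  obtain ⟨τ₁, Cg, g₁, g₂, hg, hG⟩ := good3 κ₀ hκ K₂
  obtain ⟨C, hC, hH⟩ := haj
  obtain ⟨x, x1, -, x3⟩ := small (c := 5) (by norm_num) hε₀ one_pos
  have hε := ENNReal.ofReal_pos.2 x1
  generalize ENNReal.ofReal x = ε at x3 hε
  have fT := Det.two_rpow_ne_top hp0
  obtain ⟨c, rfl, hc, hΓ⟩ := cho hp0 c₁ g₁ c₂ c₃ c₄ c₅ g₂ Mt
    (fun _ _ => 2 ^ p) (fun _ _ => fT)
    (τ₁ := fun b => min (τ₁ b / C) (1 / 10)) C hε
    (fun b => lt_min (div_pos (hg b).1 hC) (by norm_num)) Bm fun T hT => ⟨b1 T hT, b2 T hT⟩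
  refine ⟨c, ?_⟩
  intro Ω Λ f F n T Y l Tg r₁ hΩ hf hF hI hW hr₁ fit
  have hl := fun j => (fit j).l_pos
  have ht := fun j => (Y j).t_pos
  have hb : ∀ j, (0 : ℝ) < (T j).b := fun j => by exact_mod_cast (T j).b_pos
  have hm : ∀ j, (0 : ℝ) < c.m (T j).b := fun j => by exact_mod_cast c.m_pos _
  have hj : ∀ j, ∀ x ∈ (Y j).K, ∀ y ∈ (Y j).K, dist x y ≤ r₁ / 3 →
      ‖f y - f x - (T j).A (y - x)‖ ≤ C * c.τ (T j).b * ‖y - x‖ := fun j x hx y hy hxy => by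
    have h3 : 3 * (r₁ / 3) = r₁ := by ring
    have hs : ∀ x ∈ (Y j).K, ball x r₁ ⊆ Ω := fun x hx =>
      (ball_subset_closedBall.trans (closedBall_subset_cthickening hx r₁)).trans (fit j).sub
    refine hH _ hΩ hf hI hW (c.τ_pos _).le ?_ ?_ ?_ ?_ hxy <;> rw [h3]
    exacts [hs x hx, hs y hy, ((fit j).close x hx).2, ((fit j).close y hy).2]
  obtain ⟨o, o1, o2⟩ := exists_pos_le (fun j => (Y j).t / 12 * l j / (cb (T j).b + 1)) fun j => by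
    have := hl j
    have := ht j
    positivity
  refine ⟨o, o1, fun r hr => ?_⟩
  obtain ⟨Lam, L1, L2, L3⟩ : ∃ Lam : Fin n → ℝ, (∀ j, 0 < Lam j) ∧
      (∀ j, (T j).b * (l j * Lam j) ≤ r) ∧ ∀ j, Lam j ≤ (Y j).t / 12 :=
    ⟨fun j => min (r / ((T j).b * l j)) ((Y j).t / 12), fun j => lt_min
      (div_pos hr (mul_pos (hb j) (hl j))) (div_pos (ht j) (by norm_num)), fun j => by
        rw [← mul_assoc, ← le_div_iff₀' (mul_pos (hb j) (hl j))]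
        exact min_le_left _ _, fun j => min_le_right _ _⟩
  obtain ⟨e, e1, e2⟩ := exists_pos_le (fun j => (Y j).t * Lam j) fun j => mul_pos (ht j) (L1 j)
  obtain ⟨s, s1, s2⟩ := exists_pos_le (fun j => l j * Lam j) fun j => mul_pos (hl j) (L1 j)
  obtain ⟨k₁, hk₁⟩ := exists_pow_lt_of_lt_one (lt_min s1 (by positivity : 0 < r₁ / 3))
    (by norm_num : (2 : ℝ)⁻¹ < 1)
  refine ⟨e, e1, k₁, fun k₀ hk₀ => ?_⟩
  have hη : (2 : ℝ)⁻¹ ^ k₀ ≤ min s (r₁ / 3) :=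
    (pow_le_pow_of_le_one (by norm_num) (by norm_num) hk₀).trans hk₁.le
  have hη0 : (0 : ℝ) < 2⁻¹ ^ k₀ := by positivity
  obtain ⟨d, d1, d2⟩ := exists_pos_le
    (fun j => c.τ (T j).b * 2⁻¹ ^ k₀ / ((T j).b * c.m (T j).b)) fun j =>
      div_pos (mul_pos (c.τ_pos _) hη0) (mul_pos (hb j) (hm j))
  have d3 : ∀ j, (T j).b * c.m (T j).b * d / 2⁻¹ ^ k₀ ≤ c.τ (T j).b := fun j => by
    rw [div_le_iff₀ hη0, ← le_div_iff₀' (mul_pos (hb j) (hm j))]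
    exact d2 j
  have τ1 : ∀ b, c.τ b ≤ 1 / 10 := fun b => (hc b).1.trans (min_le_right _ _)
  have d4 : ∀ j, 10 * ((T j).b : ℝ) * c.m (T j).b * d ≤ 2⁻¹ ^ k₀ := fun j =>
    le_of_eq_of_le (by ring) ((le_div_iff₀ (by norm_num : (0 : ℝ) < 10)).1
      (((div_le_iff₀ hη0).1 ((d3 j).trans (τ1 _))).trans_eq (by ring)))
  refine ⟨d, d1, fun β' hβ' => ?_⟩
  obtain ⟨n₁, hn₁⟩ := exists_nat_le fun j => max (Cg (T j).b / β') (c.τ (T j).b)⁻¹
  refine ⟨n₁, fun n' hn' ς ok₀ => ?_⟩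
  have hn : ∀ j, max (Cg (T j).b / β') (c.τ (T j).b)⁻¹ ≤ n' := fun j =>
    (hn₁ j).trans (by exact_mod_cast hn')
  have mn := Mean.sum Finset.univ fun (j : Fin n) _ => (Mean.const (4 * ε *
      volume ((par T c.m (fun j => (Y j).K) r ς k₀ n' 0).U j) +
      c₃ (T j).b (Y j).θ (Y j).N (Y j).t * g₁ (T j).b * (ENNReal.ofReal (C * c.τ (T j).b) +
        (n' : ℝ≥0∞)⁻¹) * volume ((par T c.m (fun j => (Y j).K) r ς k₀ n' 0).U j))).add
    (mean_err hp ok₀ j (Y j).cpt.measurableSet hF (hMt (T j) (c.m (T j).b)).2.1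
      (hMt (T j) (c.m (T j).b)).2.2 (div_pos (mul_pos (mul_pos (hb j) (hm j)) d1) hη0) (d3 j)
      ((τ1 _).trans (by norm_num)) (fun x hx => ((fit j).close x hx).1)
      (c₃ (T j).b (Y j).θ (Y j).N (Y j).t * g₂ (T j).b (c.m (T j).b))
      (c₄ (T j).b (Y j).θ (Y j).N (Y j).t (c.m (T j).b))
      (c₅ (T j) (Y j).θ (Y j).N (Y j).t (c.m (T j).b) * (1 + 2 ^ p)) (2 ^ p))
  have hc' := fun j => (hc (T j).b).2.2
  have hΓ' := fun j => hΓ (T j)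
  simp only [← fun j => (fit j).θ, ← fun j => (fit j).N, ← fun j => (fit j).t] at hc' hΓ'
  refine ⟨_, (mn.add (Mean.const ε)).mono ?_, ?_⟩
  · refine (add_le_add (Finset.sum_le_sum fun j _ => alg6 (ENNReal.ofReal_mul hC.le)
      (inv_le (c.τ_pos _) ((le_max_right _ _).trans (hn j))) (hc' j).2.2.2.2
      (le_self_add.trans (hΓ' j).ge)) le_rfl).trans ?_
    rw [Finset.sum_add_distrib, ← Finset.mul_sum, add_right_comm, mul_add, mul_one]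
    exact add_le_add (add_le_add (mul_le_mul' x3 (cube_thm _ hΩ ok₀).sum_U)
      ((le_mul_of_one_le_left' (by norm_num)).trans x3)) le_rfl
  clear mn
  intro w σ 𝓒 S₀ 𝓜 ok β hβ hmod hgs
  have hA := cube_thm _ hΩ ok
  have ty : ∀ j, Typ (par T c.m (fun j => (Y j).K) r ς k₀ n' w) j (Y j) (cb (T j).b) (l j) (Lam j)
      ((Y j).t / 12) (Tg j) := fun j =>
    ⟨(fit j).r_le, (fit j).Bm ▸ b3 _ (fit j).r_le, (fit j).Bm ▸ b1 _ (fit j).r_le,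
      (fit j).Bm ▸ b2 _ (fit j).r_le, hl j, (fit j).T_eq,
      (div_le_self hη0.le (by exact_mod_cast c.m_pos _)).trans
        (hη.trans ((min_le_left _ _).trans (s2 j))), cthickening_mono (L2 j) _,
      (div_pos (ht j) (by norm_num)).le, by linarith [L3 j]⟩
  obtain ⟨D, δ₀, Pw, n1, n2, hN⟩ := hN (Λ := Λ) 𝓜 (𝓜.src h1) (𝓜.nrm h1 ok) (nrc 𝓜) Y l Lam _ Tg
    rfl hΩ ok (fun j => (hc _).2.1) (fun T m => (hMt T m).1) hF hgs
    fun j => ⟨ty j, 𝓜.nea h1 ok j⟩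
  choose γ γ1 γ2 using fun j : Fin n => hG (par T c.m (fun j => (Y j).K) r ς k₀ n' w) j 𝓜.Q'
    (Y j).K (τ := C * c.τ (T j).b) (β' := β') (β := β) (d := d) hΩ ok (𝓜.wm j)
    (mesh_box 𝓜 j) hF (self_subset_cthickening _) hβ (mul_pos hC (c.τ_pos _)).le
    ((le_div_iff₀' hC).1 ((hc _).1.trans (min_le_left _ _)))
    (fun x hx y hy hxy => hj j x hx y hy (hxy.trans (hη.trans (min_le_right _ _))))
    (hmod j) (d4 j) (num_n hβ' (hg _).2 hA.eta_le (Nat.one_le_cast.2 (c.m_pos _))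
      (Nat.one_le_cast.2 ok.n_pos) ((le_max_left _ _).trans (hn j))) hgs
  obtain ⟨y, y1, -, y3⟩ := small (c := ∑ _j : Fin n, ((D : ℝ≥0∞) + 2 ^ p * D))
    (ENNReal.sum_ne_top.2 fun j _ => by finiteness) hε one_pos
  refine ⟨γ, min δ₀ (ENNReal.ofReal y), Pw, lt_min n1 (ENNReal.ofReal_pos.2 y1), γ1, n2, ?_⟩
  have y4 := (mul_le_mul_right (min_le_right δ₀ (ENNReal.ofReal y)) _).trans y3
  have y5 := min_le_left δ₀ (ENNReal.ofReal y)
  have y6 := lt_min n1 (ENNReal.ofReal_pos.2 y1)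
  generalize min δ₀ (ENNReal.ofReal y) = δ at y4 y5 y6 ⊢
  intro g₀ Θ g hg' pre
  obtain ⟨η', η1, η2⟩ := pre.var
  have dv := fun (j : Fin n) A v W hW => (γ2 j g₀ _ (𝓜.ν j) A v W (pre.aff j)
    (loc (fun e x y a b h => η2 e x y a b ⟨j, h⟩)).1 (𝓜.ν_eq j) hW).trans
    (mul_le_mul_right (add_le_add le_rfl (mul_le_mul_right
      (((loc (fun e x y a b h => η2 e x y a b ⟨j, h⟩)).2 fun x hx =>
        hA.buf_U j (hA.fine_buf j hx.1)).trans η1) _)) _)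
  obtain ⟨𝓢, ψ, a, m, m1, hN⟩ := hN g₀ Θ g _ δ y6 y5 hg' ⟨pre.var, pre.keep, pre.speed, dv⟩
    fun j z hz x hx y hy => by
      obtain ⟨i, i1, i2⟩ := cube_cell 𝓜 hz
      obtain ⟨v, hv⟩ := (fit j).T_eq
      rw [hg' j x (hA.buf_U j (i2 (i1.superset hx)))]
      exact dist_le (hl j) (ty j).nB hv (pre.osc j i (i2.trans (hA.buf_U j)) x (i1.superset hx) y
        (i1.superset hy)) (o2 j)
  refine ⟨𝓢, ψ, a, m, m1, fun h B η hη' hO => ?_⟩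
  obtain ⟨⟨k, k1, k2, k3⟩, k4⟩ := hN h B e η e1.le hη' hO
  refine ⟨k, k1, fun x hx => k2 x fun h => ?_, ?_⟩
  · obtain ⟨j, hj⟩ := mem_iUnion.1 h
    exact hx j (buf_nrs 𝓜 ok j hj)
  refine (Finset.sum_le_sum fun j _ => ((lintegral_mono_set
    (subset_union_right.trans union_sdiff_self.ge)).trans (lintegral_union_le _ _ _)).trans
    (alg7 (k3 j) (T3.trans3 hp 𝓜 ok j (self_subset_cthickening _) hF k2)
      (k4 j) (hc' j).1 ((mul_le_mul_right (ENNReal.ofReal_le_ofReal ?_) _).trans (hc' j).2.1) ?_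
      (hc' j).2.2.2.1)).trans ?_
  · rw [(fit j).ϑ, ← (fit j).t]
    have := (div_le_iff₀ (L1 j)).2 (e2 j)
    linarith only [this]
  · refine strip (fit j).strip (Y j).N_pos (hc' j).2.2.1 (measure_mono ?_)
    exact (self_subset_cthickening _).trans (hA.K_U j)
  · rw [Finset.sum_add_distrib, ← Finset.sum_mul]
    exact add_le_add le_rfl y4

theorem near3 {p : ℝ} (hp : 1 ≤ p) : NEAR3 p := near3_of hp (nearB hp)

end P073.Nr
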