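import Vale.Agent.P073Y.Zn.Defs
import Vale.Agent.P073Y.Ms.Sk
import Vale.Agent.P073Y.Ln.Sk
import Vale.Agent.P073Z.ACC.Sk

/-!
# The accounting near the types of rank at most two: statements
-/

open Set Metric Topology Filter MeasureTheory
open scoped NNReal ENNReal

namespace P073.Nr

open P073.Top P073.Zn P073.M2 P073.Ln
open P073.G2 (Fine1)
open Vale.Agent.P073.HB (GoodSeg)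

/-! ### tools -/

/-- a target frame in which the matrix of a type is the projection onto the first coordinates -/
def FRAME : Prop := ∃ cb : ℕ → ℝ≥0, ∀ T : Ty, T.r ≤ 2 → ∃ Bm : E3 ≃L[ℝ] E3,
  ‖(Bm : E3 →L[ℝ] E3)‖ ≤ cb T.b ∧ ‖(Bm.symm : E3 →L[ℝ] E3)‖ ≤ cb T.b ∧
  ∀ u, Bm (T.A (T.L u)) = dgs T.I 0 u

/-- the staircases for a map which is PL everywhere -/
def STAIRS2 : Prop := ∀ {p : ℝ}, 1 ≤ p → ∃ Cs : ℕ → ℝ≥0,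
  ∀ {Ω Λ : Set E3} {P : Par} (ν : Fin P.N → (E3 ≃ᴬ[ℝ] E3)) (h : ConHomeo Ω Λ) {ε : ℝ≥0∞},
  IsOpen Ω → P.Ok Ω → (∀ j x, ν j x = P.nu j x) → (∀ j, 2 ≤ P.m j) → 0 < ε →
  ∃ k : ConHomeo Ω Λ, (∀ x ∈ Ω, ∃ y ∈ Ω, dist y x ≤ P.ς x ∧ k.toFun x = h.toFun y) ∧
    (∀ x, x ∉ ⋃ j, P.BufSet j → k.toFun =ᶠ[𝓝 x] h.toFun) ∧ ∀ j,
    (∀ z ∈ P.Inner j, ∫⁻ x in P.cube j z, ‖fderiv ℝ k.toFun x - (P.T j).A‖ₑ ^ p ≤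
      P.vol j * ENNReal.ofReal ((P.T j).b / P.a j) ^ p *
        (2 ^ p * ∑ J ∈ (P.T j).I.powerset, (P.m j : ℝ≥0∞)⁻¹ ^ ((P.T j).I.card - J.card) *
          En (3 - J.card) p (fun ξ => (h.toFun ∘ (ν j).symm) ξ - P.B j ξ) (uface z J) + ε)) ∧
    ∀ z ∈ P.Buf j, ∫⁻ x in P.cube j z, ‖fderiv ℝ k.toFun x‖ₑ ^ p ≤
      P.vol j * ENNReal.ofReal ((P.T j).b / P.a j) ^ p *
        (Cs (P.m j) * ∑ J ∈ (P.T j).I.powerset,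
          En (3 - J.card) p (h.toFun ∘ (ν j).symm) (uface z J) + ε)

/-- double counting -/
def DBL : Prop := ∀ {α β : Type} (ρ : α → β → Prop) (A : Set α) (B : Set β) (u : β → ℝ≥0∞)
  (M : ℝ≥0∞), (∀ a ∈ A, ∀ b, ρ a b → b ∈ B) →
  (∀ b ∈ B, ({a | a ∈ A ∧ ρ a b}.encard : ℝ≥0∞) ≤ M) →
  tot A (fun a => tot {b | ρ a b} u) ≤ M * tot B u

variable {Ω : Set E3}

/-- the wires of a cell -/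
def wires (S : Src Ω) (c : S.Q.ι) : Set S.Q.ι := {e | S.Q.dim e = 1 ∧ S.Q.cell e ⊆ S.Q.cell c}

open Classical in
/-- the potential of a wire or a face -/
noncomputable def om (p : ℝ) (CM : ℝ≥0 → ℝ≥0) (S : Src Ω) (G : E3 → E3) (c : S.Q.ι) : ℝ≥0∞ :=
  if S.Q.dim c = 1 then lipc G (S.Q.cell c) ^ p else CM (S.M c) * S.W p G c

/-- the potential is bounded by the speeds on the wires -/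
def OM : Prop := ∀ {Ω : Set E3} (S : Src Ω) {p : ℝ} (CM : ℝ≥0 → ℝ≥0) (G : E3 → E3) (c : S.Q.ι)
  {M : ℝ≥0∞}, 1 ≤ p → 1 ≤ M → S.r c ≤ 1 → ((wires S c).encard : ℝ≥0∞) ≤ M →
  om p CM S G c ≤ (CM (S.M c) + 1) * M ^ p * tot (wires S c) fun e => lipc G (S.Q.cell e) ^ p

/-- energies of near cells and sums with the magnification factors -/
def SUMK : Prop := ∀ {Ω : Set E3} {p c₀ θ ϑ e : ℝ} {C : ℝ≥0} {CM : ℝ≥0 → ℝ≥0} {S : Src Ω} {N : ℕ}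
  {t : ℝ} {B : Set (Fin 3 → ℤ)} {g h : E3 → E3} {Nr : Set S.Q.ι} {η : ℝ≥0∞} {𝓢 : Set S.Q.ι}
  {ψ : S.Q.ι → (E2 →ᵃ[ℝ] E3)} {a : S.Q.ι → ℝ} {m : Fin 4 → S.Q.ι → ℝ≥0∞}
  {c : (Fin 3 → ℤ) → E3} {k : S.Q.ι → ℝ≥0∞}, 1 ≤ p → η ≤ 1 →
  NearOut p c₀ θ ϑ e C CM S N t B g h Nr η 𝓢 ψ a m c k →
  (∀ φ ∈ Nr, ∀ u ∈ S.Q.cell φ, ∃ z, nbr 1 {z} ⊆ B ∧ g u ∈ lbox N 0 z) →
  (∀ φ ∈ Nr, (S.Q.dim φ = 2 ∨ (S.Q.dim φ = 1 ∧ μH[1] (S.Q.cell φ) ≤ 1)) →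
    En (S.Q.dim φ) p h (S.Q.cell φ) ≤ 2 ^ p * (k φ ^ p * om p CM S (vst N t ∘ g) φ + η)) ∧
  ∀ (i : Fin 4) (Φ Φ' : Set S.Q.ι) (ω : S.Q.ι → ℝ≥0∞), m i = Φ.indicator ω → Φ' ⊆ Φ →
    tot Φ' (fun φ => k φ ^ p * ω φ) ≤ C ^ p * tot Φ' ω + 5 * C * ENNReal.ofReal t * tot Φ ω ∧
    tot (Φ ∩ hit S g (slabs N t B c)) ω ≤ 5 * C * ENNReal.ofReal t * tot Φ ω

open Classical in
/-- the parametrisation of a face which is a bottom square -/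
noncomputable def psi (S : Src Ω) (φ : S.Q.ι) : E2 →ᵃ[ℝ] E3 :=
  if h : ∃ z, S.Q.cell φ = uface z {2} then sq h.choose else 0

/-- the narrow lateral strips -/
def strips₁ (N : ℕ) : Set E3 := {y | ∃ i : Fin 3, i ≠ 2 ∧ ∃ k : ℤ, |y i - k * N| ≤ 1}

open Classical in
/-- the bottom cells, in normalised coordinates -/
def BOT : Prop := ∀ {p c₀ θ : ℝ} (C : ℝ≥0) (c₁ : ℝ≥0∞), 1 ≤ p → 1 ≤ c₀ → 0 < θ → θ ≤ 1 / 1000 →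
  c₁ ≠ ⊤ → ∃ c₂ : ℝ≥0∞, c₂ ≠ ⊤ ∧
  ∀ {Ω : Set E3} {ϑ e a o Λ : ℝ} {CM : ℝ≥0 → ℝ≥0} {S : Src Ω} {N R : ℕ} {t : ℝ}
    {B : Set (Fin 3 → ℤ)} {g h : E3 → E3} {Nr : Set S.Q.ι} {η : ℝ≥0∞}
    {m : Fin 4 → S.Q.ι → ℝ≥0∞} {c : (Fin 3 → ℤ) → E3} {k : S.Q.ι → ℝ≥0∞} {I : Finset (Fin 3)}
    (W V : Finset (Fin 3 → ℤ)) (bt : (Fin 3 → ℤ) → S.Q.ι) (X : (Fin 3 → ℤ) → Fin 3 → ℝ≥0∞)
    (Z : (Fin 3 → ℤ) → ℝ≥0∞),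
  0 ≤ ϑ → ϑ ≤ 1 → 0 ≤ e → 0 < a → 0 ≤ o → 1 ≤ N → 0 < t → t ≤ 1 / 4 → 1 ≤ R → R * a ≤ Λ →
  Λ ≤ 2 * R * a → 2 * Λ + o ≤ t → 2 * Λ + o ≤ 1 / 12 → η ≤ 1 → η ≤ ENNReal.ofReal (θ * a) →
  (I = {2} ∨ I = {1, 2}) →
  NearOut p c₀ θ ϑ e C CM S N t B g h Nr η {φ | Marked S g θ φ (psi S φ) (a / 2)} (psi S)
    (fun _ => a / 2) m c k →
  (∀ φ ∈ Nr, ∀ u ∈ S.Q.cell φ, ∃ z, nbr 1 {z} ⊆ B ∧ g u ∈ lbox N 0 z) →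
  m 0 = (bt '' V).indicator 1 → m 1 = (bt '' V).indicator (om p CM S (vst N t ∘ g)) →
  (∀ z ∈ W, bt z ∈ Nr ∧ S.Q.cell (bt z) = uface z I ∧ S.Q.dim (bt z) = 3 - I.card ∧
    ∀ z' l, segment ℝ (vt z') (nx z' l) ⊆ uface z I →
      ∃ w ∈ Nr, S.Q.dim w = 1 ∧ S.Q.cell w = segment ℝ (vt z') (nx z' l)) →
  (∀ z ∈ W, ∀ l ∉ I, Dev a g (vt z) (nx z l) l (X z l)) →
  (∀ z ∈ V, (∀ z', (∀ i, |z' i - z i| ≤ R) → (∀ i ∈ I, z' i = z i) → z' ∈ W) ∧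
    (∀ x ∈ uface z I, dist (g x) (g (vt z)) ≤ o) ∧
    om p CM S (vst N t ∘ g) (bt z) ≤ c₁ * ENNReal.ofReal a ^ p + Z z) →
  ∑ z ∈ V, En (3 - I.card) p (fun ξ => h ξ - (a • dgs I 0) ξ) (uface z I) ≤
    ENNReal.ofReal (θ * (c₀ + 40) ^ p) * ENNReal.ofReal a ^ p * W.card +
    c₂ * (ENNReal.ofReal a ^ p * (ENNReal.ofReal (t + ϑ + e / Λ) * W.card +
        (V.filter fun z => g (vt z) ∈ strips₁ N).card +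
        (ENNReal.ofReal a)⁻¹ * (∑ z ∈ W, ∑ l ∈ Iᶜ, X z l + W.card * η)) +
      ∑ z ∈ V, Z z + W.card * η)

/-! ### the statement -/

/-- the parameters of the zone of type `j` -/
structure Typ {f : E3 → E3} (P : Par) (j : Fin P.N) (Y : TyZ Ω f) (cb : ℝ≥0) (l Λ o : ℝ)
    (T : E3 ≃ᴬ[ℝ] E3) : Prop where
  r_le : (P.T j).r ≤ 2
  frame : ∀ u, Y.Bm ((P.T j).A ((P.T j).L u)) = dgs (P.T j).I 0 u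
  nB : ‖(Y.Bm : E3 →L[ℝ] E3)‖ ≤ cb
  nB' : ‖(Y.Bm.symm : E3 →L[ℝ] E3)‖ ≤ cb
  l_pos : 0 < l
  T_eq : ∃ v, ∀ y, T y = l⁻¹ • Y.Bm y - v
  a_le : P.a j ≤ l * Λ
  thick : cthickening ((P.T j).b * (l * Λ)) Y.K ⊆ P.K j
  o_pos : 0 ≤ o
  rad : 6 * Λ + 6 * o ≤ Y.t

/-- the near cells and their normalised charts -/
structure Nea (P : Par) (j : Fin P.N) (S : Src Ω) {ν : E3 ≃ᴬ[ℝ] E3} (n : Nrm S ν)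
    (Nr : Set S.Q.ι) (M₁ M₂ : ℝ≥0) : Prop where
  sub : ∀ c ∈ Nr, S.Q.cell c ⊆ P.U j
  buf : ∀ c, S.Q.cell c ⊆ P.BufSet j → c ∈ Nr ∧ n.M c = M₁
  rest : ∀ c ∈ Nr, ¬ S.Q.cell c ⊆ P.BufSet j → n.M c = M₂
  r_le : ∀ c ∈ Nr, n.r c ≤ 1

/-- the map `g₀ ∘ Θ` to which the batches are applied -/
structure Pre (P : Par) (Q Q' : RCx E3) (f g₀ Θ : E3 → E3) (K₂ : ℝ≥0)
    (Pw : Q.ι → (E3 ≃L[ℝ] E3)) (ν : Fin P.N → (E3 ≃ᴬ[ℝ] E3)) (Ξ : Fin P.N → ℝ≥0∞)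
    (δ : ℝ≥0∞) : Prop where
  var : ∃ η : Q'.ι → ℝ≥0∞, ∑' e, η e ≤ δ ∧ ∀ e x y, Q'.dim e = 1 → Q'.cell e = segment ℝ x y →
    (∃ j, Q'.cell e ⊆ P.U j) → segVar g₀ x y ≤ K₂ * segVar f x y + η e
  keep : ∀ c, Θ '' Q.cell c = Q.cell c
  speed : ∀ e x y, Q.dim e = 1 → Q.cell e = segment ℝ x y →
    lipc (Pw e ∘ g₀ ∘ Θ) (Q.cell e) * edist x y ≤ segVar (Pw e ∘ g₀) x y ∧
    ∀ ℓ : E3 →L[ℝ] ℝ, segVar (fun u => ℓ (g₀ (Θ u))) x y = segVar (fun u => ℓ (g₀ u)) x y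
  dev : ∀ j (T : E3 →L[ℝ] E3) (c : E3) (W : Finset (Fin 3 → ℤ)),
    (W : Set (Fin 3 → ℤ)) ⊆ P.Inner j → P.vol j * ∑ z ∈ W, ∑ k ∈ (P.T j).Iᶜ,
      segVar (fun u => T (g₀ ((ν j).symm u)) + c - T.comp (P.B j) u) (vt z) (nx z k) ≤
      ‖T‖ₑ * (ENNReal.ofReal (P.a j) * Ξ j + P.vol j * δ)

/-- the line integral of the deviation over the grid lines of type `j` -/
noncomputable def Lg (P : Par) (j : Fin P.N) (F : E3 → (E3 →L[ℝ] E3)) (p : ℝ) : ℝ≥0∞ :=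
  ENNReal.ofReal P.η ^ 2 *
    ∫⁻ x in {x ∈ P.U j | P.nu j x ∈ gridLines}, ‖F x - (P.T j).A‖ₑ ^ p ∂(μH[1])

/-- the line integral over the near lines off `K` -/
noncomputable def Lo (P : Par) (j : Fin P.N) (K S : Set E3) (F : E3 → (E3 →L[ℝ] E3)) (p : ℝ) :
    ℝ≥0∞ := ENNReal.ofReal P.η ^ 2 *
  ∫⁻ x in {x ∈ P.U j \ K | P.η⁻¹ • (x - P.w) ∈ S}, ‖F x‖ₑ ^ p ∂(μH[1])

/-- **the accounting near the types**: `h` is the result of the batches, `h'` the refilled map,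
`k` the map after the staircases -/
def NEAR (p : ℝ) : Prop := ∀ (K₂ M₀ M₁ M₃ : ℝ≥0) (c₀ : ℝ) (Cz : ℝ → ℝ≥0) (CM : ℝ → ℝ≥0 → ℝ≥0)
  (Mt M₂ : Ty → ℕ → ℝ≥0) (cb : ℕ → ℝ≥0), 1 ≤ c₀ → 1 ≤ M₀ →
  ∃ (c₁ : ℕ → ℝ≥0) (c₂ : ℕ → ℝ → ℝ≥0) (c₃ : ℕ → ℝ → ℕ → ℝ → ℝ≥0)
    (c₄ : ℕ → ℝ → ℕ → ℝ → ℕ → ℝ≥0) (c₅ : Ty → ℝ → ℕ → ℝ → ℕ → ℝ≥0),
  ∀ {Ω Λ : Set E3} {f : E3 → E3} {F : E3 → (E3 →L[ℝ] E3)} {P : Par} {σ : E3 → ℝ}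
    {𝓒 : Set (ℕ × (Fin 3 → ℤ))} {S₀ : Set E3} {Sl : Ty → ℕ → Set E3}
    (𝓜 : Mesh2 Ω P σ 𝓒 M₀ Mt S₀ Sl) (S : Src Ω) (n : ∀ j, Nrm S (𝓜.ν j))
    (Nr : Fin P.N → Set S.Q.ι) (Y : Fin P.N → TyZ Ω f) (l Lam o : Fin P.N → ℝ)
    (T : Fin P.N → (E3 ≃ᴬ[ℝ] E3)), S.Q = 𝓜.Q → IsOpen Ω → P.Ok Ω → (∀ j, 2 ≤ P.m j) →
  (∀ T m, M₀ ≤ Mt T m) → Measurable F →
  (∀ e x y, 𝓜.Q'.dim e = 1 → 𝓜.Q'.cell e = segment ℝ x y → GoodSeg f F x (y - x)) →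
  (∀ j, Typ P j (Y j) (cb (P.T j).b) (l j) (Lam j) (o j) (T j) ∧
    Nea P j S (n j) (Nr j) M₁ (M₂ (P.T j) (P.m j))) →
  ∃ (D : ℝ≥0) (δ₀ : ℝ≥0∞) (Pw : S.Q.ι → (E3 ≃L[ℝ] E3)), 0 < δ₀ ∧
    (∀ e, (∀ j, ¬ S.Q.cell e ⊆ Fine1 P j) → Pw e = ContinuousLinearEquiv.refl ℝ E3) ∧
  ∀ (g₀ Θ g : E3 → E3) (Ξ : Fin P.N → ℝ≥0∞) (δ : ℝ≥0∞), 0 < δ → δ ≤ δ₀ →
    (∀ j, ∀ x ∈ P.U j, g x = g₀ (Θ x)) → Pre P S.Q 𝓜.Q' f g₀ Θ K₂ Pw 𝓜.ν Ξ δ →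
    (∀ j, ∀ z ∈ P.Buf j, ∀ x ∈ P.cube j z, ∀ y ∈ P.cube j z,
      dist (T j (g x)) (T j (f y)) ≤ o j) →
  ∃ (𝓢 : Fin P.N → Set S.Q.ι) (ψ : Fin P.N → S.Q.ι → (E2 →ᵃ[ℝ] E3)) (a : Fin P.N → S.Q.ι → ℝ)
    (m : Fin P.N → Fin 4 → S.Q.ι → ℝ≥0∞),
    (∀ j, ∀ φ ∈ 𝓢 j, Marked (n j).src (T j ∘ g ∘ (𝓜.ν j).symm) (Y j).θ φ (ψ j φ) (a j φ)) ∧
  ∀ (h : E3 → E3) (h' : ConHomeo Ω Λ) (B : Fin P.N → Set (Fin 3 → ℤ)) (e : ℝ) (η : ℝ≥0∞),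
    0 ≤ e → η ≤ δ →
    (∀ j, (∀ φ ∈ Nr j, ∀ u ∈ S.Q.cell φ, ∃ z, nbr 1 {z} ⊆ B j ∧ T j (g u) ∈ lbox (Y j).N 0 z) ∧
      ∃ c k, NearOut p c₀ (Y j).θ (Y j).ϑ e (Cz (Y j).θ) (CM (Y j).θ) (n j).src (Y j).N (Y j).t
        (B j) (T j ∘ g ∘ (𝓜.ν j).symm) (T j ∘ h ∘ (𝓜.ν j).symm) (Nr j) η (𝓢 j) (ψ j) (a j)
        (m j) c k) →
    (∀ j, ∀ u ∈ S.Q.skel 2 ∩ P.BufSet j, h'.toFun u = h u) →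
    (∀ j c, S.Q.dim c = 3 → S.Q.cell c ⊆ P.BufSet j →
      En 3 p (h'.toFun ∘ (𝓜.ν j).symm) (𝓜.ν j '' S.Q.cell c) ≤
        M₃ * En 2 p (h ∘ (𝓜.ν j).symm) (𝓜.ν j '' S.Q.bd c) + δ) →
    (∃ k : ConHomeo Ω Λ, (∀ x ∈ Ω, ∃ y ∈ Ω, dist y x ≤ P.ς x ∧ k.toFun x = h'.toFun y) ∧
      (∀ x, x ∉ ⋃ j, P.BufSet j → k.toFun =ᶠ[𝓝 x] h'.toFun) ∧ ∀ j,
      ∫⁻ x in P.BufSet j, ‖fderiv ℝ k.toFun x - F x‖ₑ ^ p ≤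
        c₁ (P.T j).b * ENNReal.ofReal (Y j).θ * volume (P.U j) +
        c₂ (P.T j).b (Y j).θ * (ENNReal.ofReal ((Y j).t + (Y j).ϑ + e / Lam j) * volume (P.U j) +
          volume {x ∈ (Y j).K | T j (f x) ∈ strips (Y j).N}) +
        c₃ (P.T j).b (Y j).θ (Y j).N (Y j).t * ((P.m j : ℝ≥0∞)⁻¹ * volume (P.U j) + Ξ j) +
        c₄ (P.T j).b (Y j).θ (Y j).N (Y j).t (P.m j) *
          (Lg P j F p + volume (P.U j \ (Y j).K) + (∫⁻ x in P.U j, ‖F x - (P.T j).A‖ₑ ^ p)) +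
        c₅ (P.T j) (Y j).θ (Y j).N (Y j).t (P.m j) * Lo P j (Y j).K (Sl (P.T j) (P.m j)) F p +
        D * δ) ∧
    ∀ j, ENNReal.ofReal P.η * tot {φ ∈ Nr j | S.Q.dim φ = 2 ∧ Disjoint (S.Q.cell φ) (Y j).K}
        (fun φ => En 2 p h (S.Q.cell φ)) ≤
      c₅ (P.T j) (Y j).θ (Y j).N (Y j).t (P.m j) * Lo P j (Y j).K (Sl (P.T j) (P.m j)) F p + D * δ

end P073.Nr
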