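import Vale.Agent.P073Y.Nr.Sk
import Vale.Agent.P073Y.Ms.Nea

/-!
# The accounting near the types with the choice of the parameters: statements
-/

open Set Metric Topology Filter MeasureTheory
open scoped NNReal ENNReal

namespace P073.Nr

open P073.Top P073.Zn P073.M2
open P073.G2 (Fine1)
open Vale.Agent.P073.HB (GoodSeg WeakDeriv)

/-- the parameters with thickened compact sets -/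
abbrev par {n : ℕ} (T : Fin n → Ty) (m : ℕ → ℕ) (K : Fin n → Set E3) (r : ℝ) (ς : E3 → ℝ)
    (k₀ n' : ℕ) (w : E3) : Par :=
  ⟨n, T, fun j => m (T j).b, fun j => cthickening r (K j), ς, k₀, n', w⟩

section

variable {Ω : Set E3} {P : Par} {σ : E3 → ℝ} {𝓒 : Set (ℕ × (Fin 3 → ℤ))} {M₀ : ℝ≥0}
  {Mt : Ty → ℕ → ℝ≥0} {S₀ : Set E3} {Sl : Ty → ℕ → Set E3} (𝓜 : Mesh2 Ω P σ 𝓒 M₀ Mt S₀ Sl)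

/-- the near cells of type `j` -/
def nrc (j : Fin P.N) : Set 𝓜.Q.ι := {i | ¬ 𝓜.far i ∧ 𝓜.Q.cell i ⊆ P.U j}

/-- their union -/
def nrs (j : Fin P.N) : Set E3 := {x | ∃ i ∈ nrc 𝓜 j, x ∈ 𝓜.Q.cell i}

/-- the weighted energy of the far faces which meet `U j` -/
noncomputable def farE (p : ℝ) (h : E3 → E3) (j : Fin P.N) : ℝ≥0∞ :=
  ENNReal.ofReal P.η * tot {φ | 𝓜.far φ ∧ 𝓜.Q.dim φ = 2 ∧ (𝓜.Q.cell φ ∩ P.U j).Nonempty}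
    fun φ => En 2 p h (𝓜.Q.cell φ)

/-- the refilled near cells -/
def Ref (p : ℝ) (CR : ℝ≥0 → ℝ≥0) (h h' : E3 → E3) (δ : ℝ≥0∞) (j : Fin P.N) : Prop :=
  ∀ c ∈ nrc 𝓜 j, 𝓜.Q.dim c = 3 →
    En 3 p (h' ∘ (𝓜.nm c).symm) (𝓜.nm c '' 𝓜.Q.cell c) ≤
      CR (𝓜.M c) * En 2 p (h ∘ (𝓜.nm c).symm) (𝓜.nm c '' 𝓜.Q.bd c) + δ

end

/-- the near cells outside the buffer -/
def TRANS (p : ℝ) : Prop := ∀ {Ω : Set E3} {P : Par} {σ : E3 → ℝ} {𝓒 : Set (ℕ × (Fin 3 → ℤ))}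
  {M₀ : ℝ≥0} {Mt : Ty → ℕ → ℝ≥0} {S₀ : Set E3} {Sl : Ty → ℕ → Set E3}
  (𝓜 : Mesh2 Ω P σ 𝓒 M₀ Mt S₀ Sl), IsOpen Ω → P.Ok Ω → ∃ D : ℝ≥0,
  ∀ (j : Fin P.N) {K : Set E3} {F : E3 → (E3 →L[ℝ] E3)} {k h h' : E3 → E3} {CR : ℝ≥0 → ℝ≥0}
    {δ : ℝ≥0∞}, K ⊆ P.K j → Measurable F → (∀ x, x ∉ ⋃ j, P.BufSet j → k =ᶠ[𝓝 x] h') →
  Ref 𝓜 p CR h h' δ j →
  ∫⁻ x in nrs 𝓜 j \ P.BufSet j, ‖fderiv ℝ k x - F x‖ₑ ^ p ≤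
    2 ^ p * (CR (Mt (P.T j) (P.m j)) * M₀ * (ENNReal.ofReal P.η *
        tot {φ ∈ nrc 𝓜 j | 𝓜.Q.dim φ = 2 ∧ Disjoint (𝓜.Q.cell φ) K}
          (fun φ => En 2 p h (𝓜.Q.cell φ)) + farE 𝓜 p h j) +
      ∫⁻ x in P.U j \ K, ‖F x‖ₑ ^ p) + D * δ

/-- the parameters of the types as functions of the bound `b` -/
structure Cho where
  /-- sharpness -/
  θ : ℕ → ℝ
  /-- half width of the slabs and buffer fraction -/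
  t : ℕ → ℝ
  /-- closeness to the matrix -/
  τ : ℕ → ℝ
  /-- lateral size of the boxes -/
  N : ℕ → ℕ
  /-- anisotropy -/
  m : ℕ → ℕ
  /-- distortion -/
  L : ℕ → ℝ≥0
  /-- the price of the crude bounds -/
  Γ : Ty → ℝ≥0
  /-- the target frames -/
  Bm : Ty → (E3 ≃L[ℝ] E3)
  t_pos : ∀ b, 0 < t b
  t_le : ∀ b, t b ≤ θ b
  θ_le : ∀ b, θ b ≤ 1 / 1000
  τ_pos : ∀ b, 0 < τ b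
  N_pos : ∀ b, 1 ≤ N b
  m_pos : ∀ b, 1 ≤ m b
  le_L : ∀ b : ℕ, (b : ℝ≥0) ^ 2 * m b ≤ L b
  cond : ∀ T : Ty, T.r ≤ 2 → Cond (Bm T).toContinuousAffineEquiv (L T.b)

/-- the zone `Y` of the type `T` has the chosen parameters; `Tg` are its target coordinates -/
structure Cho.Fit (c : Cho) {Ω : Set E3} {f : E3 → E3} (F : E3 → (E3 →L[ℝ] E3)) (r₁ : ℝ) (T : Ty)
    (Y : TyZ Ω f) (l : ℝ) (Tg : E3 ≃ᴬ[ℝ] E3) : Prop where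
  r_le : T.r ≤ 2
  Bm : Y.Bm = c.Bm T
  N : Y.N = c.N T.b
  t : Y.t = c.t T.b
  θ : Y.θ = c.θ T.b
  ϑ : Y.ϑ = c.t T.b
  sub : cthickening r₁ Y.K ⊆ Ω
  close : ∀ x ∈ Y.K, ‖F x - T.A‖ ≤ c.τ T.b ∧ MaxLe F T.A x r₁ (c.τ T.b)
  l_pos : 0 < l
  T_eq : ∃ v, ∀ y, Tg y = l⁻¹ • Y.Bm y - v
  strip : Y.N * volume {x ∈ Y.K | Tg (f x) ∈ strips Y.N} ≤ 10 * volume Y.K

/-- the map `g₀ ∘ Θ` to which the batches are applied -/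
structure Pre2 (P : Par) (Q Q' : RCx E3) (f g₀ Θ : E3 → E3) (K₂ : ℝ≥0) {κ₀ : ℝ → ℝ} {β : ℝ}
    (γ : Fin P.N → Good Q' f κ₀ β) (Pw : Q.ι → (E3 ≃L[ℝ] E3)) (o : ℝ) (δ : ℝ≥0∞) : Prop where
  aff : ∀ j, ∀ i ∈ (γ j).G, EqOn g₀ ((γ j).A i) (Q'.cell i)
  var : ∃ η : Q'.ι → ℝ≥0∞, ∑' e, η e ≤ δ ∧ ∀ e x y, Q'.dim e = 1 → Q'.cell e = segment ℝ x y →
    segVar g₀ x y ≤ K₂ * segVar f x y + η e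
  keep : ∀ c, Θ '' Q.cell c = Q.cell c
  speed : ∀ e x y, Q.dim e = 1 → Q.cell e = segment ℝ x y →
    lipc (Pw e ∘ g₀ ∘ Θ) (Q.cell e) * edist x y ≤ segVar (Pw e ∘ g₀) x y ∧
    ∀ ℓ : E3 →L[ℝ] ℝ, segVar (fun u => ℓ (g₀ (Θ u))) x y = segVar (fun u => ℓ (g₀ u)) x y
  osc : ∀ j c, Q.cell c ⊆ P.U j → ∀ x ∈ Q.cell c, ∀ y ∈ Q.cell c, dist (g₀ (Θ x)) (f y) ≤ o

/-- **the accounting near the types with the choice of the parameters** -/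
def NEAR2 (p : ℝ) : Prop := ∀ (K₂ M₀ : ℝ≥0) (κ₀ : ℝ → ℝ) (c₀ : ℝ) (Cz : ℝ → ℝ≥0)
  (CM : ℝ → ℝ≥0 → ℝ≥0) (CR : ℝ≥0 → ℝ≥0) (Mt : Ty → ℕ → ℝ≥0) (Sl : Ty → ℕ → Set E3) (ε : ℝ≥0∞)
  (h1 : 1 ≤ M₀), (∀ M, 0 < κ₀ M) → 1 ≤ c₀ → 0 < ε →
  (∀ T m, M₀ ≤ Mt T m ∧ MeasurableSet (Sl T m) ∧ ∀ y, μH[1] (Sl T m ∩ closedBall y 1) ≤ Mt T m) →
  ∃ c : Cho, ∀ {Ω Λ : Set E3} {f : E3 → E3} {F : E3 → (E3 →L[ℝ] E3)} {n : ℕ} (T : Fin n → Ty)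
    (Y : Fin n → TyZ Ω f) (l : Fin n → ℝ) (Tg : Fin n → (E3 ≃ᴬ[ℝ] E3)) (r₁ : ℝ),
  IsOpen Ω → ContinuousOn f Ω → Measurable F → LocallyIntegrableOn F Ω volume →
  WeakDeriv volume Ω f F → 0 < r₁ → (∀ j, c.Fit F r₁ (T j) (Y j) (l j) (Tg j)) →
  ∃ o : ℝ, 0 < o ∧ ∀ r : ℝ, 0 < r → ∃ e : ℝ, 0 < e ∧ ∃ k₁ : ℕ, ∀ k₀, k₁ ≤ k₀ →
  ∃ d : ℝ, 0 < d ∧ ∀ β' : ℝ, 0 < β' → ∃ n₁ : ℕ, ∀ n', n₁ ≤ n' → ∀ ς : E3 → ℝ,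
  (par T c.m (fun j => (Y j).K) r ς k₀ n' 0).Ok Ω →
  ∃ Φ : E3 → ℝ≥0∞, Mean 1 Φ (ε * (volume Ω + 1) + ∑ j, c.Γ (T j) *
      ∫⁻ x in (par T c.m (fun j => (Y j).K) r ς k₀ n' 0).U j \ (Y j).K, (1 + ‖F x‖ₑ ^ p)) ∧
  ∀ (w : E3) {σ : E3 → ℝ} {𝓒 : Set (ℕ × (Fin 3 → ℤ))} {S₀ : Set E3}
    (𝓜 : Mesh2 Ω (par T c.m (fun j => (Y j).K) r ς k₀ n' w) σ 𝓒 M₀ Mt S₀ Sl)
    (ok : (par T c.m (fun j => (Y j).K) r ς k₀ n' w).Ok Ω) (β : ℝ), β' ≤ β →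
  (∀ j, ∀ x ∈ (par T c.m (fun j => (Y j).K) r ς k₀ n' w).U j, ∀ y ∈ Ω,
    dist (f x) (f y) ≤ 20 * β' → dist x y ≤ d) →
  (∀ e x y, 𝓜.Q'.dim e = 1 → 𝓜.Q'.cell e = segment ℝ x y → GoodSeg f F x (y - x)) →
  ∃ (γ : Fin n → Good 𝓜.Q' f κ₀ β) (δ : ℝ≥0∞) (Pw : 𝓜.Q.ι → (E3 ≃L[ℝ] E3)), 0 < δ ∧
    (∀ j, ∀ i ∈ (γ j).G, 𝓜.Q'.cell i ⊆ Fine1 (par T c.m (fun j => (Y j).K) r ς k₀ n' w) j ∧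
      ∀ x ∈ 𝓜.Q'.cell i, ∃ v ∈ 𝓜.Q'.cell i ∩ (Y j).K, dist ((γ j).A i x) (f v) ≤ β') ∧
    (∀ e, (∀ j, ¬ 𝓜.Q.cell e ⊆ Fine1 (par T c.m (fun j => (Y j).K) r ς k₀ n' w) j) →
      Pw e = ContinuousLinearEquiv.refl ℝ E3) ∧
  ∀ (g₀ Θ g : E3 → E3), (∀ x, g x = g₀ (Θ x)) →
    Pre2 (par T c.m (fun j => (Y j).K) r ς k₀ n' w) 𝓜.Q 𝓜.Q' f g₀ Θ K₂ γ Pw o δ →
  ∃ (𝓢 : Fin n → Set 𝓜.Q.ι) (ψ : Fin n → 𝓜.Q.ι → (E2 →ᵃ[ℝ] E3)) (a : Fin n → 𝓜.Q.ι → ℝ)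
    (m : Fin n → Fin 4 → 𝓜.Q.ι → ℝ≥0∞),
    (∀ j, ∀ φ ∈ 𝓢 j, Marked (𝓜.nrm h1 ok j).src (Tg j ∘ g ∘ (𝓜.ν j).symm) (Y j).θ φ (ψ j φ)
      (a j φ)) ∧
  ∀ (h : E3 → E3) (h' : ConHomeo Ω Λ) (B : Fin n → Set (Fin 3 → ℤ)) (η : ℝ≥0∞), η ≤ δ →
    (∀ j, (∀ φ ∈ nrc 𝓜 j, ∀ u ∈ 𝓜.Q.cell φ,
        ∃ z, nbr 1 {z} ⊆ B j ∧ Tg j (g u) ∈ lbox (Y j).N 0 z) ∧
      ∃ c k, NearOut p c₀ (Y j).θ (Y j).ϑ e (Cz (Y j).θ) (CM (Y j).θ) (𝓜.nrm h1 ok j).src (Y j).N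
        (Y j).t (B j) (Tg j ∘ g ∘ (𝓜.ν j).symm) (Tg j ∘ h ∘ (𝓜.ν j).symm) (nrc 𝓜 j) η (𝓢 j)
        (ψ j) (a j) (m j) c k) →
    (∀ j, ∀ u ∈ 𝓜.Q.skel 2 ∩ nrs 𝓜 j, h'.toFun u = h u) → (∀ j, Ref 𝓜 p CR h h'.toFun δ j) →
    ∃ k : ConHomeo Ω Λ, (∀ x ∈ Ω, ∃ y ∈ Ω, dist y x ≤ ς x ∧ k.toFun x = h'.toFun y) ∧
      (∀ x, (∀ j, x ∉ nrs 𝓜 j) → k.toFun =ᶠ[𝓝 x] h'.toFun) ∧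
      ∑ j, ∫⁻ x in nrs 𝓜 j, ‖fderiv ℝ k.toFun x - F x‖ₑ ^ p ≤
        Φ w + ∑ j, c.Γ (T j) * farE 𝓜 p h j

end P073.Nr
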