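import Vale.Agent.P073Y.Nr.Sk2
import Vale.Agent.P073Y.Nr.Sums
import Vale.Agent.P073Z.ACC.Det
import Vale.Agent.P073Z.ACC.Cube
import Vale.Agent.P073Z.ACC.Tools

/-!
# The sum over the cubes of one type
-/

open Set Metric Topology Filter MeasureTheory
open scoped NNReal ENNReal

namespace P073.Nr

open P073.Top P073.Zn P073.M2 P073.Ln

namespace Cu

open Sm Det

/-- comparison of energies from a comparison of distances -/
theorem en_le_mul {S T T' : Type} [MetricSpace S] [MeasurableSpace S] [BorelSpace S]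
    [PseudoEMetricSpace T] [PseudoEMetricSpace T'] {k : ℕ} {p : ℝ} (hp : 0 ≤ p) {X : Set S}
    {h : S → T} {h' : S → T'} {K : ℝ≥0∞} (hK : K ≠ ⊤)
    (H : ∀ x y, edist (h y) (h x) ≤ K * edist (h' y) (h' x)) :
    En k p h X ≤ K ^ p * En k p h' X := by
  unfold En
  rw [← lintegral_const_mul' _ _ (ENNReal.rpow_ne_top_of_nonneg hp hK)]
  refine lintegral_mono fun x => ?_
  rw [← ENNReal.mul_rpow_of_nonneg _ _ hp]
  refine ENNReal.rpow_le_rpow ?_ hp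
  by_cases h0 : K = 0
  · refine Cone.lipAt_le (Eventually.of_forall fun y => (H x y).trans ?_)
    simp [h0]
  · have := Cone.le_of_forall_gt_aff (a := lipAt h X x) (l := lipAt h' X x) (e := 0) h0 hK
      fun c hc => by
        rw [add_zero]
        refine Cone.lipAt_le ?_
        filter_upwards [Cone.ev_of_lipAt_lt hc] with y h1
        rw [mul_assoc]
        exact (H x y).trans (mul_le_mul_right h1 K)
    rwa [add_zero] at this

variable {Ω : Set E3} {P : Par} {j : Fin P.N} {Q : RCx E3} {ν : E3 ≃ᴬ[ℝ] E3} {Sl : Set E3}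
  {M₀ Mt : ℝ≥0}

/-- summing over cubes -/
theorem sum_cubes (La : Latt P j Q ν Sl M₀ Mt) (A : Finset (Fin 3 → ℤ))
    (hA : ∀ z ∈ A, z ∈ P.Buf j) (ρ : Q.ι → Prop) {Φ : Set Q.ι} (u : Q.ι → ℝ≥0∞)
    (h : ∀ z ∈ A, ∀ c, ρ c → Q.cell c ⊆ P.cube j z → c ∈ Φ) :
    ∑ z ∈ A, tot {c | ρ c ∧ Q.cell c ⊆ P.cube j z} u ≤ M₀ * tot Φ u := by
  rw [← tot_finset]
  refine dbl (fun z c => ρ c ∧ Q.cell c ⊆ P.cube j z) _ Φ u M₀
    (fun z hz c hc => h z hz c hc.1 hc.2) fun c _ => le_trans ?_ (La.cubes c)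
  exact ENat.toENNReal_le.2 (encard_le_encard fun z hz => ⟨hA z hz.1, hz.2.2⟩)

theorem alg {T w m M M₀ β δ ε Cs bp V Ud I E₁ E₂ E₃ nW nX nB SI SB : ℝ≥0∞}
    (h1 : SI ≤ w * (T * (8 * (m * (T * (M * (M₀ * E₂) + nW * δ + nW * β))) +
      (E₁ + T * (M * (M₀ * E₃) + nX * δ + nX * β))) + nW * ε))
    (h2 : SB ≤ T * (w * (Cs * (8 * (M * (M₀ * E₃) + nB * δ)) + nB * ε) + bp * (nB * V)))
    (h3 : nB * V ≤ Ud) :
    T * (SI + SB + I) ≤ T ^ 2 * (w * E₁) + 8 * T ^ 3 * m * (M * M₀ * (w * E₂) + w * β * nW) +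
      (T ^ 3 + 8 * T ^ 2 * Cs) * M * M₀ * (w * E₃) + T ^ 3 * (w * β * nX) + T ^ 2 * bp * Ud +
      T * I + w * (8 * T ^ 3 * m * nW + T ^ 3 * nX + 8 * T ^ 2 * Cs * nB) * δ +
      w * (T * nW + T ^ 2 * nB) * ε := by
  refine le_trans (mul_le_mul_right (add_le_add (add_le_add h1 (h2.trans (mul_le_mul_right
    (add_le_add le_rfl (mul_le_mul_right h3 bp)) T))) le_rfl) T) (le_of_eq ?_)
  ring

open Classical in
/-- the integral over the buffer in terms of the energies on the cells -/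
theorem buf_int {p : ℝ} (hp : 1 ≤ p) (hA : CubeApi Ω P) (La : Latt P j Q ν Sl M₀ Mt)
    {F : E3 → (E3 →L[ℝ] E3)} (hF : Measurable F) {K : Set E3} (hK : K ⊆ P.K j) {Nr : Set Q.ι}
    (hN : ∀ c, Q.cell c ⊆ P.BufSet j → c ∈ Nr) (hm : 1 ≤ P.m j) (hr : (P.T j).r ≤ 2)
    {k H H' : E3 → E3} {M₃ δ ε Cs : ℝ≥0∞} {W V Bf : Finset (Fin 3 → ℤ)}
    (hW : (W : Set (Fin 3 → ℤ)) = P.Inner j) (hV : (V : Set (Fin 3 → ℤ)) = Vs P j K)
    (hB : (Bf : Set (Fin 3 → ℤ)) = P.Buf j \ P.Inner j)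
    (tb : ∀ z ∈ P.Buf j, ∀ J : Finset (Fin 3),
      (J.card ≤ 1 → En (3 - J.card) p H' (uface z J) ≤
        (M₃ + 1) * tot {c | Q.dim c = 2 ∧ Q.cell c ⊆ P.cube j z}
          (fun c => En 2 p H (ν '' Q.cell c)) + δ) ∧
      (J.card ≤ 2 → En (3 - J.card) p H' (uface z J) ≤
        (M₃ + 1) * tot {c | (Q.dim c = 2 ∨ Q.dim c = 1) ∧ Q.cell c ⊆ P.cube j z}
          (fun c => En (Q.dim c) p H (ν '' Q.cell c)) + δ) ∧
      (1 ≤ J.card → EqOn H' H (uface z J)))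
    (s1 : ∀ z ∈ P.Inner j, ∫⁻ x in P.cube j z, ‖fderiv ℝ k x - (P.T j).A‖ₑ ^ p ≤
      P.vol j * ENNReal.ofReal ((P.T j).b / P.a j) ^ p *
        (2 ^ p * ∑ J ∈ (P.T j).I.powerset, (P.m j : ℝ≥0∞)⁻¹ ^ ((P.T j).I.card - J.card) *
          En (3 - J.card) p (fun ξ => H' ξ - P.B j ξ) (uface z J) + ε))
    (s2 : ∀ z ∈ P.Buf j, ∫⁻ x in P.cube j z, ‖fderiv ℝ k x‖ₑ ^ p ≤
      P.vol j * ENNReal.ofReal ((P.T j).b / P.a j) ^ p *
        (Cs * ∑ J ∈ (P.T j).I.powerset, En (3 - J.card) p H' (uface z J) + ε)) :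
    let T : ℝ≥0∞ := 2 ^ p
    let w := P.vol j * ENNReal.ofReal ((P.T j).b / P.a j) ^ p
    let β := ENNReal.ofReal ((P.T j).b ^ 2 * P.a j) ^ p
    let m := (P.m j : ℝ≥0∞)⁻¹
    ∫⁻ x in P.BufSet j, ‖fderiv ℝ k x - F x‖ₑ ^ p ≤
      T ^ 2 * (w * ∑ z ∈ V, En (3 - (P.T j).I.card) p (fun ξ => H ξ - P.B j ξ)
        (uface z (P.T j).I)) +
      8 * T ^ 3 * m * ((M₃ + 1) * M₀ * (w * tot (Φ₂ P j Q) fun c => En 2 p H (ν '' Q.cell c)) +
        w * β * W.card) +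
      (T ^ 3 + 8 * T ^ 2 * Cs) * (M₃ + 1) * M₀ *
        (w * tot (Φ₃ P j Q Nr K) fun c => En (Q.dim c) p H (ν '' Q.cell c)) +
      T ^ 3 * (w * β * (W \ V).card) +
      T ^ 2 * ENNReal.ofReal (P.T j).b ^ p * volume (P.U j \ K) +
      T * (∫⁻ x in P.U j, ‖F x - (P.T j).A‖ₑ ^ p) +
      w * (8 * T ^ 3 * m * W.card + T ^ 3 * (W \ V).card + 8 * T ^ 2 * Cs * Bf.card) * δ +
      w * (T * W.card + T ^ 2 * Bf.card) * ε := by
  intro T w β m
  have hp0 : 0 ≤ p := by linarith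
  have mW : ∀ z, z ∈ W ↔ z ∈ P.Inner j := fun z => by rw [← Finset.mem_coe, hW]
  have mV : ∀ z, z ∈ V ↔ z ∈ Vs P j K := fun z => by rw [← Finset.mem_coe, hV]
  have mB : ∀ z, z ∈ Bf ↔ z ∈ P.Buf j \ P.Inner j := fun z => by rw [← Finset.mem_coe, hB]
  have VW : V ⊆ W := fun z hz => by
    obtain ⟨x, hx, hx'⟩ := (mV z).1 hz
    exact (mW z).2 ⟨x, hK hx, hx'⟩
  have cb : ∀ z ∈ P.Buf j, P.cube j z ⊆ P.BufSet j := fun z hz x hx => ⟨z, hz, hx⟩
  have in3 : ∀ z ∈ P.Buf j, z ∉ V → ∀ c, (Q.dim c = 2 ∨ Q.dim c = 1) → Q.cell c ⊆ P.cube j z →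
      c ∈ Φ₃ P j Q Nr K := fun z hz hz' c h1 h2 =>
    ⟨hN c (h2.trans (cb z hz)), Set.disjoint_left.2 fun x hx hxK => hz' ((mV z).2 ⟨x, hxK, h2 hx⟩),
      h1.imp id fun h => ⟨h, h2.trans (cb z hz)⟩⟩
  have hI := hA.card_I j
  have hr1 := (P.T j).r_pos
  have sub : ∀ (z : Fin 3 → ℤ) (J : Finset (Fin 3)) {x : ℝ≥0∞},
      En (3 - J.card) p H' (uface z J) ≤ x →
      En (3 - J.card) p (fun ξ => H' ξ - P.B j ξ) (uface z J) ≤ T * (x + β) := by
    intro z J x hx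
    refine (ena.2.1 _ H' (P.B j) hp (measurableSet_uface z J)).1.trans
      (mul_le_mul_right (add_le_add hx ?_) _)
    calc _ ≤ β * 1 := by
          refine mul_le_mul' (ENNReal.rpow_le_rpow ?_ hp0) (ena.2.2.2.2.2 z J)
          rw [← ofReal_norm]
          exact ENNReal.ofReal_le_ofReal (hA.B_le j)
      _ = _ := mul_one _
  set A₂ : (Fin 3 → ℤ) → ℝ≥0∞ := fun z => tot {c | Q.dim c = 2 ∧ Q.cell c ⊆ P.cube j z}
    (fun c => En 2 p H (ν '' Q.cell c)) with hA₂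
  set A₃ : (Fin 3 → ℤ) → ℝ≥0∞ := fun z =>
    tot {c | (Q.dim c = 2 ∨ Q.dim c = 1) ∧ Q.cell c ⊆ P.cube j z}
      (fun c => En (Q.dim c) p H (ν '' Q.cell c)) with hA₃
  set e : (Fin 3 → ℤ) → ℝ≥0∞ := fun z =>
    En (3 - (P.T j).I.card) p (fun ξ => H' ξ - P.B j ξ) (uface z (P.T j).I) with he
  have c1 : P.BufSet j ⊆ (⋃ z ∈ W, P.cube j z) ∪ ⋃ z ∈ Bf, P.cube j z := by
    rintro x ⟨z, hz, hx⟩
    by_cases hi : z ∈ P.Inner j
    · exact Or.inl (mem_biUnion ((mW z).2 hi) hx)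
    · exact Or.inr (mem_biUnion ((mB z).2 ⟨hz, hi⟩) hx)
  refine (lint_split hp _ _ (P.T j).A hF).trans (le_trans (mul_le_mul_right (add_le_add
    ((lintegral_mono_set c1).trans ((lintegral_union_le _ _ _).trans (add_le_add
      (lint_biUnion_le _ _ _) (lint_biUnion_le _ _ _))))
    (lintegral_mono_set (hA.buf_U j))) _) (alg (V := P.vol j) ?_ ?_ ?_))
  · have a1 : ∀ z ∈ W, ∫⁻ x in P.cube j z, ‖fderiv ℝ k x - (P.T j).A‖ₑ ^ p ≤
        w * (T * (8 * (m * (T * ((M₃ + 1) * A₂ z + δ + β))) + e z) + ε) := by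
      intro z hz
      have hz' := (mW z).1 hz
      refine (s1 z hz').trans (mul_le_mul_right (add_le_add (mul_le_mul_right ?_ _) le_rfl) _)
      refine sum_pow_le _ (ENNReal.inv_le_one.2 (by exact_mod_cast hm)) _ (fun J hJ hne => ?_)
        le_rfl
      have := Finset.card_lt_card (Finset.ssubset_iff_subset_ne.2 ⟨hJ, hne⟩)
      exact sub z J ((tb z (hA.inner_buf j hz') J).1 (by omega))
    have a2 := sum_cubes La W (fun z hz => hA.inner_buf j ((mW z).1 hz)) (fun c => Q.dim c = 2)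
      (Φ := Φ₂ P j Q) (fun c => En 2 p H (ν '' Q.cell c))
      fun z hz c h1 h2 => ⟨h1, h2.trans (cb z (hA.inner_buf j ((mW z).1 hz)))⟩
    have a3 := sum_cubes La (W \ V)
      (fun z hz => hA.inner_buf j ((mW z).1 (Finset.mem_sdiff.1 hz).1))
      (fun c => Q.dim c = 2 ∨ Q.dim c = 1) (fun c => En (Q.dim c) p H (ν '' Q.cell c))
      fun z hz => in3 z (hA.inner_buf j ((mW z).1 (Finset.mem_sdiff.1 hz).1))
        (Finset.mem_sdiff.1 hz).2
    have a4 : ∑ z ∈ V, e z = ∑ z ∈ V, En (3 - (P.T j).I.card) p (fun ξ => H ξ - P.B j ξ)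
        (uface z (P.T j).I) := Finset.sum_congr rfl fun z hz =>
      EN.en_congr (measurableSet_uface _ _) fun ξ hξ => by
        simp only [(tb z (hA.inner_buf j ((mW z).1 (VW hz))) (P.T j).I).2.2 (by omega) hξ]
    have a5 : ∑ z ∈ W \ V, e z ≤ ∑ z ∈ W \ V, T * ((M₃ + 1) * A₃ z + δ + β) :=
      Finset.sum_le_sum fun z hz => sub z _
        ((tb z (hA.inner_buf j ((mW z).1 (Finset.mem_sdiff.1 hz).1)) _).2.1 (by omega))
    refine (Finset.sum_le_sum a1).trans ?_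
    simp only [Finset.sum_add_distrib, ← Finset.mul_sum, Finset.sum_const, nsmul_eq_mul] at a5 ⊢
    rw [← Finset.sum_sdiff VW (f := e), a4, add_comm (∑ z ∈ W \ V, e z)]
    gcongr
    refine a5.trans ?_
    gcongr
  · have a1 : ∀ z ∈ Bf, ∫⁻ x in P.cube j z, ‖fderiv ℝ k x - (P.T j).A‖ₑ ^ p ≤
        T * (w * (Cs * (8 * ((M₃ + 1) * A₃ z + δ)) + ε) +
          ENNReal.ofReal (P.T j).b ^ p * P.vol j) := by
      intro z hz
      have hz' := ((mB z).1 hz).1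
      refine (lint_split hp _ _ 0 (F := fun _ => (P.T j).A) measurable_const).trans
        (mul_le_mul_right (add_le_add ?_ ?_) _)
      · simp only [sub_zero]
        refine (s2 z hz').trans (mul_le_mul_right (add_le_add (mul_le_mul_right ?_ _) le_rfl) _)
        exact sum_le8 _ _ fun J hJ => (tb z hz' J).2.1 (card_le_two hA j hJ)
      · rw [setLIntegral_const, hA.vol_cube, sub_zero, ← ofReal_norm]
        exact mul_le_mul_left (ENNReal.rpow_le_rpow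
          (ENNReal.ofReal_le_ofReal (P.T j).normA) hp0) _
    have a3 := sum_cubes La Bf (fun z hz => ((mB z).1 hz).1)
      (fun c => Q.dim c = 2 ∨ Q.dim c = 1) (fun c => En (Q.dim c) p H (ν '' Q.cell c))
      fun z hz => in3 z ((mB z).1 hz).1 fun h => ((mB z).1 hz).2 ((mW z).1 (VW h))
    refine (Finset.sum_le_sum a1).trans ?_
    simp only [Finset.sum_add_distrib, ← Finset.mul_sum, Finset.sum_const, nsmul_eq_mul]
    gcongr
  · have := (hA.count_buf j).trans (measure_mono (sdiff_subset_sdiff_right hK))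
    rwa [← hB, encard_coe_eq_coe_finsetCard, ENat.toENNReal_coe] at this

end Cu

end P073.Nr
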