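import Vale.Agent.P073Y.Nr.Sk2
import Vale.Agent.P073Y.Nr.Sums
import Vale.Agent.P073Y.Ms.Src
import Vale.Agent.P073Z.ACC.Tools
import Vale.Agent.P073Z.EN.B

/-!
# The lattice structure of the complex near a type
-/

open Set Metric Topology Filter MeasureTheory
open scoped NNReal ENNReal

namespace P073.Nr

open P073.Top P073.Zn P073.M2 P073.Ln

namespace La

theorem nx_apply (z : Fin 3 → ℤ) (l i : Fin 3) :
    nx z l i = if i = l then (z i : ℝ) + 1 else z i := by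
  by_cases h : i = l
  · subst h
    simp [nx, vt]
  · simp [nx, vt, h]

theorem vt_mem (z : Fin 3 → ℤ) (J : Finset (Fin 3)) : vt z ∈ uface z J := Cell.corner_mem z J

/-- a lattice segment is a face -/
theorem seg_eq (z : Fin 3 → ℤ) (l : Fin 3) : segment ℝ (vt z) (nx z l) = uface z {l}ᶜ := by
  ext ξ
  rw [Cell.mem_uface]
  constructor
  · rintro ⟨a, b, ha, hb, hab, rfl⟩
    have e : ∀ i, (a • vt z + b • nx z l) i = z i + if i = l then b else 0 := fun i => by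
      rw [Pi.add_apply, Pi.smul_apply, Pi.smul_apply, nx_apply, smul_eq_mul, smul_eq_mul, vt]
      split_ifs
      · linear_combination (z i : ℝ) * hab
      · linear_combination (z i : ℝ) * hab
    refine ⟨fun i => ?_, fun i hi => ?_⟩
    · rw [e]
      split_ifs <;> constructor <;> linarith
    · rw [e, if_neg (by simpa using hi), add_zero]
  · rintro ⟨h1, h2⟩
    refine ⟨1 - (ξ l - z l), ξ l - z l, by linarith [(h1 l).2], by linarith [(h1 l).1], by ring,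
      funext fun i => ?_⟩
    rw [Pi.add_apply, Pi.smul_apply, Pi.smul_apply, nx_apply, smul_eq_mul, smul_eq_mul, vt]
    split_ifs with h
    · subst h
      ring
    · rw [h2 i (by simpa using h)]
      ring

theorem pt_eq (z : Fin 3 → ℤ) : uface z Finset.univ = {vt z} :=
  eq_singleton_iff_unique_mem.2
    ⟨vt_mem z _, fun _ h => funext fun i => h.2 i (Finset.mem_univ i)⟩

theorem exists_compl {J : Finset (Fin 3)} (h : 1 + J.card = 3) : ∃ k, J = {k}ᶜ := by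
  obtain ⟨k, hk⟩ := Finset.card_eq_one.1 (show Jᶜ.card = 1 by
    rw [Finset.card_compl, Fintype.card_fin]
    omega)
  exact ⟨k, by rw [← hk, compl_compl]⟩

theorem edist_nx (z : Fin 3 → ℤ) (l : Fin 3) : edist (vt z) (nx z l) = 1 := by
  have e : vt z - nx z l = Pi.single l (-1) := funext fun i => by
    rw [Pi.sub_apply, nx_apply, vt, Pi.single_apply]
    split_ifs <;> ring
  rw [edist_dist, dist_eq_norm, e, Pi.norm_single]
  simp

theorem encard_le {α : Type} {A B : Set α} {M : ℝ≥0∞} (h : A ⊆ B) (hB : (B.encard : ℝ≥0∞) ≤ M) :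
    (A.encard : ℝ≥0∞) ≤ M := (ENat.toENNReal_le.2 (encard_le_encard h)).trans hB

theorem encard_eq_tot {α : Type} (A : Set α) : (A.encard : ℝ≥0∞) = tot A fun _ => 1 := by
  rw [Sm.tot_const, mul_one]

/-- counting a covered set -/
theorem encard_cover {α β : Type} (ρ : α → β → Prop) {A : Set α} {B : Set β} {M : ℝ≥0∞}
    (h : ∀ a ∈ A, ∃ b ∈ B, ρ a b) (hM : ∀ b ∈ B, ({a | ρ a b}.encard : ℝ≥0∞) ≤ M) :
    (A.encard : ℝ≥0∞) ≤ M * B.encard := by
  have h1 := dbl (fun a b => ρ a b ∧ b ∈ B) A B (fun _ => 1) M (fun _ _ _ hb => hb.2)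
    fun b hb => encard_le (fun a ha => ha.2.1) (hM b hb)
  rw [encard_eq_tot, encard_eq_tot B]
  refine le_trans (Sm.tot_mono_fun fun a ha => ?_) h1
  obtain ⟨b, h2, h3⟩ := h a ha
  exact Sm.le_tot (A := {b | ρ a b ∧ b ∈ B}) ⟨h3, h2⟩ fun _ => 1

end La

open La

theorem side : SIDE := by
  refine ⟨fun z z' l I h => ?_, fun z l => ⟨?_, edist_nx z l⟩, fun z I => sep_subset _ _,
    fun I z z' h => ?_⟩
  · obtain ⟨h1, h2⟩ := Cell.mem_uface.1 (h (left_mem_segment ℝ _ _))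
    have h3 := (Cell.mem_uface.1 (h (right_mem_segment ℝ _ _))).2
    refine ⟨fun hl => ?_, fun i => ?_, fun i hi => ?_⟩
    · have a := h2 l hl
      have b := h3 l hl
      rw [nx_apply, if_pos rfl] at b
      rw [vt] at a
      linarith
    · have a : z i ≤ z' i := by exact_mod_cast (show (z i : ℝ) ≤ z' i from (h1 i).1)
      have b : z' i ≤ z i + 1 := by exact_mod_cast (show (z' i : ℝ) ≤ z i + 1 from (h1 i).2)
      rw [abs_le]
      omega
    · exact_mod_cast (show (z' i : ℝ) = z i from h2 i hi)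
  · rw [hausdorffMeasure_segment, edist_nx]
  · have h1 := (Cell.mem_uface.1 (h.subset (vt_mem z I))).1
    have h2 := (Cell.mem_uface.1 (h.superset (vt_mem z' I))).1
    funext i
    exact_mod_cast le_antisymm (show (z i : ℝ) ≤ z' i from (h2 i).1)
      (show (z' i : ℝ) ≤ z i from (h1 i).1)

theorem latt : LATT := by
  intro Ω P σ 𝓒 M₀ Mt S₀ Sl 𝓜 j hΩ ok h1 hM
  have face : ∀ z ∈ P.Buf j, ∀ z' J, uface z' J ⊆ ucube z → ∃ c,
      𝓜.Q.cell c = P.nu j ⁻¹' uface z' J ∧ 𝓜.ν j '' 𝓜.Q.cell c = uface z' J ∧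
        𝓜.Q.dim c + J.card = 3 ∧ 𝓜.Q.cell c ⊆ P.cube j z ∧ 𝓜.Q.cell c ⊆ P.BufSet j :=
    fun z hz z' J h =>
      let ⟨c, a1, a2, a3, a4⟩ := 𝓜.face_cell hz h
      ⟨c, a1, a2, a3, fun _ hx => h (a1.subset hx), a4⟩
  have edge : ∀ e, 𝓜.Q.dim e = 1 → 𝓜.Q.cell e ⊆ P.BufSet j →
      ∃ z k, 𝓜.Q.cell e = P.nu j ⁻¹' uface z {k}ᶜ := fun e he h => by
    obtain ⟨z, J, a1, a2, -⟩ := 𝓜.buf_cell h
    obtain ⟨k, rfl⟩ := exists_compl (he ▸ a2)
    exact ⟨z, k, a1⟩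
  have fbuf : ∀ c, 𝓜.Q.cell c ⊆ P.BufSet j →
      ({l | 𝓜.Q.cell l ⊆ 𝓜.Q.cell c}.encard : ℝ≥0∞) ≤ M₀ := fun c h => by
    have := 𝓜.faces c
    rwa [(𝓜.nm_buf c j h).2] at this
  have cube : ∀ z ∈ P.Buf j, ∃ c, 𝓜.Q.cell c = P.cube j z ∧ 𝓜.Q.cell c ⊆ P.BufSet j :=
    fun z hz => by
      obtain ⟨c, a1, -, -, -, a5⟩ := face z hz z ∅ (sep_subset _ _)
      exact ⟨c, by rw [a1, Cell.uface_empty]; rfl, a5⟩
  refine ⟨fun z hz J => ?_, fun z hz z' l h => ?_, fun z hz z' h => ?_, fun e he h => ?_, ?_,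
    ⟨h1, hM _ _⟩, fun c h => ?_, fbuf, fun e => ?_, fun c => ?_, ?_, fun u => ?_, fun K u => ?_⟩
  · obtain ⟨c, -, a2, a3, a4, -⟩ := face z hz z J (sep_subset _ _)
    exact ⟨c, a2, by omega, a4⟩
  · rw [seg_eq] at h ⊢
    obtain ⟨c, -, a2, a3, a4, -⟩ := face z hz z' _ h
    rw [Finset.card_compl, Fintype.card_fin, Finset.card_singleton] at a3
    exact ⟨c, by omega, a2, a4⟩
  · obtain ⟨c, a1, -⟩ := face z hz z' Finset.univ (by rwa [pt_eq, singleton_subset_iff])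
    refine ⟨c, ?_⟩
    rw [a1, pt_eq, 𝓜.nu_eq]
    ext x
    exact (𝓜.ν j).toEquiv.eq_symm_apply.symm
  · obtain ⟨z, k, a⟩ := edge e he h
    exact ⟨z, k, by rw [a, 𝓜.image_box, seg_eq]⟩
  · have b : (0 : ℝ) ≤ (P.T j).b * P.η := mul_nonneg (Nat.cast_nonneg _) Cube.eta_pos.le
    refine (𝓜.Q.finite_subset ((ok.compact j).cthickening (r := 100 * (P.T j).b * P.η))
      fun x hx => 𝓜.carrier.symm ▸ (ok.big j x hx).1).subset fun c hc => Subset.trans hc ?_
    exact thickening_subset_cthickening_of_le (by nlinarith) _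
  · refine (𝓜.faces c).trans (ENNReal.coe_le_coe.2 ((𝓜.M_le c).2.trans ?_))
    by_cases hf : 𝓜.far c
    · rw [𝓜.MI_far c hf]
      exact hM _ _
    · rw [𝓜.MI_near c j hf h]
  · obtain ⟨x, hx⟩ := 𝓜.Q.cell_nonempty e
    exact encard_le (fun c hc => hc hx) (𝓜.mult x)
  · obtain ⟨x, hx⟩ := 𝓜.Q.cell_nonempty c
    have : Nonempty 𝓜.Q.ι := ⟨c⟩
    choose! f hf using fun z (hz : z ∈ P.Buf j) => (cube z hz).imp fun _ h => h.1
    · refine le_trans (ENat.toENNReal_le.2 (encard_le_encard_of_injOn (f := f)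
        (fun z hz => ?_) fun z hz z' hz' e => ?_)) (𝓜.mult x)
      · exact (hf z hz.1).superset (hz.2 hx)
      · have a := (hf z hz.1).symm.trans (e ▸ hf z' hz'.1)
        refine side.2.2.2 ∅ z z' ?_
        rw [Cell.uface_empty, Cell.uface_empty, ← 𝓜.image_box j (ucube z),
          ← 𝓜.image_box j (ucube z')]
        exact congrArg _ a
  · refine encard_cover (fun c z => 𝓜.Q.cell c ⊆ P.cube j z) (fun c hc => ?_) fun z hz => ?_
    · obtain ⟨z, J, a1, -, z', a2, a3⟩ := 𝓜.buf_cell hc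
      exact ⟨z', a2, fun x hx => a3 (a1.subset hx)⟩
    · obtain ⟨c, a1, a2⟩ := cube z hz
      rw [← a1]
      exact fbuf c a2
  · refine ena.2.2.1 𝓜.Q _ u fun e he => ⟨he.1, fun x hx => ⟨Cube.buf_U ok j (he.2 hx), ?_⟩⟩
    obtain ⟨z, k, a⟩ := edge e he.1 he.2
    exact ⟨k, fun i hi => ⟨z i, (a.subset hx).2 i (by simpa using hi)⟩⟩
  · exact ena.2.2.1 𝓜.Q _ u fun e he => ⟨he.1, fun x hx =>
      ⟨he.2 hx, 𝓜.wire_near e j he.1 (fun y hy => (he.2 hy).1) x hx⟩⟩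

theorem topb : TOPB := by
  intro Ω P j Q ν Sl M₀ Mt p M₃ δ h h' hp _ _ hL h1 h2 z hz J
  obtain ⟨c, a1, a2, a3⟩ := hL.box z hz J
  have a4 : Q.cell c ⊆ P.BufSet j := fun x hx => ⟨z, hz, a3 hx⟩
  have e3 : 1 ≤ J.card → EqOn (h' ∘ ν.symm) (h ∘ ν.symm) (uface z J) := fun hJ => by
    rw [← a1]
    rintro _ ⟨x, hx, rfl⟩
    simp only [Function.comp, ν.symm_apply_apply]
    exact h1 x ⟨Q.cell_subset_skel (by omega) hx, a4 hx⟩
  have one : 1 ≤ J.card → En (3 - J.card) p (h' ∘ ν.symm) (uface z J) =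
      En (Q.dim c) p (h ∘ ν.symm) (ν '' Q.cell c) := fun hJ => by
    rw [a2, EN.en_congr _ (e3 hJ), a1]
    rw [← a1]
    exact ((Q.isCompact_cell c).image ν.continuous).isClosed.measurableSet
  have up : ∀ x : ℝ≥0∞, x ≤ (M₃ + 1) * x + δ := fun x =>
    (le_mul_of_one_le_left' le_add_self).trans le_self_add
  have e1 : J.card ≤ 1 → En (3 - J.card) p (h' ∘ ν.symm) (uface z J) ≤
      (M₃ + 1) * tot {c | Q.dim c = 2 ∧ Q.cell c ⊆ P.cube j z}
        (fun c => En 2 p (h ∘ ν.symm) (ν '' Q.cell c)) + δ := fun hJ => by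
    rcases Nat.le_one_iff_eq_zero_or_eq_one.1 hJ with h0 | h0
    · rw [h0] at a2 ⊢
      rw [← a1]
      refine (h2 c a2 a4).trans (add_le_add_left (mul_le_mul' le_self_add ?_) _)
      refine (ena.1 Q ν 2 _ hp (Q.sub_bd c) (Q.isCompact_bd c) fun l hl => ?_).trans
        (Sm.tot_mono_set (A := {l | Q.cell l ⊆ Q.bd c ∧ Q.dim l = 2})
          (fun l hl => And.intro hl.2 (hl.1.trans ((Q.bd_subset c).trans a3))) _)
      have := Q.dim_lt hl
      omega
    · rw [one h0.ge, show Q.dim c = 2 by omega]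
      exact (Sm.le_tot (A := {c | Q.dim c = 2 ∧ Q.cell c ⊆ P.cube j z}) ⟨by omega, a3⟩
        fun c => En 2 p (h ∘ ν.symm) (ν '' Q.cell c)).trans (up _)
  refine ⟨e1, fun hJ => ?_, e3⟩
  by_cases h0 : J.card ≤ 1
  · refine (e1 h0).trans (add_le_add_left (mul_le_mul_right (Sm.tot_mono
      (fun l hl => And.intro (Or.inl hl.1) hl.2) fun l hl => ?_) _) _)
    rw [hl.1]
  · rw [one (by omega)]
    exact (Sm.le_tot (A := {c | (Q.dim c = 2 ∨ Q.dim c = 1) ∧ Q.cell c ⊆ P.cube j z})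
      ⟨Or.inr (by omega), a3⟩ fun c => En (Q.dim c) p (h ∘ ν.symm) (ν '' Q.cell c)).trans (up _)

end P073.Nr
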