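import Vale.Agent.P073Y.Nr.Sk2
import Vale.Agent.P073Y.Nr.Sums
import Vale.Agent.P073Y.Gd.Sharp
import Vale.Agent.P073Y.Ln.Face
import Vale.Agent.P073Y.Ln.Rows
import Vale.Agent.P073Z.ACC.Cube

/-!
# The speeds on the wires: tools
-/

open Set Metric Topology Filter MeasureTheory
open scoped NNReal ENNReal

namespace P073.Nr.Sp

open P073.Top P073.Zn P073.M2 P073.Ln
open AffineMap (lineMap)

section gen

variable {T T' : Type} [PseudoEMetricSpace T] [PseudoEMetricSpace T'] {x y : E3} {c V : ℝ≥0∞}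

/-- the speed in the affine parametrisation of the segment is at most `V` -/
def Prm (G : E3 → T) (x y : E3) (V : ℝ≥0∞) : Prop := ∀ s ∈ Icc (0 : ℝ) 1, ∀ s' ∈ Icc (0 : ℝ) 1,
  edist (G (lineMap x y s)) (G (lineMap x y s')) ≤ V * edist s s'

theorem edist_le_lipc (G : E3 → T) {X : Set E3} {u w : E3} (hu : u ∈ X) (hw : w ∈ X) :
    edist (G u) (G w) ≤ lipc G X * edist u w := by
  rcases eq_or_ne u w with rfl | h
  · simp
  · exact (ENNReal.div_le_iff (edist_pos.2 h).ne' (edist_ne_top u w)).1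
      (le_iSup₂_of_le u hu (le_iSup₂_of_le w hw le_rfl))

theorem lipc_le {G : E3 → T} {X : Set E3}
    (h : ∀ u ∈ X, ∀ w ∈ X, edist (G u) (G w) ≤ c * edist u w) : lipc G X ≤ c :=
  iSup₂_le fun u hu => iSup₂_le fun w hw => ENNReal.div_le_of_le_mul (h u hu w hw)

theorem prm_of {G : E3 → T} {H : E3 → T'} (h : lipc H (segment ℝ x y) * edist x y ≤ V)
    (h' : ∀ u w, edist (G u) (G w) ≤ c * edist (H u) (H w)) : Prm G x y (c * V) :=
  fun s hs s' hs' => by
    refine (h' _ _).trans ((mul_le_mul_right ((edist_le_lipc H (lineMap_mem_segment ℝ x y hs)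
      (lineMap_mem_segment ℝ x y hs')).trans ?_) c).trans_eq (mul_assoc _ _ _).symm)
    rw [G2.edist_line, ← mul_assoc]
    exact mul_le_mul_left h _

theorem Prm.mono {G : E3 → T} {V' : ℝ≥0∞} (h : Prm G x y V) (h' : V ≤ V') : Prm G x y V' :=
  fun s hs s' hs' => (h s hs s' hs').trans (mul_le_mul_left h' _)

theorem map_line (ν : E3 ≃ᴬ[ℝ] E3) (x y : E3) (s : ℝ) :
    ν (lineMap x y s) = lineMap (ν x) (ν y) s :=
  ν.toAffineEquiv.toAffineMap.apply_lineMap x y s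

theorem lipc_img (ν : E3 ≃ᴬ[ℝ] E3) {G : E3 → T} (h1 : 1 ≤ c * edist (ν x) (ν y))
    (h2 : Prm G x y V) : lipc (G ∘ ν.symm) (ν '' segment ℝ x y) ≤ c * V := by
  refine lipc_le ?_
  rw [segment_eq_image_lineMap]
  rintro _ ⟨_, ⟨s, hs, rfl⟩, rfl⟩ _ ⟨_, ⟨s', hs', rfl⟩, rfl⟩
  simp only [Function.comp_apply, ContinuousAffineEquiv.symm_apply_apply]
  refine (h2 s hs s' hs').trans ((le_mul_of_one_le_left' h1).trans_eq ?_)
  rw [map_line, map_line, G2.edist_line]
  ring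

theorem segVar_le_mul {G : E3 → T} {H : E3 → T'}
    (h : ∀ u w, edist (G u) (G w) ≤ c * edist (H u) (H w)) : segVar G x y ≤ c * segVar H x y := by
  refine iSup_le fun q => (Finset.sum_le_sum fun i _ => h _ _).trans ?_
  rw [← Finset.mul_sum]
  exact mul_le_mul_right (eVariationOn.sum_le (f := fun s : ℝ => H (lineMap x y s))
    q.2.2.1 q.2.2.2) _

theorem segVar_eq {G : E3 → T} {H : E3 → T'} (h : ∀ u w, edist (G u) (G w) = edist (H u) (H w)) :
    segVar G x y = segVar H x y := by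
  simp only [segVar, eVariationOn, h]

theorem segVar_mul {G : E3 → T} {H : E3 → T'}
    (h : ∀ u w, edist (G u) (G w) = c * edist (H u) (H w)) : segVar G x y = c * segVar H x y := by
  simp only [segVar, eVariationOn, h, ENNReal.mul_iSup, Finset.mul_sum]

theorem segVar_map (ν : E3 ≃ᴬ[ℝ] E3) (G : E3 → T) (x y : E3) :
    segVar (fun u => G (ν u)) x y = segVar G (ν x) (ν y) := by
  simp only [segVar, map_line]

theorem cell_eq (ν : E3 ≃ᴬ[ℝ] E3) {X : Set E3} (h : ν '' X = segment ℝ x y) :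
    X = segment ℝ (ν.symm x) (ν.symm y) := by
  have h1 := image_segment ℝ ν.symm.toAffineEquiv.toAffineMap x y
  rw [← h] at h1
  refine Eq.trans ?_ h1
  rw [image_image]
  simp

end gen

/-- the constant of the estimate of the variation -/
noncomputable def cst (p : ℝ) (K b : ℝ≥0∞) : ℝ≥0∞ :=
  2 ^ p * (2 ^ p * ((K * b ^ 2) ^ p + K ^ p * b ^ (p - 1) + 1))

theorem cst_ne {p : ℝ} (hp : 1 ≤ p) {K b : ℝ≥0∞} (hK : K ≠ ⊤) (hb : b ≠ ⊤) : cst p K b ≠ ⊤ := by
  have h0 : 0 ≤ p := by linarith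
  have h1 : 0 ≤ p - 1 := by linarith
  unfold cst
  finiteness

theorem est {p : ℝ} (hp : 1 ≤ p) {K b S a J J' δ : ℝ≥0∞} (hS : S ≤ K * (J + b ^ 2 * a) + δ)
    (hJ : J ^ p ≤ b ^ (p - 1) * J') (hδ : δ ≤ 1) : S ^ p ≤ cst p K b * (a ^ p + J' + δ) := by
  have h0 : 0 < p := by linarith
  have h2 : (1 : ℝ≥0∞) ≤ 2 ^ p := ENNReal.one_le_rpow one_le_two h0
  rw [mul_add, ← mul_assoc K (b ^ 2)] at hS
  refine (ENNReal.rpow_le_rpow hS h0.le).trans ((Sm.add_rpow_le hp _ _).trans ?_)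
  rw [cst, mul_assoc (2 ^ p)]
  refine mul_le_mul_right ((add_le_add (Sm.add_rpow_le hp _ _)
    ((ENNReal.rpow_le_self_of_le_one hδ hp).trans (le_mul_of_one_le_left' h2))).trans ?_) _
  rw [← mul_add, mul_assoc (2 ^ p)]
  refine mul_le_mul_right ?_ _
  rw [ENNReal.mul_rpow_of_nonneg _ _ h0.le, ENNReal.mul_rpow_of_nonneg _ a h0.le, mul_add, mul_add,
    add_comm (K ^ p * _)]
  refine add_le_add (add_le_add (mul_le_mul_left (le_self_add.trans le_self_add) _)
    ((mul_le_mul_right hJ _).trans ?_)) (le_mul_of_one_le_left' le_add_self)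
  rw [← mul_assoc]
  exact mul_le_mul_left (le_add_self.trans le_self_add) _

theorem pow_est {p : ℝ} (hp : 1 ≤ p) {s c L κ S C Z : ℝ≥0∞} (h : s ≤ c * (L * κ * S))
    (h' : S ^ p ≤ C * Z) : s ^ p ≤ (c * κ) ^ p * C * L ^ p * Z := by
  have h0 : 0 ≤ p := by linarith
  refine (ENNReal.rpow_le_rpow h h0).trans ?_
  simp only [ENNReal.mul_rpow_of_nonneg _ _ h0]
  exact (mul_le_mul_right (mul_le_mul_right h' _) _).trans_eq (by ring)

theorem fine_est {p : ℝ} (hp : 1 ≤ p) {lam α s X c L a J δ : ℝ≥0∞} (h0 : α ≠ 0) (h1 : α ≠ ⊤)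
    (hs : 1 ≤ s) (hα : α = L * a) (h2 : lam ≤ α + s * X)
    (h3 : lam ^ p ≤ c * L ^ p * (a ^ p + J + δ)) :
    lam ^ p ≤ 2 ^ p * α ^ p + c * s * (α ^ p * α⁻¹ * X + L ^ p * (J + δ)) := by
  have hq : 0 ≤ p := by linarith
  rcases le_total (s * X) α with h | h
  · refine le_trans ?_ le_self_add
    rw [← ENNReal.mul_rpow_of_nonneg _ _ hq, two_mul]
    exact ENNReal.rpow_le_rpow (h2.trans (add_le_add_right h _)) hq
  · refine h3.trans (le_trans ?_ le_add_self)
    rw [mul_assoc, mul_assoc, add_assoc, mul_add, ← ENNReal.mul_rpow_of_nonneg _ _ hq, ← hα,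
      mul_add s]
    refine mul_le_mul_right (add_le_add ?_ (le_mul_of_one_le_left' hs)) _
    calc α ^ p = α ^ p * α⁻¹ * α := by rw [mul_assoc, ENNReal.inv_mul_cancel h0 h1, mul_one]
      _ ≤ α ^ p * α⁻¹ * (s * X) := mul_le_mul_right h _
      _ = _ := by ring

theorem holder {p : ℝ} (hp : 1 ≤ p) {u : E3 → ℝ≥0∞} (hu : Measurable u) {x y : E3} {b : ℕ} {η : ℝ}
    (h : dist x y ≤ b * η) : (∫⁻ z in segment ℝ x y, u z ∂(μH[1])) ^ p ≤
      (b : ℝ≥0∞) ^ (p - 1) *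
        (ENNReal.ofReal η ^ (p - 1) * ∫⁻ z in segment ℝ x y, u z ^ p ∂(μH[1])) := by
  have h1 := AV.lintegral_rpow_le ((μH[1] : Measure E3).restrict (segment ℝ x y))
    hu.aemeasurable hp
  rw [Measure.restrict_apply_univ, hausdorffMeasure_segment] at h1
  refine h1.trans ?_
  rw [← mul_assoc, ← ENNReal.mul_rpow_of_nonneg _ _ (by linarith), ← ENNReal.ofReal_natCast,
    ← ENNReal.ofReal_mul b.cast_nonneg, edist_dist]
  exact mul_le_mul_left (ENNReal.rpow_le_rpow (ENNReal.ofReal_le_ofReal h) (by linarith)) _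

theorem vst_eq (N : ℕ) (t : ℝ) (y : E3) : vst N t y = dgs {2} (N / t) y := by
  ext i
  fin_cases i <;> simp [vst, dgs]

theorem norm_dgs {s : ℝ} (hs : 1 ≤ s) (I : Finset (Fin 3)) : ‖dgs I s‖ ≤ s := by
  refine ContinuousLinearMap.opNorm_le_bound _ (by linarith) fun y =>
    (pi_norm_le_iff_of_nonneg (by positivity)).2 fun i => ?_
  have h := norm_le_pi_norm y i
  have h0 := norm_nonneg y
  by_cases hi : i ∈ I
  · simp only [dgs, ContinuousLinearMap.pi_apply, if_pos hi, smul_apply, norm_smul,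
      ContinuousLinearMap.proj_apply, Real.norm_of_nonneg (by linarith : 0 ≤ s)]
    gcongr
  · simp only [dgs, ContinuousLinearMap.pi_apply, if_neg hi, one_smul,
      ContinuousLinearMap.proj_apply]
    nlinarith

theorem nx_sub (z : Fin 3 → ℤ) (k : Fin 3) : nx z k - vt z = Pi.single k 1 := by
  ext i
  by_cases h : i = k <;> simp [nx, vt, h]

theorem seg_coord {z : Fin 3 → ℤ} {k i : Fin 3} (h : i ≠ k) {ξ : E3}
    (hξ : ξ ∈ segment ℝ (vt z) (nx z k)) : ξ i = z i := by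
  obtain ⟨a, b, -, -, h1, rfl⟩ := hξ
  simp [vt, nx, h, ← add_mul, h1]

theorem seg_sub (z : Fin 3 → ℤ) {I : Finset (Fin 3)} {k : Fin 3} (hk : k ∉ I) :
    segment ℝ (vt z) (nx z k) ⊆ uface z I := fun _ hξ =>
  ⟨(convex_Icc _ _).segment_subset (Rw.vt_mem z I).1 (Rw.step_mem z hk).1 hξ,
    fun i hi => seg_coord (fun e : i = k => hk (e ▸ hi)) hξ⟩

theorem not_face {z z' : Fin 3 → ℤ} {I : Finset (Fin 3)} {k : Fin 3} (hk : k ∈ I) :
    midpoint ℝ (vt z) (nx z k) ∉ uface z' I := fun h => by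
  have h1 := h.2 k hk
  simp only [midpoint_eq_smul_add, vt, nx, Pi.smul_apply, Pi.add_apply, Pi.single_eq_same,
    smul_eq_mul, invOf_eq_inv] at h1
  have h2 : (2 * z k + 1 : ℤ) = 2 * z' k := by
    have h3 : ((2 * z k + 1 : ℤ) : ℝ) = ((2 * z' k : ℤ) : ℝ) := by
      push_cast at h1 ⊢
      linarith
    exact_mod_cast h3
  omega

theorem lam_single (P : Par) (j : Fin P.N) {k : Fin 3} (hk : k ∉ (P.T j).I) :
    P.Lam j (Pi.single k 1) = (P.T j).L (Pi.single k (P.a j)) := by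
  have h1 : (k : ℕ) < (P.T j).r := by simpa [Ty.I] using hk
  refine congrArg (P.T j).L (funext fun i => ?_)
  by_cases h : i = k
  · simp [h, h1, Par.a]
  · by_cases h' : (i : ℕ) < (P.T j).r <;> simp [h, h']

theorem dgs_single {I : Finset (Fin 3)} {k : Fin 3} (hk : k ∉ I) (s c : ℝ) :
    dgs I s (Pi.single k c) = Pi.single k c := by
  ext i
  by_cases h : i = k
  · simp [dgs, h, hk]
  · by_cases h' : i ∈ I <;> simp [dgs, h, h']

end P073.Nr.Sp
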