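import Vale.Agent.P073Y.Nr.One
import Vale.Agent.P073Y.Nr.Latt
import Vale.Agent.P073Y.Nr.Stairs
import Vale.Agent.P073Y.Nr.SpeedA
import Vale.Agent.P073Y.Ms.Src

/-!
# The accounting near the types
-/

open Set Metric Topology Filter MeasureTheory
open scoped NNReal ENNReal

namespace P073.Nr

open P073.Top P073.Zn P073.M2 P073.Ln
open P073.G2 (Fine1)

namespace On

open Sm Det Cu

theorem exists_vst {N : ℕ} {t : ℝ} (hN : 1 ≤ N) (ht : 0 < t) :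
    ∃ L : E3 ≃L[ℝ] E3, ∀ y, L y = vst N t y := by
  have h0 : (N : ℝ) / t ≠ 0 := by
    have : (0 : ℝ) < N := by exact_mod_cast hN
    positivity
  refine ⟨ContinuousLinearEquiv.piCongrRight fun i : Fin 3 =>
    if i = 2 then ContinuousLinearEquiv.unitsEquivAut ℝ (Units.mk0 _ h0)
    else ContinuousLinearEquiv.refl ℝ ℝ, fun y => ?_⟩
  ext i
  fin_cases i <;> simp [vst, mul_comm]

theorem exists_inf {N : ℕ} (x : Fin N → ℝ≥0∞) (hx : ∀ j, 0 < x j) :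
    ∃ δ : ℝ≥0∞, 0 < δ ∧ δ ≤ 1 ∧ ∀ j, δ ≤ x j :=
  ⟨min 1 (Finset.univ.inf x), lt_min one_pos ((Finset.lt_inf_iff ENNReal.zero_lt_top).2
    fun j _ => hx j), min_le_left _ _, fun j =>
    (min_le_right _ _).trans (Finset.inf_le (Finset.mem_univ j))⟩

theorem exists_pw {Ω : Set E3} {P : Par} (hA : CubeApi Ω P) (Q : RCx E3)
    (L : Fin P.N → (E3 ≃L[ℝ] E3)) : ∃ Pw : Q.ι → (E3 ≃L[ℝ] E3),
    (∀ e, (∀ j, ¬ Q.cell e ⊆ Fine1 P j) → Pw e = ContinuousLinearEquiv.refl ℝ E3) ∧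
    ∀ j, (∀ e, Q.cell e ⊆ Fine1 P j → Pw e = L j) ∧ ∀ e, Q.cell e ⊆ P.U j →
      ¬ Q.cell e ⊆ Fine1 P j → Pw e = ContinuousLinearEquiv.refl ℝ E3 := by
  classical
  have u : ∀ {e j j'}, Q.cell e ⊆ P.U j → Q.cell e ⊆ Fine1 P j' → j' = j := by
    intro e j j' h h'
    by_contra hne
    obtain ⟨x, hx⟩ := Q.cell_nonempty e
    exact Set.disjoint_left.1 (hA.U_disj j' j hne) (hA.buf_U _ (hA.fine_buf _ (h' hx).1)) (h hx)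
  refine ⟨fun e => if h : ∃ j, Q.cell e ⊆ Fine1 P j then L h.choose
    else ContinuousLinearEquiv.refl ℝ E3, fun e he => dif_neg (not_exists.2 he),
    fun j => ⟨fun e he => ?_, fun e h1 h2 => dif_neg ?_⟩⟩
  · have h : ∃ j, Q.cell e ⊆ Fine1 P j := ⟨j, he⟩
    beta_reduce
    rw [dif_pos h, u (fun x hx => hA.buf_U _ (hA.fine_buf _ (he hx).1)) h.choose_spec]
  · rintro ⟨j', h⟩
    exact h2 (u h1 h ▸ h)

theorem lipc_congr {g g' : E3 → E3} {X : Set E3} (h : EqOn g' g X) : lipc g' X = lipc g X :=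
  biSup_congr fun _ hx => biSup_congr fun _ hy => by rw [h hx, h hy]

theorem spd_congr {Ω : Set E3} {P : Par} {j : Fin P.N} {Q : RCx E3} {ν : E3 ≃ᴬ[ℝ] E3} {p t l : ℝ}
    {F : E3 → (E3 →L[ℝ] E3)} {N : ℕ} {g g' T : E3 → E3} {c₃ c₄ δ : ℝ≥0∞}
    {X : (Fin 3 → ℤ) → Fin 3 → ℝ≥0∞} (hA : CubeApi Ω P) (hν : ∀ x, ν x = P.nu j x)
    (h : EqOn g' g (P.U j)) (H : Spd p P j Q ν F N t l (T ∘ g ∘ ν.symm) c₃ c₄ δ X) :
    Spd p P j Q ν F N t l (T ∘ g' ∘ ν.symm) c₃ c₄ δ X := by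
  have h1 : ∀ {Z}, Z ⊆ P.U j → lipc (vst N t ∘ T ∘ g' ∘ ν.symm) (ν '' Z) =
      lipc (vst N t ∘ T ∘ g ∘ ν.symm) (ν '' Z) := fun hZ => lipc_congr (by
    rintro _ ⟨x, hx, rfl⟩
    simp only [Function.comp_apply, ν.symm_apply_apply, h (hZ hx)])
  have h2 : ∀ z ∈ P.Inner j, ∀ k ∉ (P.T j).I, ∀ ξ ∈ segment ℝ (vt z) (nx z k),
      ν.symm ξ ∈ P.U j := fun z hz k hk ξ hξ => hA.buf_U j ⟨z, hA.inner_buf j hz, by
    rw [← hν, ν.apply_symm_apply]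
    exact (Sp.seg_sub z hk hξ).1⟩
  refine ⟨fun e he hU => h1 hU ▸ H.near e he hU, fun e he hU => h1 (hU.trans (hA.buf_U j)) ▸
    H.buf e he hU, fun z hz k hk => ⟨fun i => ?_, ?_⟩, fun z hz k hk e he hs =>
    h1 (fun x hx => ?_) ▸ H.fine z hz k hk e he hs⟩
  · refine (segVar_congr fun ξ hξ => ?_).trans_le ((H.dev z hz k hk).var i)
    simp only [Function.comp_apply, h (h2 z hz k hk ξ hξ)]
  · simpa only [Function.comp_apply, h (h2 z hz k hk _ (left_mem_segment _ _ _)),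
      h (h2 z hz k hk _ (right_mem_segment _ _ _))] using (H.dev z hz k hk).net
  · simpa only [ν.symm_apply_apply] using h2 z hz k hk _ (hs.subset (mem_image_of_mem ν hx))

theorem exists_nn {α : Type} (x : α → ℝ≥0∞) (hx : ∀ a, x a ≠ ⊤) :
    ∃ c : α → ℝ≥0, ∀ a, (c a : ℝ≥0∞) = x a :=
  ⟨fun a => (x a).toNNReal, fun a => ENNReal.coe_toNNReal (hx a)⟩

theorem exists_sum {N : ℕ} (x : Fin N → ℝ≥0∞) (hx : ∀ a, x a ≠ ⊤) :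
    ∃ c : ℝ≥0, ∀ a, x a ≤ c :=
  ⟨(∑ a, x a).toNNReal, fun a => by
    rw [ENNReal.coe_toNNReal (ENNReal.sum_ne_top.2 fun j _ => hx j)]
    exact Finset.single_le_sum (f := x) (fun _ _ => zero_le) (Finset.mem_univ a)⟩

end On

open On Sm Det Cu

theorem near_of {p : ℝ} (hp : 1 ≤ p) (hSp : SPEED p) (h1 : SUM1 p) (h23 : SUM23 p) : NEAR p := by
  classical
  intro K₂ M₀ M₁ M₃ c₀ Cz CM Mt M₂ cb hc₀ hM₀
  have hp0 : 0 ≤ p := by linarith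
  obtain ⟨s₃, s₄, fs₃, fs₄, hSp⟩ := hSp K₂ cb Mt
  choose d₃ d₄ fd₃ fd₄ h23 using fun θ => h23 (Cz θ) M₀ M₁ (CM θ)
  choose d' fd' h1 using fun θ => h1 (Cz θ) M₀ M₁ (CM θ) c₀ θ hc₀
  obtain ⟨d, fd, hd⟩ : ∃ d : ℝ → ℝ≥0∞, (∀ θ, d θ ≠ ⊤) ∧ ∀ θ a b, d θ = d' θ a b :=
    ⟨fun θ => if h : 0 < θ ∧ θ ≤ 1 / 1000 then d' θ h.1 h.2 else 0, fun θ => by
      beta_reduce
      split_ifs with h
      exacts [fd' θ _ _, ENNReal.zero_ne_top], fun θ a b => dif_pos ⟨a, b⟩⟩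
  obtain ⟨Cs, hCs⟩ := stairs2 hp
  have fT : (2 : ℝ≥0∞) ^ p ≠ ⊤ := two_rpow_ne_top hp0
  have fr : ∀ x : ℝ, ENNReal.ofReal x ^ p ≠ ⊤ := fun x =>
    ENNReal.rpow_ne_top_of_nonneg hp0 ENNReal.ofReal_ne_top
  have fo : ∀ {x : ℝ}, ENNReal.ofReal x ≠ ⊤ := ENNReal.ofReal_ne_top
  have fc : ∀ {x : ℝ≥0}, (x : ℝ≥0∞) ≠ ⊤ := ENNReal.coe_ne_top
  obtain ⟨c₁, hc₁⟩ := exists_nn (fun b : ℕ => ((2 : ℝ≥0∞) ^ p) ^ 2 * ENNReal.ofReal (b * cb b) ^ p *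
    ENNReal.ofReal ((c₀ + 40) ^ p)) fun b =>
    ENNReal.mul_ne_top (ENNReal.mul_ne_top (ENNReal.pow_ne_top fT) (fr _)) fo
  obtain ⟨c₂, hc₂⟩ := exists_nn (fun x : ℕ × ℝ => ((2 : ℝ≥0∞) ^ p) ^ 2 *
    ENNReal.ofReal (x.1 * cb x.1) ^ p * d x.2) fun b =>
    ENNReal.mul_ne_top (ENNReal.mul_ne_top (ENNReal.pow_ne_top fT) (fr _)) (fd _)
  obtain ⟨c₃, hc₃⟩ := exists_nn _ fun x : ℕ × ℝ × ℕ × ℝ => fin3 fT (fd x.2.1)
    (fs₃ x.1 x.2.2.1 x.2.2.2) (fr (x.1 * cb x.1)) (fo (x := cb x.1)) (fc (x := M₃)) (fc (x := M₀))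
    (fd₃ x.2.1) (fc (x := u p x.1))
  obtain ⟨c₄, hc₄⟩ := exists_nn _ fun x : ℕ × ℝ × ℕ × ℝ × ℕ => fin4 fT (fd x.2.1)
    (fs₃ x.1 x.2.2.1 x.2.2.2.1) (fc (x := u p x.1))
    (fr (x.1 * cb x.1)) (fo (x := 6 * x.1 ^ 3 * (x.1 * cb x.1 * x.2.2.2.2) ^ p))
    (fc (x := M₃)) (fc (x := M₀)) (fd₃ x.2.1) (fr x.1)
  obtain ⟨c₅, hc₅⟩ := exists_nn _ fun x : Ty × ℝ × ℕ × ℝ × ℕ => fin5 fT
    (fs₄ x.1 x.2.2.1 x.2.2.2.1 x.2.2.2.2)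
    (fo (x := 6 * x.1.b ^ 3 * (x.1.b * cb x.1.b * x.2.2.2.2) ^ p))
    (fc (x := M₃)) (fc (x := M₀)) (fd₄ x.2.1 (Mt x.1 x.2.2.2.2) (M₂ x.1 x.2.2.2.2))
    (fc (x := Cs x.2.2.2.2))
  refine ⟨c₁, fun b θ => c₂ (b, θ), fun b θ N t => c₃ (b, θ, N, t),
    fun b θ N t m => c₄ (b, θ, N, t, m), fun T θ N t m => c₅ (T, θ, N, t, m), ?_⟩
  intro Ω Λ f F P σ 𝓒 S₀ Sl 𝓜 S n Nr Y l Lam o T hQ hΩ hP hm hMt hF hG hT
  obtain ⟨Q, cvx, car, rr, MM, q1, q2, q3⟩ := S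
  obtain rfl : Q = 𝓜.Q := hQ
  have hA := cube_thm P hΩ hP
  have La := fun j => latt 𝓜 j hΩ hP hM₀ hMt
  have hl := fun j => (hT j).1.l_pos
  have ha := hA.a_pos
  choose L hL using fun j => exists_vst (Y j).N_pos (Y j).t_pos
  obtain ⟨Pw, w1, w2⟩ := exists_pw hA 𝓜.Q fun j => (Y j).Bm.trans (L j)
  obtain ⟨δ₀, e1, e2, e3⟩ := exists_inf (fun j => ENNReal.ofReal ((Y j).θ * (P.a j / l j)))
    fun j => ENNReal.ofReal_pos.2 (mul_pos (Y j).θ_pos (div_pos (ha j) (hl j)))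
  have hKK : ∀ j, (Y j).K ⊆ P.K j := fun j => (self_subset_cthickening _).trans (hT j).1.thick
  have hVI : ∀ j, Vs P j (Y j).K ⊆ P.Inner j := fun j z ⟨x, hx, hx'⟩ => ⟨x, hKK j hx, hx'⟩
  choose W hW using fun j => (hA.inner_fin j).exists_finset_coe
  choose V hV using fun j => ((hA.inner_fin j).subset (hVI j)).exists_finset_coe
  choose Bf hBf using fun j => ((hA.buf_fin j).subset
    (sdiff_subset : P.Buf j \ P.Inner j ⊆ _)).exists_finset_coe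
  have fN : ∀ j, ({c | 𝓜.Q.cell c ⊆ P.U j}.encard : ℝ≥0∞) ≠ ⊤ := fun j => by
    rw [ne_eq, ENat.toENNReal_eq_top]
    exact (La j).fin.encard_lt_top.ne
  have fn : ∀ n : ℕ, (n : ℝ≥0∞) ≠ ⊤ := ENNReal.natCast_ne_top
  obtain ⟨D, hD⟩ := exists_sum _ fun j => finD fT (fd (Y j).θ) (fd₃ (Y j).θ)
    (fd₄ (Y j).θ (Mt (P.T j) (P.m j)) (M₂ (P.T j) (P.m j))) (fs₃ (P.T j).b (Y j).N (Y j).t)
    (fs₄ (P.T j) (Y j).N (Y j).t (P.m j)) (fr ((P.T j).b * cb (P.T j).b))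
    (ENNReal.inv_ne_top.2 (ENNReal.ofReal_pos.2 (div_pos (ha j) (hl j))).ne')
    (fo (x := cb (P.T j).b / l j)) (V := P.vol j) fo
    (ENNReal.mul_ne_top (fo (x := P.η)) (ENNReal.pow_ne_top (n := 2) (fo (x := (P.T j).b * P.η))))
    (ENNReal.mul_ne_top (fr ((P.T j).b / P.a j)) (fr (l j * cb (P.T j).b)))
    (fr ((P.T j).b / P.a j)) (fr (l j)⁻¹) (fr (P.a j / l j)) (fN j)
    (ENNReal.inv_ne_top.2 (Nat.cast_ne_zero.2 (Nat.one_le_iff_ne_zero.1 (hP.m_pos j))))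
    (fc (x := M₃)) (fc (x := M₀)) (fc (x := Cs (P.m j))) (fn (W j).card) (fn (W j \ V j).card)
    (fn (Bf j).card)
  refine ⟨D, δ₀, Pw, e1, w1, ?_⟩
  intro g₀ Θ g Ξ δ hδ hδ₀ hg hPre hosc
  have hδ1 : δ ≤ 1 := hδ₀.trans e2
  refine ⟨fun j => {φ | Marked (n j).src (T j ∘ g ∘ (𝓜.ν j).symm) (Y j).θ φ (psi (n j).src φ)
      (P.a j / l j / 2)}, fun j => psi (n j).src, fun j _ => P.a j / l j / 2,
    fun j => wts P j 𝓜.Q (𝓜.ν j) (Nr j) (Y j).K (om p (CM (Y j).θ) (n j).src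
      (vst (Y j).N (Y j).t ∘ T j ∘ g ∘ (𝓜.ν j).symm)), fun j φ h => h, ?_⟩
  intro h h' B e η he hη hO hsk hre
  obtain ⟨k, k1, k2, k3⟩ := hCs 𝓜.ν h' hΩ hP 𝓜.ν_eq hm hδ
  have hR : ∀ j, Res p c₀ (Y j).θ (Y j).ϑ e (Cz (Y j).θ) (CM (Y j).θ) P j (n j) (Nr j) (Y j).K
      (Y j).N (Y j).t (P.a j / l j) (T j ∘ g ∘ (𝓜.ν j).symm) (T j ∘ h ∘ (𝓜.ν j).symm) η := by
    intro j
    obtain ⟨b1, c, κ, b2⟩ := hO j
    refine ⟨B j, c, κ, ?_, b2⟩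
    rintro φ hφ _ ⟨x, hx, rfl⟩
    obtain ⟨z, z1, z2⟩ := b1 φ hφ x hx
    refine ⟨z, z1, ?_⟩
    show T j (g ((𝓜.ν j).symm (𝓜.ν j x))) ∈ _
    rwa [(𝓜.ν j).symm_apply_apply]
  choose X hX hX' using fun j => hSp 𝓜 j (Y j) hΩ hP hMt hF hδ1 hG (La j) (hT j).1
    (fun e he y => by rw [(w2 j).1 e he, ← hL]; rfl) (w2 j).2 (g := g₀ ∘ Θ) (g₀ := g₀) (Θ := Θ)
    (fun _ => rfl) hPre
  replace hX := fun j => spd_congr hA (𝓜.ν_eq j) (hg j) (hX j)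
  have s23 := fun j => h23 (Y j).θ (n j) hΩ hP ((Y j).t_le.trans (by norm_num)) hη hδ1 (La j)
    (hT j).2 (hX j) (hR j)
  refine ⟨⟨k, k1, k2, fun j => ?_⟩, fun j => ?_⟩
  · have tb := topb (h := h) (h' := h'.toFun) (by linarith : 0 < p) hΩ hP (La j) (hsk j) (hre j)
    have b0 := buf_int hp hA (La j) hF (hKK j) (fun c hc => ((hT j).2.buf c hc).1) (hP.m_pos j)
      (hT j).1.r_le (hW j) (hV j) (hBf j) tb (k3 j).1 (k3 j).2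
    have b1 := h1 (Y j).θ (Y j).θ_pos (Y j).θ_le (n j) (Y j) (W j) (V j) hΩ hP (𝓜.ν_eq j) rfl he
      hη hδ1 (hδ₀.trans (e3 j)) (hW j) (hV j) (La j) (hT j).2 (hT j).1 (hX j) (hR j)
      fun z hz ξ hξ y hy => hosc j z hz _ (by
        rwa [Par.cube, mem_preimage, ← 𝓜.ν_eq, (𝓜.ν j).apply_symm_apply]) y hy
    rw [← hd] at b1
    rw [hc₁, hc₂, hc₃, hc₄, hc₅]
    exact (main hp hA (hP.m_pos j) (hT j).1 (hW j) (hV j) b0 b1 (hX' j (W j) (hW j).subset)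
      (s23 j).1 (s23 j).2).trans (add_le_add le_rfl (mul_le_mul_left (hD j) _))
  · rw [hc₅]
    refine (outer hp hA (hP.m_pos j) (hT j).1 (𝓜.lip_nu hP j) (𝓜.lip_symm hP j) (s23 j).2).trans
      (add_le_add (mul_le_mul_left ?_ _) (mul_le_mul_left (le_trans le_add_self (hD j)) _))
    rw [mul_assoc (_ + 1), mul_assoc (_ + 1)]
    exact le_mul_of_one_le_left zero_le le_add_self

end P073.Nr
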