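import Vale.Agent.P073Y.Nr.Sum3
import Vale.Agent.P073Y.Nr.All

/-!
# The accounting near the types without refilling
-/

open Set Metric Topology Filter MeasureTheory
open scoped NNReal ENNReal

namespace P073.Nr

open P073.Top P073.Zn P073.M2 P073.Ln
open P073.G2 (Fine1)
open Vale.Agent.P073.HB (GoodSeg)

/-- the accounting near the types with given parameters, without refilling -/
def NEARB (p : ℝ) : Prop := ∀ (K₂ M₀ M₁ : ℝ≥0) (c₀ : ℝ) (Cz : ℝ → ℝ≥0) (CM : ℝ → ℝ≥0 → ℝ≥0)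
  (Mt M₂ : Ty → ℕ → ℝ≥0) (cb : ℕ → ℝ≥0), 1 ≤ c₀ → 1 ≤ M₀ →
  ∃ (c₁ : ℕ → ℝ≥0) (c₂ : ℕ → ℝ → ℝ≥0) (c₃ : ℕ → ℝ → ℕ → ℝ → ℝ≥0)
    (c₄ : ℕ → ℝ → ℕ → ℝ → ℕ → ℝ≥0) (c₅ : Ty → ℝ → ℕ → ℝ → ℕ → ℝ≥0),
  ∀ {Ω Λ : Set E3} {f : E3 → E3} {F : E3 → (E3 →L[ℝ] E3)} {P : Par} {σ : E3 → ℝ}
    {𝓒 : Set (ℕ × (Fin 3 → ℤ))} {S₀ : Set E3} {Sl : Ty → ℕ → Set E3}
    (𝓜 : Mesh2 Ω P σ 𝓒 M₀ Mt S₀ Sl) (S : Src Ω) (n : ∀ j, Nrm S (𝓜.ν j))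
    (Nr : Fin P.N → Set S.Q.ι) (Y : Fin P.N → TyZ Ω f) (l Lam o : Fin P.N → ℝ)
    (T : Fin P.N → (E3 ≃ᴬ[ℝ] E3)), S.Q = 𝓜.Q → IsOpen Ω → P.Ok Ω → (∀ j, 2 ≤ P.m j) →
  (∀ T m, M₀ ≤ Mt T m) → Measurable F →
  (∀ e x y, 𝓜.Q'.dim e = 1 → 𝓜.Q'.cell e = segment ℝ x y → GoodSeg f F x (y - x)) →
  (∀ j, Typ P j (Y j) (cb (P.T j).b) (l j) (Lam j) (o j) (T j) ∧
    Nea P j S (n j) (Nr j) M₁ (M₂ (P.T j) (P.m j))) →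
  ∃ (D : ℝ≥0) (δ₀ : ℝ≥0∞) (Pw : S.Q.ι → (E3 ≃L[ℝ] E3)), 0 < δ₀ ∧
    (∀ e, (∀ j, ¬ S.Q.cell e ⊆ Fine1 P j) → Pw e = ContinuousLinearEquiv.refl ℝ E3) ∧
  ∀ (g₀ Θ g : E3 → E3) (Ξ : Fin P.N → ℝ≥0∞) (δ : ℝ≥0∞), 0 < δ → δ ≤ δ₀ →
    (∀ j, ∀ x ∈ P.U j, g x = g₀ (Θ x)) → Pre P S.Q 𝓜.Q' f g₀ Θ K₂ Pw 𝓜.ν Ξ δ →
    (∀ j, ∀ z ∈ P.Buf j, ∀ x ∈ P.cube j z, ∀ y ∈ P.cube j z,
      dist (T j (g x)) (T j (f y)) ≤ o j) →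
  ∃ (𝓢 : Fin P.N → Set S.Q.ι) (ψ : Fin P.N → S.Q.ι → (E2 →ᵃ[ℝ] E3)) (a : Fin P.N → S.Q.ι → ℝ)
    (m : Fin P.N → Fin 4 → S.Q.ι → ℝ≥0∞),
    (∀ j, ∀ φ ∈ 𝓢 j, Marked (n j).src (T j ∘ g ∘ (𝓜.ν j).symm) (Y j).θ φ (ψ j φ) (a j φ)) ∧
  ∀ (h : ConHomeo Ω Λ) (B : Fin P.N → Set (Fin 3 → ℤ)) (e : ℝ) (η : ℝ≥0∞),
    0 ≤ e → η ≤ δ →
    (∀ j, (∀ φ ∈ Nr j, ∀ u ∈ S.Q.cell φ, ∃ z, nbr 1 {z} ⊆ B j ∧ T j (g u) ∈ lbox (Y j).N 0 z) ∧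
      (∃ c k, NearOut p c₀ (Y j).θ (Y j).ϑ e (Cz (Y j).θ) (CM (Y j).θ) (n j).src (Y j).N (Y j).t
        (B j) (T j ∘ g ∘ (𝓜.ν j).symm) (T j ∘ h.toFun ∘ (𝓜.ν j).symm) (Nr j) η (𝓢 j) (ψ j)
        (a j) (m j) c k) ∧ ∀ c ∈ Nr j, S.Q.dim c = 3 →
      lipc (T j ∘ h.toFun ∘ (𝓜.ν j).symm) (𝓜.ν j '' S.Q.cell c) ≤ CM (Y j).θ ((n j).M c) *
        (n j).src.A (vst (Y j).N (Y j).t ∘ T j ∘ g ∘ (𝓜.ν j).symm) c + η) →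
    (∃ k : ConHomeo Ω Λ, (∀ x ∈ Ω, ∃ y ∈ Ω, dist y x ≤ P.ς x ∧ k.toFun x = h.toFun y) ∧
      (∀ x, x ∉ ⋃ j, P.BufSet j → k.toFun =ᶠ[𝓝 x] h.toFun) ∧ ∀ j,
      ∫⁻ x in P.BufSet j, ‖fderiv ℝ k.toFun x - F x‖ₑ ^ p ≤
        c₁ (P.T j).b * ENNReal.ofReal (Y j).θ * volume (P.U j) +
        c₂ (P.T j).b (Y j).θ * (ENNReal.ofReal ((Y j).t + (Y j).ϑ + e / Lam j) * volume (P.U j) +
          volume {x ∈ (Y j).K | T j (f x) ∈ strips (Y j).N}) +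
        c₃ (P.T j).b (Y j).θ (Y j).N (Y j).t * ((P.m j : ℝ≥0∞)⁻¹ * volume (P.U j) + Ξ j) +
        c₄ (P.T j).b (Y j).θ (Y j).N (Y j).t (P.m j) *
          (Lg P j F p + volume (P.U j \ (Y j).K) + (∫⁻ x in P.U j, ‖F x - (P.T j).A‖ₑ ^ p)) +
        c₅ (P.T j) (Y j).θ (Y j).N (Y j).t (P.m j) * Lo P j (Y j).K (Sl (P.T j) (P.m j)) F p +
        D * δ) ∧
    ∀ j, tot {φ ∈ Nr j | S.Q.dim φ = 3 ∧ Disjoint (S.Q.cell φ) (Y j).K}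
        (fun φ => En 3 p h.toFun (S.Q.cell φ)) ≤
      c₅ (P.T j) (Y j).θ (Y j).N (Y j).t (P.m j) * Lo P j (Y j).K (Sl (P.T j) (P.m j)) F p + D * δ

open On Sm Det Cu T3

theorem nearB_of {p : ℝ} (hp : 1 ≤ p) (hSp : SPEED p) (h1 : SUM1 p) (h23 : SUM23 p) :
    NEARB p := by
  classical
  intro K₂ M₀ M₁ c₀ Cz CM Mt M₂ cb hc₀ hM₀
  obtain ⟨M₃, -⟩ : ∃ _ : ℝ≥0, True := ⟨0, trivial⟩
  have hp0 : 0 ≤ p := by linarith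
  obtain ⟨s₃, s₄, fs₃, fs₄, hSp⟩ := hSp K₂ cb Mt
  choose d₃ d₄ fd₃ fd₄ h23 using fun θ => sum3 hp h23 (Cz θ) M₀ M₁ (CM θ)
  choose d' fd' h1 using fun θ => h1 (Cz θ) M₀ M₁ (CM θ) c₀ θ hc₀
  obtain ⟨d, fd, hd⟩ : ∃ d : ℝ → ℝ≥0∞, (∀ θ, d θ ≠ ⊤) ∧ ∀ θ a b, d θ = d' θ a b :=
    ⟨fun θ => if h : 0 < θ ∧ θ ≤ 1 / 1000 then d' θ h.1 h.2 else 0, fun θ => by
      beta_reduce
      split_ifs with h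
      exacts [fd' θ _ _, ENNReal.zero_ne_top], fun θ a b => dif_pos ⟨a, b⟩⟩
  obtain ⟨Cs, hCs⟩ := stairs2 hp
  have fT : (2 : ℝ≥0∞) ^ p ≠ ⊤ := two_rpow_ne_top hp0
  have fr : ∀ x : ℝ, ENNReal.ofReal x ^ p ≠ ⊤ := fun x =>
    ENNReal.rpow_ne_top_of_nonneg hp0 ENNReal.ofReal_ne_top
  have fo : ∀ {x : ℝ}, ENNReal.ofReal x ≠ ⊤ := ENNReal.ofReal_ne_top
  have fc : ∀ {x : ℝ≥0}, (x : ℝ≥0∞) ≠ ⊤ := ENNReal.coe_ne_top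
  obtain ⟨c₁, hc₁⟩ := exists_nn (fun b : ℕ => ((2 : ℝ≥0∞) ^ p) ^ 2 * ENNReal.ofReal (b * cb b) ^ p *
    ENNReal.ofReal ((c₀ + 40) ^ p)) fun b =>
    ENNReal.mul_ne_top (ENNReal.mul_ne_top (ENNReal.pow_ne_top fT) (fr _)) fo
  obtain ⟨c₂, hc₂⟩ := exists_nn (fun x : ℕ × ℝ => ((2 : ℝ≥0∞) ^ p) ^ 2 *
    ENNReal.ofReal (x.1 * cb x.1) ^ p * d x.2) fun b =>
    ENNReal.mul_ne_top (ENNReal.mul_ne_top (ENNReal.pow_ne_top fT) (fr _)) (fd _)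
  obtain ⟨c₃, hc₃⟩ := exists_nn _ fun x : ℕ × ℝ × ℕ × ℝ => fin3 fT (fd x.2.1)
    (fs₃ x.1 x.2.2.1 x.2.2.2) (fr (x.1 * cb x.1)) (fo (x := cb x.1)) (fc (x := M₃)) (fc (x := M₀))
    (fd₃ x.2.1) (fc (x := u p x.1))
  obtain ⟨c₄, hc₄⟩ := exists_nn _ fun x : ℕ × ℝ × ℕ × ℝ × ℕ => fin4 fT (fd x.2.1)
    (fs₃ x.1 x.2.2.1 x.2.2.2.1) (fc (x := u p x.1))
    (fr (x.1 * cb x.1)) (fo (x := 6 * x.1 ^ 3 * (x.1 * cb x.1 * x.2.2.2.2) ^ p))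
    (fc (x := M₃)) (fc (x := M₀)) (fd₃ x.2.1) (fr x.1)
  obtain ⟨c₅, hc₅⟩ := exists_nn _ fun x : Ty × ℝ × ℕ × ℝ × ℕ => fin5 fT
    (fs₄ x.1 x.2.2.1 x.2.2.2.1 x.2.2.2.2)
    (fo (x := 6 * x.1.b ^ 3 * (x.1.b * cb x.1.b * x.2.2.2.2) ^ p))
    (fc (x := M₃)) (fc (x := M₀)) (fd₄ x.2.1 (Mt x.1 x.2.2.2.2) (M₂ x.1 x.2.2.2.2))
    (fc (x := Cs x.2.2.2.2))
  refine ⟨c₁, fun b θ => c₂ (b, θ), fun b θ N t => c₃ (b, θ, N, t),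
    fun b θ N t m => c₄ (b, θ, N, t, m), fun T θ N t m => c₅ (T, θ, N, t, m), ?_⟩
  intro Ω Λ f F P σ 𝓒 S₀ Sl 𝓜 S n Nr Y l Lam o T hQ hΩ hP hm hMt hF hG hT
  obtain ⟨Q, cvx, car, rr, MM, q1, q2, q3⟩ := S
  obtain rfl : Q = 𝓜.Q := hQ
  have hA := cube_thm P hΩ hP
  have La := fun j => latt 𝓜 j hΩ hP hM₀ hMt
  have hl := fun j => (hT j).1.l_pos
  have ha := hA.a_pos
  choose L hL using fun j => exists_vst (Y j).N_pos (Y j).t_pos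
  obtain ⟨Pw, w1, w2⟩ := exists_pw hA 𝓜.Q fun j => (Y j).Bm.trans (L j)
  obtain ⟨δ₀, e1, e2, e3⟩ := exists_inf (fun j => ENNReal.ofReal ((Y j).θ * (P.a j / l j)))
    fun j => ENNReal.ofReal_pos.2 (mul_pos (Y j).θ_pos (div_pos (ha j) (hl j)))
  have hKK : ∀ j, (Y j).K ⊆ P.K j := fun j => (self_subset_cthickening _).trans (hT j).1.thick
  have hVI : ∀ j, Vs P j (Y j).K ⊆ P.Inner j := fun j z ⟨x, hx, hx'⟩ => ⟨x, hKK j hx, hx'⟩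
  choose W hW using fun j => (hA.inner_fin j).exists_finset_coe
  choose V hV using fun j => ((hA.inner_fin j).subset (hVI j)).exists_finset_coe
  choose Bf hBf using fun j => ((hA.buf_fin j).subset
    (sdiff_subset : P.Buf j \ P.Inner j ⊆ _)).exists_finset_coe
  have fN : ∀ j, ({c | 𝓜.Q.cell c ⊆ P.U j}.encard : ℝ≥0∞) ≠ ⊤ := fun j => by
    rw [ne_eq, ENat.toENNReal_eq_top]
    exact (La j).fin.encard_lt_top.ne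
  have fn : ∀ n : ℕ, (n : ℝ≥0∞) ≠ ⊤ := ENNReal.natCast_ne_top
  obtain ⟨D, hD⟩ := exists_sum _ fun j => finD fT (fd (Y j).θ) (fd₃ (Y j).θ)
    (fd₄ (Y j).θ (Mt (P.T j) (P.m j)) (M₂ (P.T j) (P.m j))) (fs₃ (P.T j).b (Y j).N (Y j).t)
    (fs₄ (P.T j) (Y j).N (Y j).t (P.m j)) (fr ((P.T j).b * cb (P.T j).b))
    (ENNReal.inv_ne_top.2 (ENNReal.ofReal_pos.2 (div_pos (ha j) (hl j))).ne')
    (fo (x := cb (P.T j).b / l j)) (V := P.vol j) fo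
    (ENNReal.pow_ne_top (n := 3) (fo (x := (P.T j).b * P.η)))
    (ENNReal.mul_ne_top (fr ((P.T j).b / P.a j)) (fr (l j * cb (P.T j).b)))
    (fr ((P.T j).b / P.a j)) (fr (l j)⁻¹) (fr (P.a j / l j)) (fN j)
    (ENNReal.inv_ne_top.2 (Nat.cast_ne_zero.2 (Nat.one_le_iff_ne_zero.1 (hP.m_pos j))))
    (fc (x := M₃)) (fc (x := M₀)) (fc (x := Cs (P.m j))) (fn (W j).card) (fn (W j \ V j).card)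
    (fn (Bf j).card)
  refine ⟨D, δ₀, Pw, e1, w1, ?_⟩
  intro g₀ Θ g Ξ δ hδ hδ₀ hg hPre hosc
  have hδ1 : δ ≤ 1 := hδ₀.trans e2
  refine ⟨fun j => {φ | Marked (n j).src (T j ∘ g ∘ (𝓜.ν j).symm) (Y j).θ φ (psi (n j).src φ)
      (P.a j / l j / 2)}, fun j => psi (n j).src, fun j _ => P.a j / l j / 2,
    fun j => wts P j 𝓜.Q (𝓜.ν j) (Nr j) (Y j).K (om p (CM (Y j).θ) (n j).src
      (vst (Y j).N (Y j).t ∘ T j ∘ g ∘ (𝓜.ν j).symm)), fun j φ h => h, ?_⟩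
  intro h B e η he hη hO
  obtain ⟨k, k1, k2, k3⟩ := hCs 𝓜.ν h hΩ hP 𝓜.ν_eq hm hδ
  have hR : ∀ j, Res p c₀ (Y j).θ (Y j).ϑ e (Cz (Y j).θ) (CM (Y j).θ) P j (n j) (Nr j) (Y j).K
      (Y j).N (Y j).t (P.a j / l j) (T j ∘ g ∘ (𝓜.ν j).symm) (T j ∘ h.toFun ∘ (𝓜.ν j).symm)
      η := by
    intro j
    obtain ⟨b1, ⟨c, κ, b2⟩, -⟩ := hO j
    refine ⟨B j, c, κ, ?_, b2⟩
    rintro φ hφ _ ⟨x, hx, rfl⟩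
    obtain ⟨z, z1, z2⟩ := b1 φ hφ x hx
    refine ⟨z, z1, ?_⟩
    show T j (g ((𝓜.ν j).symm (𝓜.ν j x))) ∈ _
    rwa [(𝓜.ν j).symm_apply_apply]
  choose X hX hX' using fun j => hSp 𝓜 j (Y j) hΩ hP hMt hF hδ1 hG (La j) (hT j).1
    (fun e he y => by rw [(w2 j).1 e he, ← hL]; rfl) (w2 j).2 (g := g₀ ∘ Θ) (g₀ := g₀) (Θ := Θ)
    (fun _ => rfl) hPre
  replace hX := fun j => spd_congr hA (𝓜.ν_eq j) (hg j) (hX j)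
  have s23 := fun j => h23 (Y j).θ (n j) hΩ hP ((Y j).t_le.trans (by norm_num)) hη hδ1 (La j)
    (hT j).2 (hX j) (hR j) (hO j).2.2
  refine ⟨⟨k, k1, k2, fun j => ?_⟩, fun j => ?_⟩
  · have b0 := buf_int3 hp hA (La j) hF (hKK j) (fun c hc => ((hT j).2.buf c hc).1) (hP.m_pos j)
      (hT j).1.r_le M₃ δ (hW j) (hV j) (hBf j) (k3 j).1 (k3 j).2
    have b1 := h1 (Y j).θ (Y j).θ_pos (Y j).θ_le (n j) (Y j) (W j) (V j) hΩ hP (𝓜.ν_eq j) rfl he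
      hη hδ1 (hδ₀.trans (e3 j)) (hW j) (hV j) (La j) (hT j).2 (hT j).1 (hX j) (hR j)
      fun z hz ξ hξ y hy => hosc j z hz _ (by
        rwa [Par.cube, mem_preimage, ← 𝓜.ν_eq, (𝓜.ν j).apply_symm_apply]) y hy
    rw [← hd] at b1
    rw [hc₁, hc₂, hc₃, hc₄, hc₅]
    exact (main3 hp hA (hP.m_pos j) (hT j).1 (hW j) (hV j) b0 b1 (hX' j (W j) (hW j).subset)
      (s23 j).1 (s23 j).2).trans (add_le_add le_rfl (mul_le_mul_left (hD j) _))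
  · rw [hc₅]
    refine (outer3 hp hA (hP.m_pos j) (hT j).1 (𝓜.lip_nu hP j) (𝓜.lip_symm hP j) (s23 j).2).trans
      (add_le_add (mul_le_mul_left ?_ _) (mul_le_mul_left (le_trans le_add_self (hD j)) _))
    rw [mul_assoc (_ + 1), mul_assoc (_ + 1)]
    exact le_mul_of_one_le_left zero_le le_add_self

theorem nearB {p : ℝ} (hp : 1 ≤ p) : NEARB p :=
  nearB_of hp (speed hp side) (sum1_of hp side dbl om_le (bot_of sumk))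
    (sum23_of hp side dbl om_le sumk)

end P073.Nr
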