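import Vale.Agent.P073Y.Nr.Cubes
import Vale.Agent.P073Y.Rf.Top

/-!
# The bound for one type
-/

open Set Metric Topology Filter MeasureTheory
open scoped NNReal ENNReal

namespace P073.Nr

open P073.Top P073.Zn P073.M2 P073.Ln

namespace On

open Sm Det Cu

theorem n2 {p b a l c : ℝ} (hp : 0 ≤ p) (hb : 0 ≤ b) (ha : 0 < a) (hl : 0 < l) (hc : 0 ≤ c) :
    ENNReal.ofReal (b / a) ^ p * ENNReal.ofReal (l * c) ^ p * ENNReal.ofReal (a / l) ^ p =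
      ENNReal.ofReal (b * c) ^ p := by
  rw [← ENNReal.mul_rpow_of_nonneg _ _ hp, ← ENNReal.mul_rpow_of_nonneg _ _ hp,
    ← ENNReal.ofReal_mul (by positivity), ← ENNReal.ofReal_mul (by positivity)]
  congr 2
  field_simp

theorem n2' {p a l : ℝ} (hp : 0 ≤ p) (hl : 0 < l) :
    ENNReal.ofReal l⁻¹ ^ p * ENNReal.ofReal a ^ p = ENNReal.ofReal (a / l) ^ p := by
  rw [← ENNReal.mul_rpow_of_nonneg _ _ hp, ← ENNReal.ofReal_mul (by positivity), div_eq_inv_mul]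

theorem n3 {p b η m l c : ℝ} (hp : 1 ≤ p) (hb : 0 ≤ b) (hη : 0 < η) (hm : 0 < m) (hl : 0 < l)
    (hc : 0 ≤ c) {V : ℝ≥0∞} (hV : V ≤ ENNReal.ofReal (6 * (b * η) ^ 3)) :
    V * (ENNReal.ofReal (b / (η / m)) ^ p * ENNReal.ofReal (l * c) ^ p) *
      (ENNReal.ofReal l⁻¹ ^ p * ENNReal.ofReal η ^ (p - 1)) ≤
      ENNReal.ofReal (6 * b ^ 3 * (b * c * m) ^ p) * ENNReal.ofReal η ^ 2 := by
  refine (mul_le_mul_left (mul_le_mul_left hV _) _).trans (le_of_eq ?_)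
  rw [ENNReal.ofReal_rpow_of_nonneg (by positivity) (by linarith),
    ENNReal.ofReal_rpow_of_nonneg (by positivity) (by linarith),
    ENNReal.ofReal_rpow_of_nonneg (by positivity) (by linarith),
    ENNReal.ofReal_rpow_of_nonneg (by positivity) (by linarith),
    ← ENNReal.ofReal_mul (by positivity), ← ENNReal.ofReal_mul (by positivity),
    ← ENNReal.ofReal_mul (by positivity), ← ENNReal.ofReal_mul (by positivity),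
    ← ENNReal.ofReal_pow hη.le, ← ENNReal.ofReal_mul (by positivity)]
  congr 1
  have e1 : (b / (η / m)) ^ p * (l * c) ^ p * (l⁻¹) ^ p * η ^ p = (b * c * m) ^ p := by
    rw [← Real.mul_rpow (by positivity) (by positivity),
      ← Real.mul_rpow (by positivity) (by positivity),
      ← Real.mul_rpow (by positivity) (by positivity)]
    congr 1
    field_simp
  rw [← e1, Real.rpow_sub_one hη.ne']
  field_simp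

theorem n4 {a l c : ℝ} (ha : 0 < a) (hl : 0 < l) (hc : 0 ≤ c) :
    (ENNReal.ofReal (a / l))⁻¹ * ENNReal.ofReal (c / l) * ENNReal.ofReal a = ENNReal.ofReal c := by
  rw [← ENNReal.ofReal_inv_of_pos (by positivity), ← ENNReal.ofReal_mul (by positivity),
    ← ENNReal.ofReal_mul (by positivity)]
  congr 1
  field_simp

/-- back to the original target coordinates -/
theorem en_back {k : ℕ} {p l : ℝ} (hp : 0 ≤ p) (hl : 0 < l) {c : ℝ≥0} (Bm : E3 ≃L[ℝ] E3)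
    (hB : ‖(Bm.symm : E3 →L[ℝ] E3)‖ ≤ c) {G G' : E3 → E3} {v : E3}
    (h : ∀ x, G' x = l⁻¹ • Bm (G x) - v) (X : Set E3) :
    En k p G X ≤ ENNReal.ofReal (l * c) ^ p * En k p G' X := by
  refine en_le_mul hp ENNReal.ofReal_ne_top fun x y => ?_
  rw [edist_dist, edist_dist, ← ENNReal.ofReal_mul (by positivity), h, h, dist_sub_right,
    dist_eq_norm, dist_eq_norm, ← smul_sub, ← map_sub, norm_smul, norm_inv, Real.norm_eq_abs,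
    abs_of_pos hl]
  refine ENNReal.ofReal_le_ofReal ?_
  have h1 := (Bm.symm : E3 →L[ℝ] E3).le_opNorm (Bm (G y - G x))
  simp only [ContinuousLinearEquiv.coe_coe, Bm.symm_apply_apply] at h1
  calc _ ≤ _ := h1
    _ ≤ c * ‖Bm (G y - G x)‖ := mul_le_mul_of_nonneg_right hB (norm_nonneg _)
    _ = _ := by field_simp

theorem frame_B {Ω : Set E3} {f : E3 → E3} {P : Par} {j : Fin P.N} {Y : TyZ Ω f} {cb : ℝ≥0}
    {l Λ o : ℝ} {T : E3 ≃ᴬ[ℝ] E3} (h : Typ P j Y cb l Λ o T) (ξ : E3) :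
    l⁻¹ • Y.Bm (P.B j ξ) = ((P.a j / l) • dgs (P.T j).I 0) ξ := by
  have := h.frame fun i : Fin 3 => (if (i : ℕ) < (P.T j).r then P.η / P.m j else P.η) • ξ i
  rw [show Y.Bm (P.B j ξ) = _ from this]
  ext i
  by_cases e : (P.T j).r ≤ (i : ℕ)
  · simp [dgs, Ty.I, e]
  · simp [dgs, Ty.I, e, not_le.1 e, Par.a, div_eq_inv_mul, mul_assoc]

theorem alg1 {V E A θ U d e₂ Ud s ai SX LH Ig q Nc δ cl a₀ Ξ ω u₂ u₃ η2 cb : ℝ≥0∞}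
    (h1 : V * E ≤ A * (θ * U + d * (e₂ + Ud)) +
      d * (1 + s) * V * (A * ai * SX + LH * Ig + q * Nc * δ))
    (h2 : V * SX ≤ cl * (a₀ * Ξ + V * δ)) (m2 : ω * A = u₂) (m3 : V * ω * LH ≤ u₃ * η2)
    (m4 : ai * cl * a₀ = cb) :
    ω * (V * E) ≤ u₂ * θ * U + u₂ * d * (e₂ + Ud) + d * (1 + s) * (u₂ * cb * Ξ + u₃ * (η2 * Ig)) +
      d * (1 + s) * (u₂ * ai * cl * V + ω * V * q * Nc) * δ := by
  calc ω * (V * E) ≤ ω * (A * (θ * U + d * (e₂ + Ud)) +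
        d * (1 + s) * V * (A * ai * SX + LH * Ig + q * Nc * δ)) := mul_le_mul_right h1 _
    _ = ω * A * (θ * U + d * (e₂ + Ud)) + d * (1 + s) * (ω * A * ai * (V * SX) +
        V * ω * LH * Ig + ω * V * q * Nc * δ) := by ring
    _ ≤ u₂ * (θ * U + d * (e₂ + Ud)) + d * (1 + s) * (u₂ * ai * (cl * (a₀ * Ξ + V * δ)) +
        u₃ * η2 * Ig + ω * V * q * Nc * δ) := by rw [m2]; gcongr
    _ = _ := by rw [← m4]; ring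

theorem alg2 {V E d s L A₀ nb H Ig Nc δ ω u₂ u₃ η2 U : ℝ≥0∞}
    (h1 : E ≤ d * (s * L * (A₀ * nb + H * Ig) + (1 + s * L) * Nc * δ))
    (m2 : ω * (L * A₀) = u₂) (m3 : V * ω * (L * H) ≤ u₃ * η2) (hU : nb * V ≤ U) :
    V * ω * E ≤ d * s * (u₂ * U + u₃ * (η2 * Ig)) + V * ω * d * (1 + s * L) * Nc * δ := by
  calc V * ω * E ≤ V * ω * (d * (s * L * (A₀ * nb + H * Ig) + (1 + s * L) * Nc * δ)) :=
        mul_le_mul_right h1 _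
    _ = d * s * (ω * (L * A₀) * (nb * V) + V * ω * (L * H) * Ig) +
        V * ω * d * (1 + s * L) * Nc * δ := by ring
    _ ≤ d * s * (u₂ * U + u₃ * η2 * Ig) + V * ω * d * (1 + s * L) * Nc * δ := by rw [m2]; gcongr
    _ = _ := by ring

theorem alg3 {V E d s L H Io Nc δ ω u₃ η2 : ℝ≥0∞}
    (h1 : E ≤ d * (s * L * H * Io + (1 + s * L) * Nc * δ)) (m3 : V * ω * (L * H) ≤ u₃ * η2) :
    V * ω * E ≤ d * s * u₃ * (η2 * Io) + V * ω * d * (1 + s * L) * Nc * δ := by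
  calc V * ω * E ≤ V * ω * (d * (s * L * H * Io + (1 + s * L) * Nc * δ)) := mul_le_mul_right h1 _
    _ = d * s * (V * ω * (L * H)) * Io + V * ω * d * (1 + s * L) * Nc * δ := by ring
    _ ≤ d * s * (u₃ * η2) * Io + V * ω * d * (1 + s * L) * Nc * δ := by gcongr
    _ = _ := by ring

theorem alg4 {T m M M₀ Cs bp X x₁ x₂ x₃ y₁ y₂ u₁ u₂ u₃ θ θc U Ud e₂ d s₃ s₄ d₃ d₄ cb Ξ Lg Lo I
    D₁ D₂ D₃ D₄ D₅ δ c : ℝ≥0∞} (hm : m ≤ 1) (hθ : θc = θ * c)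
    (h0 : X ≤ T ^ 2 * x₁ + 8 * T ^ 3 * m * (M * M₀ * x₂ + y₁) +
      (T ^ 3 + 8 * T ^ 2 * Cs) * M * M₀ * x₃ + T ^ 3 * y₂ + T ^ 2 * bp * Ud + T * I + D₄ * δ +
      D₅ * δ)
    (h1 : x₁ ≤ u₂ * θc * U + u₂ * d * (e₂ + Ud) + d * (1 + s₃) * (u₂ * cb * Ξ + u₃ * Lg) + D₁ * δ)
    (h2 : x₂ ≤ d₃ * s₃ * (u₂ * U + u₃ * Lg) + D₂ * δ) (h3 : x₃ ≤ d₄ * s₄ * u₃ * Lo + D₃ * δ)
    (h4 : y₁ ≤ u₁ * U) (h5 : y₂ ≤ u₁ * Ud) :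
    X ≤ T ^ 2 * u₂ * c * θ * U + T ^ 2 * u₂ * d * e₂ +
      (T ^ 2 * d * (1 + s₃) * u₂ * cb + 8 * T ^ 3 * (M * M₀ * d₃ * s₃ * u₂ + u₁)) * (m * U + Ξ) +
      (T ^ 2 * u₂ * d + T ^ 2 * d * (1 + s₃) * u₃ + 8 * T ^ 3 * M * M₀ * d₃ * s₃ * u₃ +
        T ^ 3 * u₁ + T ^ 2 * bp + T) * (Lg + Ud + I) +
      ((T ^ 3 + 8 * T ^ 2 * Cs) * M * M₀ + 1) * d₄ * s₄ * u₃ * Lo +
      (T ^ 2 * D₁ + 8 * T ^ 3 * m * M * M₀ * D₂ + (T ^ 3 + 8 * T ^ 2 * Cs) * M * M₀ * D₃ + D₄ +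
        D₅) * δ := by
  have a1 : X ≤ T ^ 2 * u₂ * c * θ * U + T ^ 2 * u₂ * d * e₂ +
      (T ^ 2 * d * (1 + s₃) * u₂ * cb * Ξ + 8 * T ^ 3 * (M * M₀ * d₃ * s₃ * u₂ + u₁) * (m * U)) +
      (T ^ 2 * u₂ * d * Ud + T ^ 2 * d * (1 + s₃) * u₃ * Lg +
        8 * T ^ 3 * M * M₀ * d₃ * s₃ * u₃ * (m * Lg) + T ^ 3 * u₁ * Ud +
        T ^ 2 * bp * Ud + T * I) + (T ^ 3 + 8 * T ^ 2 * Cs) * M * M₀ * d₄ * s₄ * u₃ * Lo +
      (T ^ 2 * D₁ + 8 * T ^ 3 * m * M * M₀ * D₂ + (T ^ 3 + 8 * T ^ 2 * Cs) * M * M₀ * D₃ + D₄ +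
        D₅) * δ := by
    refine h0.trans (le_trans (add_le_add (add_le_add (add_le_add (add_le_add (add_le_add
      (add_le_add (add_le_add (mul_le_mul_right h1 _) (mul_le_mul_right (add_le_add
      (mul_le_mul_right h2 _) h4) _)) (mul_le_mul_right h3 _)) (mul_le_mul_right h5 _)) le_rfl)
      le_rfl) le_rfl) le_rfl) (le_of_eq ?_))
    rw [hθ]
    ring
  refine a1.trans ?_
  have g1 : Lg ≤ Lg + Ud + I := le_self_add.trans le_self_add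
  have g3 : Ud ≤ Lg + Ud + I := le_add_self.trans le_self_add
  have g4 : I ≤ Lg + Ud + I := le_add_self
  have g5 : m * Lg ≤ Lg + Ud + I := (mul_le_of_le_one_left' hm).trans g1
  refine add_le_add (add_le_add (add_le_add (add_le_add le_rfl ?_) ?_) ?_) le_rfl
  · rw [add_mul]
    exact add_le_add (mul_le_mul_right le_add_self _) (mul_le_mul_right le_self_add _)
  · simp only [add_mul _ _ (Lg + Ud + I)]
    gcongr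
  · gcongr
    exact le_self_add

theorem fin3 {T d s u₂ cb M M₀ d₃ u₁ : ℝ≥0∞} (_ : T ≠ ⊤) (_ : d ≠ ⊤) (_ : s ≠ ⊤) (_ : u₂ ≠ ⊤)
    (_ : cb ≠ ⊤) (_ : M ≠ ⊤) (_ : M₀ ≠ ⊤) (_ : d₃ ≠ ⊤) (_ : u₁ ≠ ⊤) :
    T ^ 2 * d * (1 + s) * u₂ * cb + 8 * T ^ 3 * ((M + 1) * M₀ * d₃ * s * u₂ + u₁) ≠ ⊤ := by
  finiteness

theorem fin4 {T d s₃ u₁ u₂ u₃ M M₀ d₃ bp : ℝ≥0∞} (_ : T ≠ ⊤) (_ : d ≠ ⊤) (_ : s₃ ≠ ⊤)
    (_ : u₁ ≠ ⊤) (_ : u₂ ≠ ⊤) (_ : u₃ ≠ ⊤) (_ : M ≠ ⊤) (_ : M₀ ≠ ⊤) (_ : d₃ ≠ ⊤) (_ : bp ≠ ⊤) :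
    T ^ 2 * u₂ * d + T ^ 2 * d * (1 + s₃) * u₃ + 8 * T ^ 3 * (M + 1) * M₀ * d₃ * s₃ * u₃ +
      T ^ 3 * u₁ + T ^ 2 * bp + T ≠ ⊤ := by
  finiteness

theorem fin5 {T s₄ u₃ M M₀ d₄ Cs : ℝ≥0∞} (_ : T ≠ ⊤) (_ : s₄ ≠ ⊤) (_ : u₃ ≠ ⊤) (_ : M ≠ ⊤)
    (_ : M₀ ≠ ⊤) (_ : d₄ ≠ ⊤) (_ : Cs ≠ ⊤) :
    ((T ^ 3 + 8 * T ^ 2 * Cs) * (M + 1) * M₀ + 1) * d₄ * s₄ * u₃ ≠ ⊤ := by
  finiteness

/-- the coefficient of the tolerance -/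
noncomputable def Dm (T d d₃ d₄ s₃ s₄ u₂ ai cl V V' ω ω₀ L A Nc m M M₀ Cs nW nX nB : ℝ≥0∞) :
    ℝ≥0∞ :=
  T ^ 2 * (d * (1 + s₃) * (u₂ * ai * cl * V + ω * V * (1 + L + A * ai) * Nc)) +
    8 * T ^ 3 * m * (M + 1) * M₀ * (V * ω * d₃ * (1 + s₃ * L) * Nc) +
    (T ^ 3 + 8 * T ^ 2 * Cs) * (M + 1) * M₀ * (V * ω * d₄ * (1 + s₄ * L) * Nc) +
    V * ω₀ * (8 * T ^ 3 * m * nW + T ^ 3 * nX + 8 * T ^ 2 * Cs * nB) +
    V * ω₀ * (T * nW + T ^ 2 * nB) + V' * ω * d₄ * (1 + s₄ * L) * Nc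

theorem finD {T d d₃ d₄ s₃ s₄ u₂ ai cl V V' ω ω₀ L A Nc m M M₀ Cs nW nX nB : ℝ≥0∞} (_ : T ≠ ⊤)
    (_ : d ≠ ⊤) (_ : d₃ ≠ ⊤) (_ : d₄ ≠ ⊤) (_ : s₃ ≠ ⊤) (_ : s₄ ≠ ⊤) (_ : u₂ ≠ ⊤) (_ : ai ≠ ⊤)
    (_ : cl ≠ ⊤) (_ : V ≠ ⊤) (_ : V' ≠ ⊤) (_ : ω ≠ ⊤) (_ : ω₀ ≠ ⊤) (_ : L ≠ ⊤) (_ : A ≠ ⊤)
    (_ : Nc ≠ ⊤) (_ : m ≠ ⊤) (_ : M ≠ ⊤) (_ : M₀ ≠ ⊤) (_ : Cs ≠ ⊤) (_ : nW ≠ ⊤) (_ : nX ≠ ⊤)
    (_ : nB ≠ ⊤) : Dm T d d₃ d₄ s₃ s₄ u₂ ai cl V V' ω ω₀ L A Nc m M M₀ Cs nW nX nB ≠ ⊤ := by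
  simp only [Dm, ENNReal.add_ne_top]
  refine ⟨⟨⟨⟨⟨?_, ?_⟩, ?_⟩, ?_⟩, ?_⟩, ?_⟩ <;> finiteness

variable {Ω : Set E3} {f : E3 → E3} {P : Par} {j : Fin P.N} {Y : TyZ Ω f} {cb : ℝ≥0}
  {l Λ o p : ℝ} {T : E3 ≃ᴬ[ℝ] E3}

theorem back (hp : 0 ≤ p) (ty : Typ P j Y cb l Λ o T) (H : E3 → E3) (i : ℕ) (Z : Set E3) :
    En i p H Z ≤ ENNReal.ofReal (l * cb) ^ p * En i p (T ∘ H) Z :=
  let ⟨_, hv⟩ := ty.T_eq
  en_back hp ty.l_pos Y.Bm ty.nB' (fun _ => hv _) Z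

theorem m3 (hp : 1 ≤ p) (hA : CubeApi Ω P) (hm : 1 ≤ P.m j) (hl : 0 < l) {V : ℝ≥0∞}
    (hV : V ≤ ENNReal.ofReal (6 * ((P.T j).b * P.η) ^ 3)) :
    V * (ENNReal.ofReal ((P.T j).b / P.a j) ^ p * ENNReal.ofReal (l * cb) ^ p) *
      (ENNReal.ofReal l⁻¹ ^ p * ENNReal.ofReal P.η ^ (p - 1)) ≤
      ENNReal.ofReal (6 * (P.T j).b ^ 3 * ((P.T j).b * cb * P.m j) ^ p) *
        ENNReal.ofReal P.η ^ 2 :=
  n3 hp (Nat.cast_nonneg _) hA.eta_pos (by exact_mod_cast hm) hl cb.coe_nonneg hV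

open Classical in
/-- the main bound in terms of the three sums -/
theorem main (hp : 1 ≤ p) (hA : CubeApi Ω P) (hm : 1 ≤ P.m j) (ty : Typ P j Y cb l Λ o T)
    {Q : RCx E3} {ν : E3 ≃ᴬ[ℝ] E3} {Nr : Set Q.ι} {H : E3 → E3} {W V : Finset (Fin 3 → ℤ)}
    {c₀ : ℝ} {X M M₀ Cs I nB δ d d₃ d₄ s₃ s₄ e₂ SX Ig Io Nc Ξ V' : ℝ≥0∞}
    (hW : (W : Set (Fin 3 → ℤ)) = P.Inner j) (hV : (V : Set (Fin 3 → ℤ)) = Vs P j Y.K) :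
    let T2 : ℝ≥0∞ := 2 ^ p
    let ω₀ := ENNReal.ofReal ((P.T j).b / P.a j) ^ p
    let w := P.vol j * ω₀
    let β := ENNReal.ofReal ((P.T j).b ^ 2 * P.a j) ^ p
    let m := (P.m j : ℝ≥0∞)⁻¹
    let A := ENNReal.ofReal (P.a j / l) ^ p
    let ai := (ENNReal.ofReal (P.a j / l))⁻¹
    let L := ENNReal.ofReal l⁻¹ ^ p
    let E := ENNReal.ofReal P.η ^ (p - 1)
    let U := volume (P.U j)
    let Ud := volume (P.U j \ Y.K)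
    let bp := ENNReal.ofReal (P.T j).b ^ p
    let u₁ : ℝ≥0∞ := u p (P.T j).b
    let u₂ := ENNReal.ofReal ((P.T j).b * cb) ^ p
    let u₃ := ENNReal.ofReal (6 * (P.T j).b ^ 3 * ((P.T j).b * cb * P.m j) ^ p)
    X ≤ T2 ^ 2 * (w * ∑ z ∈ V, En (3 - (P.T j).I.card) p (fun ξ => H ξ - P.B j ξ)
        (uface z (P.T j).I)) +
      8 * T2 ^ 3 * m * ((M + 1) * M₀ * (w * tot (Φ₂ P j Q) fun c => En 2 p H (ν '' Q.cell c)) +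
        w * β * W.card) +
      (T2 ^ 3 + 8 * T2 ^ 2 * Cs) * (M + 1) * M₀ *
        (w * tot (Φ₃ P j Q Nr Y.K) fun c => En (Q.dim c) p H (ν '' Q.cell c)) +
      T2 ^ 3 * (w * β * (W \ V).card) + T2 ^ 2 * bp * Ud + T2 * I +
      w * (8 * T2 ^ 3 * m * W.card + T2 ^ 3 * (W \ V).card + 8 * T2 ^ 2 * Cs * nB) * δ +
      w * (T2 * W.card + T2 ^ 2 * nB) * δ →
    P.vol j * ∑ z ∈ V, En (3 - (P.T j).I.card) p
      (fun ξ => (T ∘ H) ξ - ((P.a j / l) • dgs (P.T j).I 0) ξ) (uface z (P.T j).I) ≤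
      A * (ENNReal.ofReal (Y.θ * (c₀ + 40) ^ p) * U + d * (e₂ + Ud)) +
      d * (1 + s₃) * P.vol j * (A * ai * SX + L * E * Ig + (1 + L + A * ai) * Nc * δ) →
    P.vol j * SX ≤ ENNReal.ofReal (cb / l) * (ENNReal.ofReal (P.a j) * Ξ + P.vol j * δ) →
    tot (Φ₂ P j Q) (fun c => En 2 p (T ∘ H) (ν '' Q.cell c)) ≤
      d₃ * (s₃ * L * (ENNReal.ofReal (P.a j) ^ p * (P.Buf j).encard + E * Ig) +
        (1 + s₃ * L) * Nc * δ) →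
    tot (Φ₃ P j Q Nr Y.K) (fun c => En (Q.dim c) p (T ∘ H) (ν '' Q.cell c)) ≤
      d₄ * (s₄ * L * E * Io + (1 + s₄ * L) * Nc * δ) →
    X ≤ T2 ^ 2 * u₂ * ENNReal.ofReal ((c₀ + 40) ^ p) * ENNReal.ofReal Y.θ * U +
      T2 ^ 2 * u₂ * d * e₂ +
      (T2 ^ 2 * d * (1 + s₃) * u₂ * ENNReal.ofReal cb +
        8 * T2 ^ 3 * ((M + 1) * M₀ * d₃ * s₃ * u₂ + u₁)) * (m * U + Ξ) +
      (T2 ^ 2 * u₂ * d + T2 ^ 2 * d * (1 + s₃) * u₃ + 8 * T2 ^ 3 * (M + 1) * M₀ * d₃ * s₃ * u₃ +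
        T2 ^ 3 * u₁ + T2 ^ 2 * bp + T2) * (ENNReal.ofReal P.η ^ 2 * Ig + Ud + I) +
      ((T2 ^ 3 + 8 * T2 ^ 2 * Cs) * (M + 1) * M₀ + 1) * d₄ * s₄ * u₃ *
        (ENNReal.ofReal P.η ^ 2 * Io) +
      Dm T2 d d₃ d₄ s₃ s₄ u₂ ai (ENNReal.ofReal (cb / l)) (P.vol j) V'
        (ω₀ * ENNReal.ofReal (l * cb) ^ p) ω₀ L A Nc m M M₀ Cs W.card (W \ V).card nB * δ := by
  intro T2 ω₀ w β m A ai L E U Ud bp u₁ u₂ u₃ b0 b1 bX b2 b3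
  have hp0 : 0 ≤ p := by linarith
  have hl := ty.l_pos
  have ha := hA.a_pos j
  have m2 := n2 hp0 (Nat.cast_nonneg (P.T j).b) ha hl cb.coe_nonneg
  have m3' := m3 (cb := cb) hp hA hm hl (hA.vol_le j)
  have b1' := alg1 b1 bX m2 m3' (n4 ha hl cb.coe_nonneg)
  have cU : ((P.Buf j).encard : ℝ≥0∞) * P.vol j ≤ volume (P.U j) :=
    Cube.count hA.nu_lam hA.lam_nu j fun z hz x hx => hA.buf_U j ⟨z, hz, hx⟩
  have b2' := alg2 b2 ((congrArg _ (n2' hp0 hl)).trans m2) m3' cU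
  have b3' := alg3 b3 m3'
  have y0 : ∀ (B : Finset (Fin 3 → ℤ)) (Z : Set E3), (∀ z ∈ B, P.cube j z ⊆ Z) →
      w * β * B.card ≤ u₁ * volume Z := by
    intro B Z hZ
    have := Cube.count hA.nu_lam hA.lam_nu j (Z := (B : Set (Fin 3 → ℤ))) hZ
    rw [encard_coe_eq_coe_finsetCard, ENat.toENNReal_coe] at this
    rw [mul_assoc (P.vol j), num1 hp0 ha, mul_comm (P.vol j), mul_assoc, mul_comm (P.vol j)]
    exact mul_le_mul_right this _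
  have cW : ∀ z ∈ W, P.cube j z ⊆ P.U j := fun z hz x hx =>
    hA.buf_U j ⟨z, hA.inner_buf j (hW.subset hz), hx⟩
  have t : ∀ (Φ : Set Q.ι) (i : Q.ι → ℕ), w * tot Φ (fun c => En (i c) p H (ν '' Q.cell c)) ≤
      P.vol j * (ω₀ * ENNReal.ofReal (l * cb) ^ p) *
        tot Φ (fun c => En (i c) p (T ∘ H) (ν '' Q.cell c)) := fun Φ i => by
    rw [← mul_assoc (P.vol j), mul_assoc _ (ENNReal.ofReal (l * cb) ^ p),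
      ← tot_mul_left _ (ENNReal.ofReal (l * cb) ^ p)]
    exact mul_le_mul_right (tot_mono_fun fun c _ => back hp0 ty H _ _) _
  refine (alg4 (ENNReal.inv_le_one.2 (by exact_mod_cast hm)) (ENNReal.ofReal_mul Y.θ_pos.le) b0
    (le_trans ?_ b1') ((t _ fun _ => 2).trans b2') ((t _ Q.dim).trans b3') (y0 _ _ cW)
    (y0 (W \ V) _ fun z hz x hx => ⟨cW z (Finset.mem_sdiff.1 hz).1 hx,
      fun hK => (Finset.mem_sdiff.1 hz).2 (hV.superset ⟨x, hK, hx⟩)⟩)).trans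
    (add_le_add le_rfl (mul_le_mul_left le_self_add _))
  obtain ⟨v, hv⟩ := ty.T_eq
  show P.vol j * ω₀ * _ ≤ ω₀ * _ * _
  rw [mul_comm (P.vol j) ω₀, mul_assoc, mul_assoc,
    mul_left_comm (ENNReal.ofReal (l * cb) ^ p) (P.vol j), Finset.mul_sum _ _ (ENNReal.ofReal (l * cb) ^ p)]
  refine mul_le_mul_right (mul_le_mul_right (Finset.sum_le_sum fun z _ => ?_) _) _
  refine en_back hp0 hl Y.Bm ty.nB' (v := v) (fun ξ => ?_) _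
  rw [← frame_B ty, map_sub, smul_sub, Function.comp_apply, hv]
  abel

/-- the faces off the compact set -/
theorem outer (hp : 1 ≤ p) (hA : CubeApi Ω P) (hm : 1 ≤ P.m j) (ty : Typ P j Y cb l Λ o T)
    {Q : RCx E3} {ν : E3 ≃ᴬ[ℝ] E3} {Nr : Set Q.ι} {h : E3 → E3} {d₄ s₄ Io Nc δ : ℝ≥0∞}
    (l1 : LipschitzWith ((P.T j).b * P.m j / 2⁻¹ ^ P.k₀) ν)
    (l2 : LipschitzWith ((P.T j).b * 2⁻¹ ^ P.k₀) ν.symm)
    (b3 : tot (Φ₃ P j Q Nr Y.K) (fun c => En (Q.dim c) p (T ∘ h ∘ ν.symm) (ν '' Q.cell c)) ≤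
      d₄ * (s₄ * ENNReal.ofReal l⁻¹ ^ p * ENNReal.ofReal P.η ^ (p - 1) * Io +
        (1 + s₄ * ENNReal.ofReal l⁻¹ ^ p) * Nc * δ)) :
    ENNReal.ofReal P.η * tot {φ ∈ Nr | Q.dim φ = 2 ∧ Disjoint (Q.cell φ) Y.K}
        (fun φ => En 2 p h (Q.cell φ)) ≤
      d₄ * s₄ * ENNReal.ofReal (6 * (P.T j).b ^ 3 * ((P.T j).b * cb * P.m j) ^ p) *
        (ENNReal.ofReal P.η ^ 2 * Io) +
      ENNReal.ofReal P.η * ENNReal.ofReal ((P.T j).b * P.η) ^ 2 *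
        (ENNReal.ofReal ((P.T j).b / P.a j) ^ p * ENNReal.ofReal (l * cb) ^ p) * d₄ *
        (1 + s₄ * ENNReal.ofReal l⁻¹ ^ p) * Nc * δ := by
  have hη0 := hA.eta_pos
  have hb : (1 : ℝ) ≤ (P.T j).b := by exact_mod_cast (P.T j).b_pos
  refine le_trans ?_ (alg3 b3 (m3 hp hA hm ty.l_pos ?_))
  · rw [mul_assoc, mul_assoc, ← tot_mul_left (Φ₃ P j Q Nr Y.K), ← tot_mul_left (Φ₃ P j Q Nr Y.K)]
    refine mul_le_mul_right (tot_mono (B := Φ₃ P j Q Nr Y.K)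
      (fun φ hφ => by exact ⟨hφ.1, hφ.2.2, Or.inl hφ.2.1⟩) fun φ hφ => ?_) _
    refine (Rf.en_aff (by linarith : 0 < p) ν l1 l2 (Q.isCompact_cell φ) h).1.trans ?_
    have c1 : ((((P.T j).b * P.m j / 2⁻¹ ^ P.k₀ : ℝ≥0)) : ℝ≥0∞) =
        ENNReal.ofReal ((P.T j).b / P.a j) := by
      rw [← ENNReal.ofReal_coe_nnreal, Par.a, Par.η, div_div_eq_mul_div]
      push_cast
      rfl
    have c2 : ((((P.T j).b * 2⁻¹ ^ P.k₀ : ℝ≥0)) : ℝ≥0∞) = ENNReal.ofReal ((P.T j).b * P.η) := by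
      rw [← ENNReal.ofReal_coe_nnreal, Par.η]
      push_cast
      rfl
    rw [c1, c2, show Q.dim φ = 2 from hφ.2.1, mul_comm (_ ^ p), mul_assoc, mul_assoc]
    exact mul_le_mul_right (mul_le_mul_right (back (by linarith) ty _ _ _) _) _
  · rw [← ENNReal.ofReal_pow (by positivity), ← ENNReal.ofReal_mul hη0.le]
    refine ENNReal.ofReal_le_ofReal ?_
    have := mul_le_mul_of_nonneg_right (le_mul_of_one_le_left hη0.le hb)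
      (sq_nonneg ((P.T j).b * P.η))
    have h0 : 0 ≤ ((P.T j).b * P.η) ^ 3 := by positivity
    nlinarith

end On

end P073.Nr
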