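import Vale.Agent.P073Y.Nr.One

/-!
# The bound for one type without refilling
-/

open Set Metric Topology Filter MeasureTheory
open scoped NNReal ENNReal

namespace P073.Nr

open P073.Top P073.Zn P073.M2 P073.Ln

namespace T3

open Sm Det Cu On

/-- the faces and the cubes of the buffer -/
def Φa (P : Par) (j : Fin P.N) (Q : RCx E3) : Set Q.ι :=
  {c | (Q.dim c = 2 ∨ Q.dim c = 3) ∧ Q.cell c ⊆ P.BufSet j}

/-- the near cells off `K` -/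
def Φb (P : Par) (j : Fin P.N) (Q : RCx E3) (Nr : Set Q.ι) (K : Set E3) : Set Q.ι :=
  {c | c ∈ Nr ∧ Disjoint (Q.cell c) K ∧
    (Q.dim c = 2 ∨ Q.dim c = 3 ∨ (Q.dim c = 1 ∧ Q.cell c ⊆ P.BufSet j))}

section

variable {Ω : Set E3} {P : Par} {j : Fin P.N} {Q : RCx E3} {ν : E3 ≃ᴬ[ℝ] E3} {Sl : Set E3}
  {M₀ Mt : ℝ≥0}

open Classical in
/-- the integral over the buffer in terms of the energies on the cells -/
theorem buf_int3 {p : ℝ} (hp : 1 ≤ p) (hA : CubeApi Ω P) (La : Latt P j Q ν Sl M₀ Mt)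
    {F : E3 → (E3 →L[ℝ] E3)} (hF : Measurable F) {K : Set E3} (hK : K ⊆ P.K j) {Nr : Set Q.ι}
    (hN : ∀ c, Q.cell c ⊆ P.BufSet j → c ∈ Nr) (hm : 1 ≤ P.m j) (hr : (P.T j).r ≤ 2)
    {k H : E3 → E3} (M₃ δ : ℝ≥0∞) {ε Cs : ℝ≥0∞} {W V Bf : Finset (Fin 3 → ℤ)}
    (hW : (W : Set (Fin 3 → ℤ)) = P.Inner j) (hV : (V : Set (Fin 3 → ℤ)) = Vs P j K)
    (hB : (Bf : Set (Fin 3 → ℤ)) = P.Buf j \ P.Inner j)
    (s1 : ∀ z ∈ P.Inner j, ∫⁻ x in P.cube j z, ‖fderiv ℝ k x - (P.T j).A‖ₑ ^ p ≤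
      P.vol j * ENNReal.ofReal ((P.T j).b / P.a j) ^ p *
        (2 ^ p * ∑ J ∈ (P.T j).I.powerset, (P.m j : ℝ≥0∞)⁻¹ ^ ((P.T j).I.card - J.card) *
          En (3 - J.card) p (fun ξ => H ξ - P.B j ξ) (uface z J) + ε))
    (s2 : ∀ z ∈ P.Buf j, ∫⁻ x in P.cube j z, ‖fderiv ℝ k x‖ₑ ^ p ≤
      P.vol j * ENNReal.ofReal ((P.T j).b / P.a j) ^ p *
        (Cs * ∑ J ∈ (P.T j).I.powerset, En (3 - J.card) p H (uface z J) + ε)) :
    let T : ℝ≥0∞ := 2 ^ p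
    let w := P.vol j * ENNReal.ofReal ((P.T j).b / P.a j) ^ p
    let β := ENNReal.ofReal ((P.T j).b ^ 2 * P.a j) ^ p
    let m := (P.m j : ℝ≥0∞)⁻¹
    ∫⁻ x in P.BufSet j, ‖fderiv ℝ k x - F x‖ₑ ^ p ≤
      T ^ 2 * (w * ∑ z ∈ V, En (3 - (P.T j).I.card) p (fun ξ => H ξ - P.B j ξ)
        (uface z (P.T j).I)) +
      8 * T ^ 3 * m * ((M₃ + 1) * M₀ * 
        (w * tot (Φa P j Q) fun c => En (Q.dim c) p H (ν '' Q.cell c)) +
        w * β * W.card) +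
      (T ^ 3 + 8 * T ^ 2 * Cs) * (M₃ + 1) * M₀ *
        (w * tot (Φb P j Q Nr K) fun c => En (Q.dim c) p H (ν '' Q.cell c)) +
      T ^ 3 * (w * β * (W \ V).card) +
      T ^ 2 * ENNReal.ofReal (P.T j).b ^ p * volume (P.U j \ K) +
      T * (∫⁻ x in P.U j, ‖F x - (P.T j).A‖ₑ ^ p) +
      w * (8 * T ^ 3 * m * W.card + T ^ 3 * (W \ V).card + 8 * T ^ 2 * Cs * Bf.card) * δ +
      w * (T * W.card + T ^ 2 * Bf.card) * ε := by
  intro T w β m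
  have hp0 : 0 ≤ p := by linarith
  have mW : ∀ z, z ∈ W ↔ z ∈ P.Inner j := fun z => by rw [← Finset.mem_coe, hW]
  have mV : ∀ z, z ∈ V ↔ z ∈ Vs P j K := fun z => by rw [← Finset.mem_coe, hV]
  have mB : ∀ z, z ∈ Bf ↔ z ∈ P.Buf j \ P.Inner j := fun z => by rw [← Finset.mem_coe, hB]
  have VW : V ⊆ W := fun z hz => by
    obtain ⟨x, hx, hx'⟩ := (mV z).1 hz
    exact (mW z).2 ⟨x, hK hx, hx'⟩
  have cb : ∀ z ∈ P.Buf j, P.cube j z ⊆ P.BufSet j := fun z hz x hx => ⟨z, hz, hx⟩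
  have tb : ∀ z ∈ P.Buf j, ∀ (J : Finset (Fin 3)) (ρ : Q.ι → Prop),
      (∀ c, Q.dim c = 3 - J.card → ρ c) → En (3 - J.card) p H (uface z J) ≤
      (M₃ + 1) * tot {c | ρ c ∧ Q.cell c ⊆ P.cube j z}
        (fun c => En (Q.dim c) p H (ν '' Q.cell c)) + δ := by
    intro z hz J ρ hρ
    obtain ⟨c, c1, c2, c3⟩ := La.box z hz J
    rw [← c1, ← c2]
    exact (le_tot (A := {c | ρ c ∧ Q.cell c ⊆ P.cube j z}) ⟨hρ c c2, c3⟩
      fun c => En (Q.dim c) p H (ν '' Q.cell c)).trans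
      ((le_mul_of_one_le_left' le_add_self).trans le_self_add)
  have in3 : ∀ z ∈ P.Buf j, z ∉ V → ∀ c, (Q.dim c = 2 ∨ Q.dim c = 3 ∨ Q.dim c = 1) →
      Q.cell c ⊆ P.cube j z → c ∈ Φb P j Q Nr K := fun z hz hz' c h1 h2 =>
    ⟨hN c (h2.trans (cb z hz)), Set.disjoint_left.2 fun x hx hxK => hz' ((mV z).2 ⟨x, hxK, h2 hx⟩),
      h1.imp id (Or.imp id fun h => ⟨h, h2.trans (cb z hz)⟩)⟩
  have hI := hA.card_I j
  have hr1 := (P.T j).r_pos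
  have sub : ∀ (z : Fin 3 → ℤ) (J : Finset (Fin 3)) {x : ℝ≥0∞},
      En (3 - J.card) p H (uface z J) ≤ x →
      En (3 - J.card) p (fun ξ => H ξ - P.B j ξ) (uface z J) ≤ T * (x + β) := by
    intro z J x hx
    refine (ena.2.1 _ H (P.B j) hp (measurableSet_uface z J)).1.trans
      (mul_le_mul_right (add_le_add hx ?_) _)
    calc _ ≤ β * 1 := by
          refine mul_le_mul' (ENNReal.rpow_le_rpow ?_ hp0) (ena.2.2.2.2.2 z J)
          rw [← ofReal_norm]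
          exact ENNReal.ofReal_le_ofReal (hA.B_le j)
      _ = _ := mul_one _
  set A₂ : (Fin 3 → ℤ) → ℝ≥0∞ := fun z =>
    tot {c | (Q.dim c = 2 ∨ Q.dim c = 3) ∧ Q.cell c ⊆ P.cube j z}
      (fun c => En (Q.dim c) p H (ν '' Q.cell c)) with hA₂
  set A₃ : (Fin 3 → ℤ) → ℝ≥0∞ := fun z =>
    tot {c | (Q.dim c = 2 ∨ Q.dim c = 3 ∨ Q.dim c = 1) ∧ Q.cell c ⊆ P.cube j z}
      (fun c => En (Q.dim c) p H (ν '' Q.cell c)) with hA₃
  set e : (Fin 3 → ℤ) → ℝ≥0∞ := fun z =>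
    En (3 - (P.T j).I.card) p (fun ξ => H ξ - P.B j ξ) (uface z (P.T j).I) with he
  have c1 : P.BufSet j ⊆ (⋃ z ∈ W, P.cube j z) ∪ ⋃ z ∈ Bf, P.cube j z := by
    rintro x ⟨z, hz, hx⟩
    by_cases hi : z ∈ P.Inner j
    · exact Or.inl (mem_biUnion ((mW z).2 hi) hx)
    · exact Or.inr (mem_biUnion ((mB z).2 ⟨hz, hi⟩) hx)
  refine (lint_split hp _ _ (P.T j).A hF).trans (le_trans (mul_le_mul_right (add_le_add
    ((lintegral_mono_set c1).trans ((lintegral_union_le _ _ _).trans (add_le_add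
      (lint_biUnion_le _ _ _) (lint_biUnion_le _ _ _))))
    (lintegral_mono_set (hA.buf_U j))) _) (alg (V := P.vol j) ?_ ?_ ?_))
  · have a1 : ∀ z ∈ W, ∫⁻ x in P.cube j z, ‖fderiv ℝ k x - (P.T j).A‖ₑ ^ p ≤
        w * (T * (8 * (m * (T * ((M₃ + 1) * A₂ z + δ + β))) + e z) + ε) := by
      intro z hz
      have hz' := (mW z).1 hz
      refine (s1 z hz').trans (mul_le_mul_right (add_le_add (mul_le_mul_right ?_ _) le_rfl) _)
      refine sum_pow_le _ (ENNReal.inv_le_one.2 (by exact_mod_cast hm)) _ (fun J hJ hne => ?_)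
        le_rfl
      have := Finset.card_lt_card (Finset.ssubset_iff_subset_ne.2 ⟨hJ, hne⟩)
      exact sub z J (tb z (hA.inner_buf j hz') J _ fun c hc => by omega)
    have a2 := sum_cubes La W (fun z hz => hA.inner_buf j ((mW z).1 hz))
      (fun c => Q.dim c = 2 ∨ Q.dim c = 3) (Φ := Φa P j Q)
      (fun c => En (Q.dim c) p H (ν '' Q.cell c))
      fun z hz c h1 h2 => ⟨h1, h2.trans (cb z (hA.inner_buf j ((mW z).1 hz)))⟩
    have a3 := sum_cubes La (W \ V)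
      (fun z hz => hA.inner_buf j ((mW z).1 (Finset.mem_sdiff.1 hz).1))
      (fun c => Q.dim c = 2 ∨ Q.dim c = 3 ∨ Q.dim c = 1)
      (fun c => En (Q.dim c) p H (ν '' Q.cell c))
      fun z hz => in3 z (hA.inner_buf j ((mW z).1 (Finset.mem_sdiff.1 hz).1))
        (Finset.mem_sdiff.1 hz).2
    have a5 : ∑ z ∈ W \ V, e z ≤ ∑ z ∈ W \ V, T * ((M₃ + 1) * A₃ z + δ + β) :=
      Finset.sum_le_sum fun z hz => sub z _
        (tb z (hA.inner_buf j ((mW z).1 (Finset.mem_sdiff.1 hz).1)) _ _ fun c hc => by omega)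
    refine (Finset.sum_le_sum a1).trans ?_
    simp only [Finset.sum_add_distrib, ← Finset.mul_sum, Finset.sum_const, nsmul_eq_mul] at a5 ⊢
    rw [← Finset.sum_sdiff VW (f := e), add_comm (∑ z ∈ W \ V, e z)]
    gcongr
    refine a5.trans ?_
    gcongr
  · have a1 : ∀ z ∈ Bf, ∫⁻ x in P.cube j z, ‖fderiv ℝ k x - (P.T j).A‖ₑ ^ p ≤
        T * (w * (Cs * (8 * ((M₃ + 1) * A₃ z + δ)) + ε) +
          ENNReal.ofReal (P.T j).b ^ p * P.vol j) := by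
      intro z hz
      have hz' := ((mB z).1 hz).1
      refine (lint_split hp _ _ 0 (F := fun _ => (P.T j).A) measurable_const).trans
        (mul_le_mul_right (add_le_add ?_ ?_) _)
      · simp only [sub_zero]
        refine (s2 z hz').trans (mul_le_mul_right (add_le_add (mul_le_mul_right ?_ _) le_rfl) _)
        exact sum_le8 _ _ fun J hJ => tb z hz' J _ fun c hc => by
          have := card_le_two hA j hJ
          omega
      · rw [setLIntegral_const, hA.vol_cube, sub_zero, ← ofReal_norm]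
        exact mul_le_mul_left (ENNReal.rpow_le_rpow
          (ENNReal.ofReal_le_ofReal (P.T j).normA) hp0) _
    have a3 := sum_cubes La Bf (fun z hz => ((mB z).1 hz).1)
      (fun c => Q.dim c = 2 ∨ Q.dim c = 3 ∨ Q.dim c = 1)
      (fun c => En (Q.dim c) p H (ν '' Q.cell c))
      fun z hz => in3 z ((mB z).1 hz).1 fun h => ((mB z).1 hz).2 ((mW z).1 (VW h))
    refine (Finset.sum_le_sum a1).trans ?_
    simp only [Finset.sum_add_distrib, ← Finset.mul_sum, Finset.sum_const, nsmul_eq_mul]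
    gcongr
  · have := (hA.count_buf j).trans (measure_mono (sdiff_subset_sdiff_right hK))
    rwa [← hB, encard_coe_eq_coe_finsetCard, ENat.toENNReal_coe] at this

end

variable {Ω : Set E3} {f : E3 → E3} {P : Par} {j : Fin P.N} {Y : TyZ Ω f} {cb : ℝ≥0}
  {l Λ o p : ℝ} {T : E3 ≃ᴬ[ℝ] E3}

open Classical in
/-- the main bound in terms of the three sums -/
theorem main3 (hp : 1 ≤ p) (hA : CubeApi Ω P) (hm : 1 ≤ P.m j) (ty : Typ P j Y cb l Λ o T)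
    {Q : RCx E3} {ν : E3 ≃ᴬ[ℝ] E3} {Φ Φ' : Set Q.ι} {H : E3 → E3} {W V : Finset (Fin 3 → ℤ)}
    {c₀ : ℝ} {X M M₀ Cs I nB δ d d₃ d₄ s₃ s₄ e₂ SX Ig Io Nc Ξ V' : ℝ≥0∞}
    (hW : (W : Set (Fin 3 → ℤ)) = P.Inner j) (hV : (V : Set (Fin 3 → ℤ)) = Vs P j Y.K) :
    let T2 : ℝ≥0∞ := 2 ^ p
    let ω₀ := ENNReal.ofReal ((P.T j).b / P.a j) ^ p
    let w := P.vol j * ω₀
    let β := ENNReal.ofReal ((P.T j).b ^ 2 * P.a j) ^ p
    let m := (P.m j : ℝ≥0∞)⁻¹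
    let A := ENNReal.ofReal (P.a j / l) ^ p
    let ai := (ENNReal.ofReal (P.a j / l))⁻¹
    let L := ENNReal.ofReal l⁻¹ ^ p
    let E := ENNReal.ofReal P.η ^ (p - 1)
    let U := volume (P.U j)
    let Ud := volume (P.U j \ Y.K)
    let bp := ENNReal.ofReal (P.T j).b ^ p
    let u₁ : ℝ≥0∞ := u p (P.T j).b
    let u₂ := ENNReal.ofReal ((P.T j).b * cb) ^ p
    let u₃ := ENNReal.ofReal (6 * (P.T j).b ^ 3 * ((P.T j).b * cb * P.m j) ^ p)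
    X ≤ T2 ^ 2 * (w * ∑ z ∈ V, En (3 - (P.T j).I.card) p (fun ξ => H ξ - P.B j ξ)
        (uface z (P.T j).I)) +
      8 * T2 ^ 3 * m * ((M + 1) * M₀ * 
        (w * tot Φ fun c => En (Q.dim c) p H (ν '' Q.cell c)) +
        w * β * W.card) +
      (T2 ^ 3 + 8 * T2 ^ 2 * Cs) * (M + 1) * M₀ *
        (w * tot Φ' fun c => En (Q.dim c) p H (ν '' Q.cell c)) +
      T2 ^ 3 * (w * β * (W \ V).card) + T2 ^ 2 * bp * Ud + T2 * I +
      w * (8 * T2 ^ 3 * m * W.card + T2 ^ 3 * (W \ V).card + 8 * T2 ^ 2 * Cs * nB) * δ +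
      w * (T2 * W.card + T2 ^ 2 * nB) * δ →
    P.vol j * ∑ z ∈ V, En (3 - (P.T j).I.card) p
      (fun ξ => (T ∘ H) ξ - ((P.a j / l) • dgs (P.T j).I 0) ξ) (uface z (P.T j).I) ≤
      A * (ENNReal.ofReal (Y.θ * (c₀ + 40) ^ p) * U + d * (e₂ + Ud)) +
      d * (1 + s₃) * P.vol j * (A * ai * SX + L * E * Ig + (1 + L + A * ai) * Nc * δ) →
    P.vol j * SX ≤ ENNReal.ofReal (cb / l) * (ENNReal.ofReal (P.a j) * Ξ + P.vol j * δ) →
    tot Φ (fun c => En (Q.dim c) p (T ∘ H) (ν '' Q.cell c)) ≤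
      d₃ * (s₃ * L * (ENNReal.ofReal (P.a j) ^ p * (P.Buf j).encard + E * Ig) +
        (1 + s₃ * L) * Nc * δ) →
    tot Φ' (fun c => En (Q.dim c) p (T ∘ H) (ν '' Q.cell c)) ≤
      d₄ * (s₄ * L * E * Io + (1 + s₄ * L) * Nc * δ) →
    X ≤ T2 ^ 2 * u₂ * ENNReal.ofReal ((c₀ + 40) ^ p) * ENNReal.ofReal Y.θ * U +
      T2 ^ 2 * u₂ * d * e₂ +
      (T2 ^ 2 * d * (1 + s₃) * u₂ * ENNReal.ofReal cb +
        8 * T2 ^ 3 * ((M + 1) * M₀ * d₃ * s₃ * u₂ + u₁)) * (m * U + Ξ) +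
      (T2 ^ 2 * u₂ * d + T2 ^ 2 * d * (1 + s₃) * u₃ + 8 * T2 ^ 3 * (M + 1) * M₀ * d₃ * s₃ * u₃ +
        T2 ^ 3 * u₁ + T2 ^ 2 * bp + T2) * (ENNReal.ofReal P.η ^ 2 * Ig + Ud + I) +
      ((T2 ^ 3 + 8 * T2 ^ 2 * Cs) * (M + 1) * M₀ + 1) * d₄ * s₄ * u₃ *
        (ENNReal.ofReal P.η ^ 2 * Io) +
      Dm T2 d d₃ d₄ s₃ s₄ u₂ ai (ENNReal.ofReal (cb / l)) (P.vol j) V'
        (ω₀ * ENNReal.ofReal (l * cb) ^ p) ω₀ L A Nc m M M₀ Cs W.card (W \ V).card nB * δ := by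
  intro T2 ω₀ w β m A ai L E U Ud bp u₁ u₂ u₃ b0 b1 bX b2 b3
  have hp0 : 0 ≤ p := by linarith
  have hl := ty.l_pos
  have ha := hA.a_pos j
  have m2 := n2 hp0 (Nat.cast_nonneg (P.T j).b) ha hl cb.coe_nonneg
  have m3' := m3 (cb := cb) hp hA hm hl (hA.vol_le j)
  have b1' := alg1 b1 bX m2 m3' (n4 ha hl cb.coe_nonneg)
  have cU : ((P.Buf j).encard : ℝ≥0∞) * P.vol j ≤ volume (P.U j) :=
    Cube.count hA.nu_lam hA.lam_nu j fun z hz x hx => hA.buf_U j ⟨z, hz, hx⟩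
  have b2' := alg2 b2 ((congrArg _ (n2' hp0 hl)).trans m2) m3' cU
  have b3' := alg3 b3 m3'
  have y0 : ∀ (B : Finset (Fin 3 → ℤ)) (Z : Set E3), (∀ z ∈ B, P.cube j z ⊆ Z) →
      w * β * B.card ≤ u₁ * volume Z := by
    intro B Z hZ
    have := Cube.count hA.nu_lam hA.lam_nu j (Z := (B : Set (Fin 3 → ℤ))) hZ
    rw [encard_coe_eq_coe_finsetCard, ENat.toENNReal_coe] at this
    rw [mul_assoc (P.vol j), num1 hp0 ha, mul_comm (P.vol j), mul_assoc, mul_comm (P.vol j)]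
    exact mul_le_mul_right this _
  have cW : ∀ z ∈ W, P.cube j z ⊆ P.U j := fun z hz x hx =>
    hA.buf_U j ⟨z, hA.inner_buf j (hW.subset hz), hx⟩
  have t : ∀ (Φ : Set Q.ι) (i : Q.ι → ℕ), w * tot Φ (fun c => En (i c) p H (ν '' Q.cell c)) ≤
      P.vol j * (ω₀ * ENNReal.ofReal (l * cb) ^ p) *
        tot Φ (fun c => En (i c) p (T ∘ H) (ν '' Q.cell c)) := fun Φ i => by
    rw [← mul_assoc (P.vol j), mul_assoc _ (ENNReal.ofReal (l * cb) ^ p),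
      ← tot_mul_left _ (ENNReal.ofReal (l * cb) ^ p)]
    exact mul_le_mul_right (tot_mono_fun fun c _ => back hp0 ty H _ _) _
  refine (alg4 (ENNReal.inv_le_one.2 (by exact_mod_cast hm)) (ENNReal.ofReal_mul Y.θ_pos.le) b0
    (le_trans ?_ b1') ((t _ Q.dim).trans b2') ((t _ Q.dim).trans b3') (y0 _ _ cW)
    (y0 (W \ V) _ fun z hz x hx => ⟨cW z (Finset.mem_sdiff.1 hz).1 hx,
      fun hK => (Finset.mem_sdiff.1 hz).2 (hV.superset ⟨x, hK, hx⟩)⟩)).trans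
    (add_le_add le_rfl (mul_le_mul_left le_self_add _))
  obtain ⟨v, hv⟩ := ty.T_eq
  show P.vol j * ω₀ * _ ≤ ω₀ * _ * _
  rw [mul_comm (P.vol j) ω₀, mul_assoc, mul_assoc,
    mul_left_comm (ENNReal.ofReal (l * cb) ^ p) (P.vol j), Finset.mul_sum _ _ (ENNReal.ofReal (l * cb) ^ p)]
  refine mul_le_mul_right (mul_le_mul_right (Finset.sum_le_sum fun z _ => ?_) _) _
  refine en_back hp0 hl Y.Bm ty.nB' (v := v) (fun ξ => ?_) _
  rw [← frame_B ty, map_sub, smul_sub, Function.comp_apply, hv]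
  abel

/-- the cells of dimension three off the compact set -/
theorem outer3 (hp : 1 ≤ p) (hA : CubeApi Ω P) (hm : 1 ≤ P.m j) (ty : Typ P j Y cb l Λ o T)
    {Q : RCx E3} {ν : E3 ≃ᴬ[ℝ] E3} {Nr : Set Q.ι} {h : E3 → E3} {d₄ s₄ Io Nc δ : ℝ≥0∞}
    (l1 : LipschitzWith ((P.T j).b * P.m j / 2⁻¹ ^ P.k₀) ν)
    (l2 : LipschitzWith ((P.T j).b * 2⁻¹ ^ P.k₀) ν.symm)
    (b3 : tot (Φb P j Q Nr Y.K) (fun c => En (Q.dim c) p (T ∘ h ∘ ν.symm) (ν '' Q.cell c)) ≤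
      d₄ * (s₄ * ENNReal.ofReal l⁻¹ ^ p * ENNReal.ofReal P.η ^ (p - 1) * Io +
        (1 + s₄ * ENNReal.ofReal l⁻¹ ^ p) * Nc * δ)) :
    tot {φ ∈ Nr | Q.dim φ = 3 ∧ Disjoint (Q.cell φ) Y.K} (fun φ => En 3 p h (Q.cell φ)) ≤
      d₄ * s₄ * ENNReal.ofReal (6 * (P.T j).b ^ 3 * ((P.T j).b * cb * P.m j) ^ p) *
        (ENNReal.ofReal P.η ^ 2 * Io) +
      ENNReal.ofReal ((P.T j).b * P.η) ^ 3 *
        (ENNReal.ofReal ((P.T j).b / P.a j) ^ p * ENNReal.ofReal (l * cb) ^ p) * d₄ *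
        (1 + s₄ * ENNReal.ofReal l⁻¹ ^ p) * Nc * δ := by
  have hη0 := hA.eta_pos
  have hb : (1 : ℝ) ≤ (P.T j).b := by exact_mod_cast (P.T j).b_pos
  refine le_trans ?_ (alg3 b3 (m3 hp hA hm ty.l_pos ?_))
  · rw [mul_assoc, ← tot_mul_left (Φb P j Q Nr Y.K), ← tot_mul_left (Φb P j Q Nr Y.K)]
    refine tot_mono (B := Φb P j Q Nr Y.K)
      (fun φ hφ => by exact ⟨hφ.1, hφ.2.2, Or.inr (Or.inl hφ.2.1)⟩) fun φ hφ => ?_
    refine (Rf.en_aff (by linarith : 0 < p) ν l1 l2 (Q.isCompact_cell φ) h).1.trans ?_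
    have c1 : ((((P.T j).b * P.m j / 2⁻¹ ^ P.k₀ : ℝ≥0)) : ℝ≥0∞) =
        ENNReal.ofReal ((P.T j).b / P.a j) := by
      rw [← ENNReal.ofReal_coe_nnreal, Par.a, Par.η, div_div_eq_mul_div]
      push_cast
      rfl
    have c2 : ((((P.T j).b * 2⁻¹ ^ P.k₀ : ℝ≥0)) : ℝ≥0∞) = ENNReal.ofReal ((P.T j).b * P.η) := by
      rw [← ENNReal.ofReal_coe_nnreal, Par.η]
      push_cast
      rfl
    rw [c1, c2, show Q.dim φ = 3 from hφ.2.1, mul_comm (_ ^ p), mul_assoc, mul_assoc]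
    exact mul_le_mul_right (mul_le_mul_right (back (by linarith) ty _ _ _) _) _
  · rw [← ENNReal.ofReal_pow (by positivity)]
    refine ENNReal.ofReal_le_ofReal ?_
    have h0 : 0 ≤ ((P.T j).b * P.η) ^ 3 := by positivity
    linarith

end T3

end P073.Nr
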