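import Vale.Agent.P073Y.Nr.Sk3
import Vale.Agent.P073Y.Gd.Mean
import Vale.Agent.P073Z.ACC.Fin3
import Vale.Agent.P073Z.ACC.Det0

/-!
# The choice of the parameters of the types
-/

open Set Metric Topology Filter MeasureTheory
open scoped NNReal ENNReal

namespace P073.Nr

open P073.Top P073.Zn P073.M2
open P073.G2 (Maj mean_maj mean_grid mean_lines)
open P073.Mn (cst)

namespace Se

theorem small {c ε : ℝ≥0∞} (hc : c ≠ ⊤) (hε : 0 < ε) {a : ℝ} (ha : 0 < a) :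
    ∃ x : ℝ, 0 < x ∧ x ≤ a ∧ c * ENNReal.ofReal x ≤ ε := by
  obtain ⟨n, h1, h2⟩ := ENNReal.exists_nnreal_pos_mul_lt hc hε.ne'
  refine ⟨min n a, lt_min h1 ha, min_le_right _ _, le_trans ?_ h2.le⟩
  rw [mul_comm, ← ENNReal.ofReal_coe_nnreal (p := n)]
  exact mul_le_mul_left (ENNReal.ofReal_le_ofReal (min_le_left _ _)) _

theorem inv_le {x : ℝ} {n : ℕ} (hx : 0 < x) (h : x⁻¹ ≤ n) : (n : ℝ≥0∞)⁻¹ ≤ ENNReal.ofReal x := by
  rw [← inv_inv x, ENNReal.ofReal_inv_of_pos (inv_pos.2 hx), ← ENNReal.ofReal_natCast]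
  exact ENNReal.inv_le_inv.2 (ENNReal.ofReal_le_ofReal h)

theorem big {c ε : ℝ≥0∞} (hc : c ≠ ⊤) (hε : 0 < ε) :
    ∃ n : ℕ, 2 ≤ n ∧ c * (n : ℝ≥0∞)⁻¹ ≤ ε := by
  obtain ⟨x, h1, -, h2⟩ := small hc hε one_pos
  obtain ⟨n, hn⟩ := exists_nat_ge x⁻¹
  refine ⟨n + 2, by omega, (mul_le_mul_right (inv_le h1 (hn.trans ?_)) _).trans h2⟩
  exact_mod_cast Nat.le_add_right n 2

theorem exists_pos_le {n : ℕ} (x : Fin n → ℝ) (h : ∀ j, 0 < x j) : ∃ y, 0 < y ∧ ∀ j, y ≤ x j := by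
  have := (eventually_all.2 fun j => eventually_le_nhds (h j)).filter_mono
    (nhdsWithin_le_nhds (s := Ioi (0 : ℝ)))
  obtain ⟨y, h1, h2⟩ := (this.and self_mem_nhdsWithin).exists
  exact ⟨y, h2, h1⟩

theorem exists_nat_le {n : ℕ} (x : Fin n → ℝ) : ∃ k : ℕ, ∀ j, x j ≤ k := by
  obtain ⟨y, hy⟩ := (Set.finite_range x).bddAbove
  obtain ⟨k, hk⟩ := exists_nat_ge y
  exact ⟨k, fun j => (hy ⟨j, rfl⟩).trans hk⟩

/-- an integral over `U` from bounds on `K` and off `K` -/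
theorem int_le {U K : Set E3} (hK : MeasurableSet K) (hU : MeasurableSet U) {u v : E3 → ℝ≥0∞}
    {s c : ℝ≥0∞} (hc : c ≠ ⊤) (h1 : ∀ x ∈ K, u x ≤ s) (h2 : ∀ x, u x ≤ c * v x) :
    ∫⁻ x in U, u x ≤ s * volume U + c * ∫⁻ x in U \ K, v x := by
  rw [← lintegral_inter_add_sdiff u U hK, ← lintegral_const_mul' _ _ hc]
  refine add_le_add ((setLIntegral_mono' (hU.inter hK) fun x hx => h1 x hx.2).trans ?_)
    (lintegral_mono h2)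
  rw [setLIntegral_const]
  exact mul_le_mul_right (measure_mono inter_subset_left) _

theorem le_one_add {p : ℝ} (hp : 1 ≤ p) (x : ℝ≥0∞) : x ≤ 1 + x ^ p := by
  rcases le_total x 1 with h | h
  · exact h.trans le_self_add
  · exact (ENNReal.le_rpow_self_of_one_le h hp).trans le_add_self

/-- the price of the crude bounds -/
noncomputable def gam (p : ℝ) (b m : ℕ) (M a₁ a₂ a₃ a₄ : ℝ≥0∞) : ℝ≥0∞ :=
  a₁ * cst b m * (b + 3) + a₂ * (1 + (cst b m + 1) * (2 ^ p * (1 + (b : ℝ≥0∞) ^ p))) +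
    a₃ * (27 * M) + a₄

theorem gam_ne {p : ℝ} (hp : 0 ≤ p) (b m : ℕ) {M a₁ a₂ a₃ a₄ : ℝ≥0∞} (_ : M ≠ ⊤) (_ : a₁ ≠ ⊤)
    (_ : a₂ ≠ ⊤) (_ : a₃ ≠ ⊤) (_ : a₄ ≠ ⊤) : gam p b m M a₁ a₂ a₃ a₄ ≠ ⊤ := by
  unfold gam
  finiteness

/-- the error functional of one type -/
noncomputable def err (p : ℝ) (P : Par) (j : Fin P.N) (K Sl : Set E3) (F : E3 → (E3 →L[ℝ] E3))
    (δ' : ℝ) (a₁ a₂ a₃ a₄ : ℝ≥0∞) : ℝ≥0∞ :=
  a₁ * Maj P j K F δ' +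
    a₂ * (Lg P j F p + volume (P.U j \ K) + ∫⁻ x in P.U j, ‖F x - (P.T j).A‖ₑ ^ p) +
    a₃ * Lo P j K Sl F p + a₄ * ∫⁻ x in P.U j \ K, ‖F x‖ₑ ^ p

theorem mean_err {p : ℝ} (hp : 1 ≤ p) {Ω : Set E3} {P : Par} (hP : P.Ok Ω) (j : Fin P.N)
    {K Sl : Set E3} (hK : MeasurableSet K) {F : E3 → (E3 →L[ℝ] E3)} (hF : Measurable F)
    (hS : MeasurableSet Sl) {M : ℝ≥0} (hM : ∀ y, μH[1] (Sl ∩ closedBall y 1) ≤ M) {τ δ' : ℝ}
    (h0 : 0 < δ') (hδ : δ' ≤ τ) (hτ : τ ≤ 1) (hc : ∀ x ∈ K, ‖F x - (P.T j).A‖ ≤ τ)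
    (a₁ a₂ a₃ a₄ : ℝ≥0∞) :
    Mean 1 (fun w => err p (P.shift w) j K Sl F δ' a₁ a₂ a₃ a₄)
      ((a₁ * cst (P.T j).b (P.m j) * ((P.T j).b + 2) + a₂ * (cst (P.T j).b (P.m j) + 1)) *
        ENNReal.ofReal τ * volume (P.U j) + gam p (P.T j).b (P.m j) M a₁ a₂ a₃ a₄ *
          ∫⁻ x in P.U j \ K, (1 + ‖F x‖ₑ ^ p)) := by
  have hη : P.η ≤ 1 := pow_le_one₀ (by norm_num) (by norm_num)
  have hU : MeasurableSet (P.U j) := isOpen_thickening.measurableSet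
  have hp0 : 0 ≤ p := by linarith
  have h := ((((mean_maj P hP j hη hK hF h0).const_mul a₁).add
    ((((mean_grid P hP j hη hU (Det.meas_pow hF (P.T j).A p)).add
      (Mean.const (volume (P.U j \ K)))).add
      (Mean.const (∫⁻ x in P.U j, ‖F x - (P.T j).A‖ₑ ^ p))).const_mul a₂)).add
    ((mean_lines P.η_pos hη hS hM (hU.diff hK) (hF.enorm.pow_const p)).const_mul a₃)).add
    (Mean.const (a₄ * ∫⁻ x in P.U j \ K, ‖F x‖ₑ ^ p))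
  refine Mean.mono h ?_
  clear h
  set R := ∫⁻ x in P.U j \ K, (1 + ‖F x‖ₑ ^ p)
  set b : ℝ≥0∞ := ((P.T j).b : ℝ≥0∞)
  have hA : ‖(P.T j).A‖ₑ ≤ b := by
    rw [← ofReal_norm, show b = ENNReal.ofReal (P.T j).b from (ENNReal.ofReal_natCast _).symm]
    exact ENNReal.ofReal_le_ofReal (P.T j).normA
  have hc' : ∀ x ∈ K, ‖F x - (P.T j).A‖ₑ ≤ ENNReal.ofReal τ := fun x hx => by
    rw [← ofReal_norm]
    exact ENNReal.ofReal_le_ofReal (hc x hx)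
  have t1 : ENNReal.ofReal τ ≤ 1 := ENNReal.ofReal_le_one.2 hτ
  have r1 : volume (P.U j \ K) ≤ R := by
    rw [← setLIntegral_one]
    exact lintegral_mono fun x => le_self_add
  have r2 : ∫⁻ x in P.U j \ K, ‖F x‖ₑ ^ p ≤ R := lintegral_mono fun x => le_add_self
  have r3 : ∫⁻ x in P.U j, ‖F x - (P.T j).A‖ₑ ^ p ≤
      ENNReal.ofReal τ * volume (P.U j) + 2 ^ p * (1 + b ^ p) * R := by
    refine int_le hK hU (by finiteness) (fun x hx => ?_) fun x => ?_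
    · exact (ENNReal.rpow_le_rpow (hc' x hx) hp0).trans (ENNReal.rpow_le_self_of_le_one t1 hp)
    · refine (Det.enorm_sub_rpow_le hp _ _ 0).trans ?_
      rw [sub_zero, sub_zero, mul_assoc]
      refine mul_le_mul_right ((add_le_add le_rfl (ENNReal.rpow_le_rpow hA hp0)).trans ?_) _
      rw [add_mul, one_mul, mul_add, mul_one]
      exact add_le_add le_add_self le_self_add
  have r4 : ∫⁻ x in P.U j, ‖F x - (P.T j).A‖ₑ ≤
      ENNReal.ofReal τ * volume (P.U j) + (1 + b) * R := by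
    refine int_le hK hU (by finiteness) hc' fun x => ?_
    refine enorm_sub_le.trans ((add_le_add (le_one_add hp _) hA).trans ?_)
    rw [add_mul, one_mul, mul_add, mul_one]
    exact add_le_add le_rfl le_self_add
  have r5 : ∫⁻ x in P.U j, ‖F x‖ₑ ≤ (1 + b) * volume (P.U j) + 1 * R := by
    refine int_le hK hU ENNReal.one_ne_top (fun x hx => ?_) fun x => ?_
    · rw [← sub_add_cancel (F x) (P.T j).A]
      exact (enorm_add_le (F x - (P.T j).A) (P.T j).A).trans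
        (add_le_add ((hc' x hx).trans t1) hA)
    · rw [one_mul]
      exact le_one_add hp _
  have r6 : ENNReal.ofReal δ' * ∫⁻ x in P.U j, ‖F x‖ₑ ≤
      ENNReal.ofReal τ * ((1 + b) * volume (P.U j)) + R := by
    refine (mul_le_mul' (ENNReal.ofReal_le_ofReal hδ) r5).trans ?_
    rw [mul_add, one_mul]
    exact add_le_add le_rfl (mul_le_of_le_one_left' t1)
  refine le_trans (add_le_add (add_le_add (add_le_add (mul_le_mul_right (mul_le_mul_right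
    (add_le_add (add_le_add r1 r4) r6) _) _) (mul_le_mul_right (add_le_add (add_le_add
    (mul_le_mul_right r3 _) r1) r3) _)) (mul_le_mul_right (mul_le_mul_right r2 _) _))
    (mul_le_mul_right r2 _)) (le_of_eq ?_)
  unfold gam
  ring

/-- the numbers -/
theorem sel (c₁ g₁ : ℕ → ℝ≥0) (c₂ : ℕ → ℝ → ℝ≥0) (c₃ : ℕ → ℝ → ℕ → ℝ → ℝ≥0)
    (c₄ : ℕ → ℝ → ℕ → ℝ → ℕ → ℝ≥0) (g₂ : ℕ → ℕ → ℝ≥0) {τ₁ : ℝ} (C : ℝ) {ε : ℝ≥0∞} (hε : 0 < ε)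
    (hτ : 0 < τ₁) (b : ℕ) : ∃ (θ t τ : ℝ) (N m : ℕ), 0 < t ∧ t ≤ θ ∧ θ ≤ 1 / 1000 ∧ 0 < τ ∧
    τ ≤ τ₁ ∧ 2 ≤ N ∧ 2 ≤ m ∧ c₁ b * ENNReal.ofReal θ ≤ ε ∧ c₂ b θ * ENNReal.ofReal (3 * t) ≤ ε ∧
    c₂ b θ * 10 * (N : ℝ≥0∞)⁻¹ ≤ ε ∧ c₃ b θ N t * (m : ℝ≥0∞)⁻¹ ≤ ε ∧
    (c₃ b θ N t * g₁ b * (ENNReal.ofReal C + 1) + (c₃ b θ N t * g₂ b m * cst b m * (b + 2) +
      c₄ b θ N t m * (cst b m + 1))) * ENNReal.ofReal τ ≤ ε := by
  obtain ⟨θ, a1, a2, a3⟩ := small (c := c₁ b) ENNReal.coe_ne_top hε (a := 1 / 1000) (by norm_num)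
  obtain ⟨t, b1, b2, b3⟩ := small (c := c₂ b θ * 3) (by finiteness) hε a1
  obtain ⟨N, d1, d2⟩ := big (c := c₂ b θ * 10) (by finiteness) hε
  obtain ⟨m, e1, e2⟩ := big (c := c₃ b θ N t) ENNReal.coe_ne_top hε
  obtain ⟨τ, f1, f2, f3⟩ := small (c := c₃ b θ N t * g₁ b * (ENNReal.ofReal C + 1) +
    (c₃ b θ N t * g₂ b m * cst b m * (b + 2) + c₄ b θ N t m * (cst b m + 1))) (by finiteness) hε hτ
  refine ⟨θ, t, τ, N, m, b1, b2, a2, f1, f2, d1, e1, a3, ?_, d2, e2, f3⟩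
  rwa [ENNReal.ofReal_mul (by norm_num), ENNReal.ofReal_ofNat, ← mul_assoc]

end Se

end P073.Nr
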