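import Vale.Agent.P073Y.Nr.Sk

/-!
# The accounting near the types: intermediate statements
-/

open Set Metric Topology Filter MeasureTheory
open scoped NNReal ENNReal

namespace P073.Nr

open P073.Top P073.Zn P073.M2 P073.Ln
open P073.G2 (Fine1)
open Vale.Agent.P073.HB (GoodSeg)

variable {Ω : Set E3}

/-- the lattice structure of the complex near the type `j` -/
structure Latt (P : Par) (j : Fin P.N) (Q : RCx E3) (ν : E3 ≃ᴬ[ℝ] E3) (Sl : Set E3)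
    (M₀ Mt : ℝ≥0) : Prop where
  box : ∀ z ∈ P.Buf j, ∀ J, ∃ c, ν '' Q.cell c = uface z J ∧ Q.dim c = 3 - J.card ∧
    Q.cell c ⊆ P.cube j z
  seg : ∀ z ∈ P.Buf j, ∀ z' l, segment ℝ (vt z') (nx z' l) ⊆ ucube z →
    ∃ w, Q.dim w = 1 ∧ ν '' Q.cell w = segment ℝ (vt z') (nx z' l) ∧ Q.cell w ⊆ P.cube j z
  vtx : ∀ z ∈ P.Buf j, ∀ z', vt z' ∈ ucube z → ∃ v, Q.cell v = {ν.symm (vt z')}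
  edge : ∀ e, Q.dim e = 1 → Q.cell e ⊆ P.BufSet j →
    ∃ z k, ν '' Q.cell e = segment ℝ (vt z) (nx z k)
  fin : {c | Q.cell c ⊆ P.U j}.Finite
  one_le : 1 ≤ M₀ ∧ M₀ ≤ Mt
  faces : ∀ c, Q.cell c ⊆ P.U j → ({l | Q.cell l ⊆ Q.cell c}.encard : ℝ≥0∞) ≤ Mt
  faces_buf : ∀ c, Q.cell c ⊆ P.BufSet j → ({l | Q.cell l ⊆ Q.cell c}.encard : ℝ≥0∞) ≤ M₀
  cof : ∀ e, ({c | Q.cell e ⊆ Q.cell c}.encard : ℝ≥0∞) ≤ M₀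
  cubes : ∀ c, ({z | z ∈ P.Buf j ∧ Q.cell c ⊆ P.cube j z}.encard : ℝ≥0∞) ≤ M₀
  count : ({c | Q.cell c ⊆ P.BufSet j}.encard : ℝ≥0∞) ≤ M₀ * (P.Buf j).encard
  grid : ∀ u : E3 → ℝ≥0∞, tot {e | Q.dim e = 1 ∧ Q.cell e ⊆ P.BufSet j}
    (fun e => ∫⁻ x in Q.cell e, u x ∂(μH[1])) ≤
      ∫⁻ x in {x ∈ P.U j | P.nu j x ∈ gridLines}, u x ∂(μH[1])
  lines : ∀ (K : Set E3) (u : E3 → ℝ≥0∞), tot {e | Q.dim e = 1 ∧ Q.cell e ⊆ P.U j \ K}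
    (fun e => ∫⁻ x in Q.cell e, u x ∂(μH[1])) ≤
      ∫⁻ x in {x ∈ P.U j \ K | P.η⁻¹ • (x - P.w) ∈ Sl}, u x ∂(μH[1])

/-- lattice segments -/
def SIDE : Prop := (∀ z z' l I, segment ℝ (vt z') (nx z' l) ⊆ uface z I →
    l ∉ I ∧ (∀ i, |z' i - z i| ≤ 1) ∧ ∀ i ∈ I, z' i = z i) ∧
  (∀ z l, μH[1] (segment ℝ (vt z) (nx z l)) ≤ 1 ∧ edist (vt z) (nx z l) = 1) ∧
  (∀ z I, uface z I ⊆ ucube z) ∧ ∀ I z z', uface z I = uface z' I → z = z'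

def LATT : Prop := ∀ {Ω : Set E3} {P : Par} {σ : E3 → ℝ} {𝓒 : Set (ℕ × (Fin 3 → ℤ))} {M₀ : ℝ≥0}
  {Mt : Ty → ℕ → ℝ≥0} {S₀ : Set E3} {Sl : Ty → ℕ → Set E3} (𝓜 : Mesh2 Ω P σ 𝓒 M₀ Mt S₀ Sl)
  (j : Fin P.N), IsOpen Ω → P.Ok Ω → 1 ≤ M₀ → (∀ T m, M₀ ≤ Mt T m) →
  Latt P j 𝓜.Q (𝓜.ν j) (Sl (P.T j) (P.m j)) M₀ (Mt (P.T j) (P.m j))

/-- the energies on the boxes of a buffer cube after refilling -/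
def TOPB : Prop := ∀ {Ω : Set E3} {P : Par} {j : Fin P.N} {Q : RCx E3} {ν : E3 ≃ᴬ[ℝ] E3}
  {Sl : Set E3} {M₀ Mt : ℝ≥0} {p : ℝ} {M₃ δ : ℝ≥0∞} {h h' : E3 → E3}, 0 < p → IsOpen Ω → P.Ok Ω →
  Latt P j Q ν Sl M₀ Mt → (∀ u ∈ Q.skel 2 ∩ P.BufSet j, h' u = h u) →
  (∀ c, Q.dim c = 3 → Q.cell c ⊆ P.BufSet j →
    En 3 p (h' ∘ ν.symm) (ν '' Q.cell c) ≤ M₃ * En 2 p (h ∘ ν.symm) (ν '' Q.bd c) + δ) →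
  ∀ z ∈ P.Buf j, ∀ J : Finset (Fin 3),
    (J.card ≤ 1 → En (3 - J.card) p (h' ∘ ν.symm) (uface z J) ≤
      (M₃ + 1) * tot {c | Q.dim c = 2 ∧ Q.cell c ⊆ P.cube j z}
        (fun c => En 2 p (h ∘ ν.symm) (ν '' Q.cell c)) + δ) ∧
    (J.card ≤ 2 → En (3 - J.card) p (h' ∘ ν.symm) (uface z J) ≤
      (M₃ + 1) * tot {c | (Q.dim c = 2 ∨ Q.dim c = 1) ∧ Q.cell c ⊆ P.cube j z}
        (fun c => En (Q.dim c) p (h ∘ ν.symm) (ν '' Q.cell c)) + δ) ∧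
    (1 ≤ J.card → EqOn (h' ∘ ν.symm) (h ∘ ν.symm) (uface z J))

/-- the speeds on the wires; `gt` is the map in normalised coordinates -/
structure Spd (p : ℝ) (P : Par) (j : Fin P.N) (Q : RCx E3) (ν : E3 ≃ᴬ[ℝ] E3)
    (F : E3 → (E3 →L[ℝ] E3)) (N : ℕ) (t l : ℝ) (gt : E3 → E3) (c₃ c₄ δ : ℝ≥0∞)
    (X : (Fin 3 → ℤ) → Fin 3 → ℝ≥0∞) : Prop where
  near : ∀ e, Q.dim e = 1 → Q.cell e ⊆ P.U j → lipc (vst N t ∘ gt) (ν '' Q.cell e) ^ p ≤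
    c₄ * ENNReal.ofReal l⁻¹ ^ p *
      (ENNReal.ofReal P.η ^ (p - 1) * (∫⁻ x in Q.cell e, ‖F x‖ₑ ^ p ∂(μH[1])) + δ)
  buf : ∀ e, Q.dim e = 1 → Q.cell e ⊆ P.BufSet j → lipc (vst N t ∘ gt) (ν '' Q.cell e) ^ p ≤
    c₃ * ENNReal.ofReal l⁻¹ ^ p * (ENNReal.ofReal (P.a j) ^ p + ENNReal.ofReal P.η ^ (p - 1) *
      (∫⁻ x in Q.cell e, ‖F x - (P.T j).A‖ₑ ^ p ∂(μH[1])) + δ)
  dev : ∀ z ∈ P.Inner j, ∀ k ∉ (P.T j).I, Dev (P.a j / l) gt (vt z) (nx z k) k (X z k)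
  fine : ∀ z ∈ P.Inner j, ∀ k ∉ (P.T j).I, ∀ e, Q.dim e = 1 →
    ν '' Q.cell e = segment ℝ (vt z) (nx z k) → lipc (vst N t ∘ gt) (ν '' Q.cell e) ^ p ≤
      2 ^ p * ENNReal.ofReal (P.a j / l) ^ p +
      c₃ * (ENNReal.ofReal (P.a j / l) ^ p * (ENNReal.ofReal (P.a j / l))⁻¹ * X z k +
        ENNReal.ofReal l⁻¹ ^ p * (ENNReal.ofReal P.η ^ (p - 1) *
          (∫⁻ x in Q.cell e, ‖F x - (P.T j).A‖ₑ ^ p ∂(μH[1])) + δ))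

/-- the speeds of the map `g₀ ∘ Θ` -/
def SPEED (p : ℝ) : Prop := ∀ (K₂ : ℝ≥0) (cb : ℕ → ℝ≥0) (Mt : Ty → ℕ → ℝ≥0),
  ∃ (c₃ : ℕ → ℕ → ℝ → ℝ≥0∞) (c₄ : Ty → ℕ → ℝ → ℕ → ℝ≥0∞), (∀ b N t, c₃ b N t ≠ ⊤) ∧
    (∀ T N t m, c₄ T N t m ≠ ⊤) ∧
  ∀ {Ω : Set E3} {f g₀ Θ g : E3 → E3} {F : E3 → (E3 →L[ℝ] E3)} {P : Par} {σ : E3 → ℝ}
    {𝓒 : Set (ℕ × (Fin 3 → ℤ))} {M₀ : ℝ≥0} {S₀ : Set E3} {Sl : Ty → ℕ → Set E3}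
    (𝓜 : Mesh2 Ω P σ 𝓒 M₀ Mt S₀ Sl) (j : Fin P.N) (Y : TyZ Ω f) {l Λ o : ℝ} {T : E3 ≃ᴬ[ℝ] E3}
    {Pw : 𝓜.Q.ι → (E3 ≃L[ℝ] E3)} {Ξ : Fin P.N → ℝ≥0∞} {δ : ℝ≥0∞},
  IsOpen Ω → P.Ok Ω → (∀ T m, M₀ ≤ Mt T m) → Measurable F → δ ≤ 1 →
  (∀ e x y, 𝓜.Q'.dim e = 1 → 𝓜.Q'.cell e = segment ℝ x y → GoodSeg f F x (y - x)) →
  Latt P j 𝓜.Q (𝓜.ν j) (Sl (P.T j) (P.m j)) M₀ (Mt (P.T j) (P.m j)) →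
  Typ P j Y (cb (P.T j).b) l Λ o T →
  (∀ e, 𝓜.Q.cell e ⊆ Fine1 P j → ∀ y, Pw e y = vst Y.N Y.t (Y.Bm y)) →
  (∀ e, 𝓜.Q.cell e ⊆ P.U j → ¬ 𝓜.Q.cell e ⊆ Fine1 P j →
    Pw e = ContinuousLinearEquiv.refl ℝ E3) →
  (∀ x, g x = g₀ (Θ x)) → Pre P 𝓜.Q 𝓜.Q' f g₀ Θ K₂ Pw 𝓜.ν Ξ δ →
  ∃ X, Spd p P j 𝓜.Q (𝓜.ν j) F Y.N Y.t l (T ∘ g ∘ (𝓜.ν j).symm) (c₃ (P.T j).b Y.N Y.t)
      (c₄ (P.T j) Y.N Y.t (P.m j)) δ X ∧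
    ∀ W : Finset (Fin 3 → ℤ), (W : Set (Fin 3 → ℤ)) ⊆ P.Inner j →
      P.vol j * ∑ z ∈ W, ∑ k ∈ (P.T j).Iᶜ, X z k ≤
        ENNReal.ofReal (cb (P.T j).b / l) * (ENNReal.ofReal (P.a j) * Ξ j + P.vol j * δ)

/-- the cubes which meet `K` -/
def Vs (P : Par) (j : Fin P.N) (K : Set E3) : Set (Fin 3 → ℤ) :=
  {z | ∃ x ∈ K, P.nu j x ∈ ucube z}

/-- their bottom cells -/
def Φ₀ (P : Par) (j : Fin P.N) (Q : RCx E3) (ν : E3 ≃ᴬ[ℝ] E3) (K : Set E3) : Set Q.ι :=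
  {c | ∃ z ∈ Vs P j K, ν '' Q.cell c = uface z (P.T j).I}

/-- the faces in the buffer -/
def Φ₂ (P : Par) (j : Fin P.N) (Q : RCx E3) : Set Q.ι := {c | Q.dim c = 2 ∧ Q.cell c ⊆ P.BufSet j}

/-- the near faces and the buffer wires off `K` -/
def Φ₃ (P : Par) (j : Fin P.N) (Q : RCx E3) (Nr : Set Q.ι) (K : Set E3) : Set Q.ι :=
  {c | c ∈ Nr ∧ Disjoint (Q.cell c) K ∧ (Q.dim c = 2 ∨ (Q.dim c = 1 ∧ Q.cell c ⊆ P.BufSet j))}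

/-- the four families of weights -/
noncomputable def wts (P : Par) (j : Fin P.N) (Q : RCx E3) (ν : E3 ≃ᴬ[ℝ] E3) (Nr : Set Q.ι)
    (K : Set E3) (ω : Q.ι → ℝ≥0∞) : Fin 4 → Q.ι → ℝ≥0∞ :=
  ![(Φ₀ P j Q ν K).indicator 1, (Φ₀ P j Q ν K).indicator ω, (Φ₂ P j Q).indicator ω,
    (Φ₃ P j Q Nr K).indicator ω]

/-- the result of the batches near the type `j` -/
structure Res (p c₀ θ ϑ e : ℝ) (C : ℝ≥0) (CM : ℝ≥0 → ℝ≥0) (P : Par) (j : Fin P.N) {S : Src Ω}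
    {ν : E3 ≃ᴬ[ℝ] E3} (n : Nrm S ν) (Nr : Set S.Q.ι) (K : Set E3) (N : ℕ) (t a : ℝ)
    (gt ht : E3 → E3) (η : ℝ≥0∞) : Prop where
  ex : ∃ B c k, (∀ φ ∈ Nr, ∀ u ∈ n.src.Q.cell φ, ∃ z, nbr 1 {z} ⊆ B ∧ gt u ∈ lbox N 0 z) ∧
    NearOut p c₀ θ ϑ e C CM n.src N t B gt ht Nr η
      {φ | Marked n.src gt θ φ (psi n.src φ) (a / 2)} (psi n.src) (fun _ => a / 2)
      (wts P j S.Q ν Nr K (om p CM n.src (vst N t ∘ gt))) c k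

/-- the faces of the buffer, and the cells off `K` -/
def SUM23 (p : ℝ) : Prop := ∀ (C M₀ M₁ : ℝ≥0) (CM : ℝ≥0 → ℝ≥0),
  ∃ (d₃ : ℝ≥0∞) (d₄ : ℝ≥0 → ℝ≥0 → ℝ≥0∞), d₃ ≠ ⊤ ∧ (∀ Mt M₂, d₄ Mt M₂ ≠ ⊤) ∧
  ∀ {Ω : Set E3} {P : Par} {j : Fin P.N} {S : Src Ω} {ν : E3 ≃ᴬ[ℝ] E3} (n : Nrm S ν)
    {Nr : Set S.Q.ι} {K Sl : Set E3} {Mt M₂ : ℝ≥0} {F : E3 → (E3 →L[ℝ] E3)}
    {c₀ θ ϑ e t l a : ℝ} {N : ℕ} {gt ht : E3 → E3} {c₃ c₄ δ η : ℝ≥0∞}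
    {X : (Fin 3 → ℤ) → Fin 3 → ℝ≥0∞}, IsOpen Ω → P.Ok Ω → t ≤ 1 → η ≤ δ → δ ≤ 1 →
  Latt P j S.Q ν Sl M₀ Mt → Nea P j S n Nr M₁ M₂ → Spd p P j S.Q ν F N t l gt c₃ c₄ δ X →
  Res p c₀ θ ϑ e C CM P j n Nr K N t a gt ht η →
  tot (Φ₂ P j S.Q) (fun c => En 2 p ht (ν '' S.Q.cell c)) ≤
    d₃ * (c₃ * ENNReal.ofReal l⁻¹ ^ p * (ENNReal.ofReal (P.a j) ^ p * (P.Buf j).encard +
      ENNReal.ofReal P.η ^ (p - 1) *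
        ∫⁻ x in {x ∈ P.U j | P.nu j x ∈ gridLines}, ‖F x - (P.T j).A‖ₑ ^ p ∂(μH[1])) +
      (1 + c₃ * ENNReal.ofReal l⁻¹ ^ p) * {c | S.Q.cell c ⊆ P.U j}.encard * δ) ∧
  tot (Φ₃ P j S.Q Nr K) (fun c => En (S.Q.dim c) p ht (ν '' S.Q.cell c)) ≤
    d₄ Mt M₂ * (c₄ * ENNReal.ofReal l⁻¹ ^ p * ENNReal.ofReal P.η ^ (p - 1) *
        (∫⁻ x in {x ∈ P.U j \ K | P.η⁻¹ • (x - P.w) ∈ Sl}, ‖F x‖ₑ ^ p ∂(μH[1])) +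
      (1 + c₄ * ENNReal.ofReal l⁻¹ ^ p) * {c | S.Q.cell c ⊆ P.U j}.encard * δ)

open Classical in
/-- the bottom cells of the cubes which meet `K` -/
def SUM1 (p : ℝ) : Prop := ∀ (C M₀ M₁ : ℝ≥0) (CM : ℝ≥0 → ℝ≥0) (c₀ θ : ℝ), 1 ≤ c₀ → 0 < θ →
  θ ≤ 1 / 1000 → ∃ d : ℝ≥0∞, d ≠ ⊤ ∧
  ∀ {Ω : Set E3} {f : E3 → E3} {P : Par} {j : Fin P.N} {S : Src Ω} {ν : E3 ≃ᴬ[ℝ] E3}
    (n : Nrm S ν) {Nr : Set S.Q.ι} {Sl : Set E3} {Mt M₂ cb : ℝ≥0} {F : E3 → (E3 →L[ℝ] E3)}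
    (Y : TyZ Ω f) {e l Λ o : ℝ} {T : E3 ≃ᴬ[ℝ] E3} {gt ht : E3 → E3} {c₃ c₄ δ η : ℝ≥0∞}
    {X : (Fin 3 → ℤ) → Fin 3 → ℝ≥0∞} (W V : Finset (Fin 3 → ℤ)), IsOpen Ω → P.Ok Ω →
  (∀ x, ν x = P.nu j x) → Y.θ = θ → 0 ≤ e → η ≤ δ → δ ≤ 1 →
  δ ≤ ENNReal.ofReal (θ * (P.a j / l)) → (W : Set (Fin 3 → ℤ)) = P.Inner j →
  (V : Set (Fin 3 → ℤ)) = Vs P j Y.K →
  Latt P j S.Q ν Sl M₀ Mt → Nea P j S n Nr M₁ M₂ → Typ P j Y cb l Λ o T →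
  Spd p P j S.Q ν F Y.N Y.t l gt c₃ c₄ δ X →
  Res p c₀ θ Y.ϑ e C CM P j n Nr Y.K Y.N Y.t (P.a j / l) gt ht η →
  (∀ z ∈ P.Buf j, ∀ ξ ∈ ucube z, ∀ y ∈ P.cube j z, dist (gt ξ) (T (f y)) ≤ o) →
  P.vol j * ∑ z ∈ V, En (3 - (P.T j).I.card) p
      (fun ξ => ht ξ - ((P.a j / l) • dgs (P.T j).I 0) ξ) (uface z (P.T j).I) ≤
    ENNReal.ofReal (P.a j / l) ^ p * (ENNReal.ofReal (θ * (c₀ + 40) ^ p) * volume (P.U j) +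
      d * (ENNReal.ofReal (Y.t + Y.ϑ + e / Λ) * volume (P.U j) +
        volume {x ∈ Y.K | T (f x) ∈ strips Y.N} + volume (P.U j \ Y.K))) +
    d * (1 + c₃) * P.vol j * (ENNReal.ofReal (P.a j / l) ^ p * (ENNReal.ofReal (P.a j / l))⁻¹ *
        ∑ z ∈ W, ∑ k ∈ (P.T j).Iᶜ, X z k +
      ENNReal.ofReal l⁻¹ ^ p * ENNReal.ofReal P.η ^ (p - 1) *
        (∫⁻ x in {x ∈ P.U j | P.nu j x ∈ gridLines}, ‖F x - (P.T j).A‖ₑ ^ p ∂(μH[1])) +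
      (1 + ENNReal.ofReal l⁻¹ ^ p +
        ENNReal.ofReal (P.a j / l) ^ p * (ENNReal.ofReal (P.a j / l))⁻¹) *
        {c | S.Q.cell c ⊆ P.U j}.encard * δ)

end P073.Nr
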