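import Vale.Agent.P073Y.Nr.One3
import Vale.Agent.P073Y.Nr.Sum23
import Vale.Agent.P073Y.Nr.Trans

/-!
# The near cells of dimension three
-/

open Set Metric Topology Filter MeasureTheory
open scoped NNReal ENNReal

namespace P073.Nr

open P073.Top P073.Zn P073.M2 P073.Ln Sm S2

namespace T3

theorem chart_meas {C B : Set E3} {M₁ M₂ : ℝ≥0} (h : Bd.Chart 3 C B M₁ M₂) :
    μH[((3 : ℕ) : ℝ)] C ≤ (M₂ : ℝ≥0∞) ^ 3 * 2 ^ 3 := by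
  obtain ⟨-, φ, -, -, h2⟩ := h
  have h4 := h2.hausdorffMeasure_image_le (Nat.cast_nonneg 3)
  have e1 : φ.invFun '' closedBall 0 1 = C := φ.symm.image_eq
  have := hausdorffMeasure_pi_real (ι := Fin 3)
  rw [Fintype.card_fin] at this
  rw [this]
  rwa [e1, this, Real.volume_pi_closedBall _ zero_le_one, Fintype.card_fin, mul_one,
    ENNReal.ofReal_pow zero_le_two, ENNReal.ofReal_ofNat, ENNReal.rpow_natCast] at h4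

theorem A_pow {Ω : Set E3} (S : Src Ω) (g : E3 → E3) (c : S.Q.ι) {p : ℝ} {M : ℝ≥0∞} (hp : 0 < p)
    (hw : ((wires S c).encard : ℝ≥0∞) ≤ M) :
    S.A g c ^ p ≤ M ^ p * tot (wires S c) fun e => lipc g (S.Q.cell e) ^ p := by
  have h1 : S.A g c ≤ M * (tot (wires S c) fun e => lipc g (S.Q.cell e) ^ p) ^ p⁻¹ := by
    rw [A_eq]
    exact (tot_le_const fun e he => (ENNReal.le_rpow_inv_iff hp).2
      (le_tot he fun e => lipc g (S.Q.cell e) ^ p)).trans (mul_le_mul_left hw _)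
  have h2 := ENNReal.rpow_le_rpow h1 hp.le
  rwa [ENNReal.mul_rpow_of_nonneg _ _ hp.le, ENNReal.rpow_inv_rpow hp.ne'] at h2

theorem core3 {p : ℝ} (hp : 1 ≤ p) {Ω : Set E3} {S : Src Ω} {CM : ℝ≥0 → ℝ≥0} {G h : E3 → E3}
    {η : ℝ≥0∞} (hη : η ≤ 1) {Φ W : Set S.Q.ι} {κ M M₀ : ℝ≥0∞}
    (hΦ : ∀ c ∈ Φ, S.Q.dim c = 3 ∧ lipc h (S.Q.cell c) ≤ CM (S.M c) * S.A G c + η ∧ S.r c ≤ 1 ∧
      (CM (S.M c) : ℝ≥0∞) + S.M c ≤ κ ∧ ((wires S c).encard : ℝ≥0∞) ≤ M ∧ wires S c ⊆ W)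
    (hc : ∀ e, ({c | S.Q.cell e ⊆ S.Q.cell c}.encard : ℝ≥0∞) ≤ M₀) :
    tot Φ (fun c => En (S.Q.dim c) p h (S.Q.cell c)) ≤
      κ ^ 3 * 2 ^ 3 * 2 ^ p * (κ ^ p * M ^ p * M₀ *
        tot W (fun e => lipc G (S.Q.cell e) ^ p) + Φ.encard * η) := by
  have hp0 : 0 < p := by linarith
  have h1 : ∀ c ∈ Φ, En (S.Q.dim c) p h (S.Q.cell c) ≤ κ ^ 3 * 2 ^ 3 * 2 ^ p *
      (κ ^ p * M ^ p * tot (wires S c) (fun e => lipc G (S.Q.cell e) ^ p) + η) := by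
    intro c hc
    obtain ⟨a1, a2, a3, a4, a5, -⟩ := hΦ c hc
    have a6 := S.chart c (by omega)
    rw [a1] at a6 ⊢
    refine (en_le_lipc 3 hp0.le h (S.Q.isClosed_cell c).measurableSet).trans ?_
    rw [mul_comm, mul_assoc _ (2 ^ p)]
    refine mul_le_mul' ((chart_meas a6).trans (mul_le_mul_left (pow_le_pow_left' ?_ 3) _))
      ((ENNReal.rpow_le_rpow a2 hp0.le).trans ((add_rpow_le hp _ _).trans (mul_le_mul_right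
        (add_le_add ?_ (ENNReal.rpow_le_self_of_le_one hη hp)) _)))
    · exact (ENNReal.coe_le_coe.2 (mul_le_of_le_one_right' a3)).trans (le_add_self.trans a4)
    · rw [ENNReal.mul_rpow_of_nonneg _ _ hp0.le, mul_assoc]
      exact mul_le_mul' (ENNReal.rpow_le_rpow (le_self_add.trans a4) hp0.le) (A_pow S G c hp0 a5)
  refine (tot_mono_fun h1).trans ?_
  rw [tot_mul_left, tot_add, tot_const, tot_mul_left, mul_assoc _ M₀]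
  exact mul_le_mul_right (add_le_add_left (mul_le_mul_right (dbl (fun φ e => e ∈ wires S φ) Φ W _ M₀
    (fun φ hφ e he => (hΦ φ hφ).2.2.2.2.2 he)
    fun e _ => (card_le fun φ hφ => hφ.2.2).trans (hc e)) _) _) _

/-- the sums over the near cells -/
theorem sum3 {p : ℝ} (hp : 1 ≤ p) (h23 : SUM23 p) (C M₀ M₁ : ℝ≥0) (CM : ℝ≥0 → ℝ≥0) :
    ∃ (d₃ : ℝ≥0∞) (d₄ : ℝ≥0 → ℝ≥0 → ℝ≥0∞), d₃ ≠ ⊤ ∧ (∀ Mt M₂, d₄ Mt M₂ ≠ ⊤) ∧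
    ∀ {Ω : Set E3} {P : Par} {j : Fin P.N} {S : Src Ω} {ν : E3 ≃ᴬ[ℝ] E3} (n : Nrm S ν)
      {Nr : Set S.Q.ι} {K Sl : Set E3} {Mt M₂ : ℝ≥0} {F : E3 → (E3 →L[ℝ] E3)}
      {c₀ θ ϑ e t l a : ℝ} {N : ℕ} {gt ht : E3 → E3} {c₃ c₄ δ η : ℝ≥0∞}
      {X : (Fin 3 → ℤ) → Fin 3 → ℝ≥0∞}, IsOpen Ω → P.Ok Ω → t ≤ 1 → η ≤ δ → δ ≤ 1 →
    Latt P j S.Q ν Sl M₀ Mt → Nea P j S n Nr M₁ M₂ → Spd p P j S.Q ν F N t l gt c₃ c₄ δ X →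
    Res p c₀ θ ϑ e C CM P j n Nr K N t a gt ht η →
    (∀ c ∈ Nr, S.Q.dim c = 3 →
      lipc ht (ν '' S.Q.cell c) ≤ CM (n.M c) * n.src.A (vst N t ∘ gt) c + η) →
    tot (Φa P j S.Q) (fun c => En (S.Q.dim c) p ht (ν '' S.Q.cell c)) ≤
      d₃ * (c₃ * ENNReal.ofReal l⁻¹ ^ p * (ENNReal.ofReal (P.a j) ^ p * (P.Buf j).encard +
        ENNReal.ofReal P.η ^ (p - 1) *
          ∫⁻ x in {x ∈ P.U j | P.nu j x ∈ gridLines}, ‖F x - (P.T j).A‖ₑ ^ p ∂(μH[1])) +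
        (1 + c₃ * ENNReal.ofReal l⁻¹ ^ p) * {c | S.Q.cell c ⊆ P.U j}.encard * δ) ∧
    tot (Φb P j S.Q Nr K) (fun c => En (S.Q.dim c) p ht (ν '' S.Q.cell c)) ≤
      d₄ Mt M₂ * (c₄ * ENNReal.ofReal l⁻¹ ^ p * ENNReal.ofReal P.η ^ (p - 1) *
          (∫⁻ x in {x ∈ P.U j \ K | P.η⁻¹ • (x - P.w) ∈ Sl}, ‖F x‖ₑ ^ p ∂(μH[1])) +
        (1 + c₄ * ENNReal.ofReal l⁻¹ ^ p) * {c | S.Q.cell c ⊆ P.U j}.encard * δ) := by
  obtain ⟨d₃, d₄, f₃, f₄, h23⟩ := h23 C M₀ M₁ CM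
  have hp0 : 0 ≤ p := zero_le_one.trans hp
  have hf : ∀ x : ℝ≥0, (x : ℝ≥0∞) ^ p ≠ ⊤ := fun x =>
    ENNReal.rpow_ne_top_of_nonneg hp0 ENNReal.coe_ne_top
  have h2 : (2 : ℝ≥0∞) ^ p ≠ ⊤ := ENNReal.rpow_ne_top_of_nonneg hp0 ENNReal.ofNat_ne_top
  refine ⟨d₃ + (CM M₁ + M₁ : ℝ≥0) ^ 3 * 2 ^ 3 * 2 ^ p *
      ((CM M₁ + M₁ : ℝ≥0) ^ p * M₀ ^ p * M₀ * M₀ + 1),
    fun Mt M₂ => d₄ Mt M₂ + (CM M₁ + M₁ + (CM M₂ + M₂) : ℝ≥0) ^ 3 * 2 ^ 3 * 2 ^ p *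
      ((CM M₁ + M₁ + (CM M₂ + M₂) : ℝ≥0) ^ p * Mt ^ p * M₀ + 1),
    by have := hf (CM M₁ + M₁); have := hf M₀; finiteness, fun Mt M₂ => by
      have := hf (CM M₁ + M₁ + (CM M₂ + M₂)); have := hf Mt; have := f₄ Mt M₂; finiteness, ?_⟩
  intro Ω P j S ν n Nr K Sl Mt M₂ F c₀ θ ϑ e t l a N gt ht c₃ c₄ δ η X o1 o2 ht1 hη hδ L Ne Sp R H
  obtain ⟨s1, s2⟩ := h23 n o1 o2 ht1 hη hδ L Ne Sp R
  have hi : ∀ a b, n.src.Q.cell a ⊆ n.src.Q.cell b ↔ S.Q.cell a ⊆ S.Q.cell b := fun a b =>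
    image_subset_image_iff ν.injective
  have hc : ∀ e, ({c | n.src.Q.cell e ⊆ n.src.Q.cell c}.encard : ℝ≥0∞) ≤ M₀ := fun e =>
    (card_le fun c hc => (hi _ _).1 hc).trans (L.cof e)
  have hU : ∀ c, S.Q.cell c ⊆ P.BufSet j → S.Q.cell c ⊆ P.U j := fun c hc =>
    Ne.sub c (Ne.buf c hc).1
  have h0 : (1 : ℝ≥0∞) ≤ M₀ := by exact_mod_cast L.one_le.1
  rw [add_mul, add_mul (d₄ Mt M₂)]
  refine ⟨?_, ?_⟩
  · have h3 := core3 hp (S := n.src) (hη.trans hδ)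
      (Φ := {c | S.Q.dim c = 3 ∧ S.Q.cell c ⊆ P.BufSet j})
      (W := {e | S.Q.dim e = 1 ∧ S.Q.cell e ⊆ P.BufSet j}) (κ := (CM M₁ + M₁ : ℝ≥0))
      (fun φ hφ => ⟨hφ.1, H φ (Ne.buf φ hφ.2).1 hφ.1, Ne.r_le φ (Ne.buf φ hφ.2).1,
        by rw [← (Ne.buf φ hφ.2).2]; rfl,
        (card_le fun e he => (hi _ _).1 he.2).trans (L.faces_buf φ hφ.2),
        fun e he => ⟨he.1, ((hi _ _).1 he.2).trans hφ.2⟩⟩) hc
    have h4 : tot {e | S.Q.dim e = 1 ∧ S.Q.cell e ⊆ P.BufSet j}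
        (fun e => lipc (vst N t ∘ gt) (ν '' S.Q.cell e) ^ p) ≤
        M₀ * (c₃ * ENNReal.ofReal l⁻¹ ^ p * (ENNReal.ofReal (P.a j) ^ p * (P.Buf j).encard +
          ENNReal.ofReal P.η ^ (p - 1) *
            (∫⁻ x in {x ∈ P.U j | P.nu j x ∈ gridLines}, ‖F x - (P.T j).A‖ₑ ^ p ∂(μH[1])) +
          {c | S.Q.cell c ⊆ P.U j}.encard * δ)) := by
      refine (tot_mono_fun fun e he => Sp.buf e he.1 he.2).trans ?_
      rw [tot_mul_left, tot_add, tot_add, tot_const, tot_const, tot_mul_left,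
        mul_left_comm (M₀ : ℝ≥0∞), mul_add (M₀ : ℝ≥0∞), mul_add (M₀ : ℝ≥0∞),
        mul_comm (_ ^ p) ((P.Buf j).encard : ℝ≥0∞), ← mul_assoc (M₀ : ℝ≥0∞)]
      refine mul_le_mul_right (add_le_add (add_le_add (mul_le_mul_left
        ((card_le fun e he => he.2).trans L.count) _) ?_) ?_) _
      · exact (mul_le_mul_right (L.grid _) _).trans (le_mul_of_one_le_left' h0)
      · exact (mul_le_mul_left (card_le fun e he => hU e he.2) _).trans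
          (le_mul_of_one_le_left' h0)
    refine (tot_le_add (A := Φ₂ P j S.Q) (B := {c | S.Q.dim c = 3 ∧ S.Q.cell c ⊆ P.BufSet j})
      (fun c hc => hc.1.imp (⟨·, hc.2⟩) (⟨·, hc.2⟩)) _).trans (add_le_add
      ((tot_congr fun φ hφ => ?_).trans_le s1) (h3.trans (le_trans ?_ (arith le_rfl
        (card_le (A := {c | S.Q.dim c = 3 ∧ S.Q.cell c ⊆ P.BufSet j}) fun φ hφ => hU φ hφ.2) hη))))
    · exact congrArg (fun d => En d p ht (ν '' S.Q.cell φ)) hφ.1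
    · rw [mul_assoc (_ * (M₀ : ℝ≥0∞)) (M₀ : ℝ≥0∞)]
      exact mul_le_mul_right (add_le_add_left (mul_le_mul_right h4 _) _) _
  · have h3 := core3 hp (S := n.src) (hη.trans hδ)
      (Φ := {c ∈ Nr | S.Q.dim c = 3 ∧ Disjoint (S.Q.cell c) K})
      (W := {e | S.Q.dim e = 1 ∧ S.Q.cell e ⊆ P.U j \ K})
      (κ := (CM M₁ + M₁ + (CM M₂ + M₂) : ℝ≥0)) (M := Mt)
      (fun φ hφ => ⟨hφ.2.1, H φ hφ.1 hφ.2.1, Ne.r_le φ hφ.1, by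
          by_cases h : S.Q.cell φ ⊆ P.BufSet j
          · rw [← (Ne.buf φ h).2, ENNReal.coe_add _ (_ + _)]
            exact le_self_add
          · rw [← Ne.rest φ hφ.1 h, ENNReal.coe_add _ (_ + _)]
            exact le_add_self,
        (card_le fun e he => (hi _ _).1 he.2).trans (L.faces φ (Ne.sub φ hφ.1)),
        fun e he => ⟨he.1, ((hi _ _).1 he.2).trans
          (subset_sdiff.2 ⟨Ne.sub φ hφ.1, hφ.2.2⟩)⟩⟩) hc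
    have h4 : tot {e | S.Q.dim e = 1 ∧ S.Q.cell e ⊆ P.U j \ K}
        (fun e => lipc (vst N t ∘ gt) (ν '' S.Q.cell e) ^ p) ≤
        c₄ * ENNReal.ofReal l⁻¹ ^ p * (ENNReal.ofReal P.η ^ (p - 1) *
          (∫⁻ x in {x ∈ P.U j \ K | P.η⁻¹ • (x - P.w) ∈ Sl}, ‖F x‖ₑ ^ p ∂(μH[1])) +
          {c | S.Q.cell c ⊆ P.U j}.encard * δ) := by
      refine (tot_mono_fun fun e he => Sp.near e he.1 (he.2.trans sdiff_subset)).trans ?_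
      rw [tot_mul_left, tot_add, tot_const, tot_mul_left]
      exact mul_le_mul_right (add_le_add (mul_le_mul_right (L.lines K _) _)
        (mul_le_mul_left (card_le fun e he => he.2.trans sdiff_subset) _)) _
    refine (tot_le_add (A := Φ₃ P j S.Q Nr K)
      (B := {c ∈ Nr | S.Q.dim c = 3 ∧ Disjoint (S.Q.cell c) K}) (fun c hc => ?_) _).trans
      (add_le_add s2 ?_)
    · rcases hc.2.2 with h | h | h
      exacts [Or.inl ⟨hc.1, hc.2.1, Or.inl h⟩, Or.inr ⟨hc.1, h, hc.2.1⟩,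
        Or.inl ⟨hc.1, hc.2.1, Or.inr h⟩]
    · rw [mul_assoc _ (_ ^ (p - 1))]
      exact h3.trans (arith h4 (card_le fun φ hφ => Ne.sub φ hφ.1) hη)

/-- the near cells outside the buffer -/
theorem trans3 {p : ℝ} (hp : 1 ≤ p) {Ω : Set E3} {P : Par} {σ : E3 → ℝ}
    {𝓒 : Set (ℕ × (Fin 3 → ℤ))} {M₀ : ℝ≥0} {Mt : Ty → ℕ → ℝ≥0} {S₀ : Set E3}
    {Sl : Ty → ℕ → Set E3} (𝓜 : Mesh2 Ω P σ 𝓒 M₀ Mt S₀ Sl) (ok : P.Ok Ω) (j : Fin P.N)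
    {K : Set E3} {F : E3 → (E3 →L[ℝ] E3)} {k h : E3 → E3} (hK : K ⊆ P.K j) (hF : Measurable F)
    (hk : ∀ x, x ∉ ⋃ j, P.BufSet j → k =ᶠ[𝓝 x] h) :
    ∫⁻ x in nrs 𝓜 j \ P.BufSet j, ‖fderiv ℝ k x - F x‖ₑ ^ p ≤
      2 ^ p * (tot {φ ∈ nrc 𝓜 j | 𝓜.Q.dim φ = 3 ∧ Disjoint (𝓜.Q.cell φ) K}
        (fun φ => En 3 p h (𝓜.Q.cell φ)) + ∫⁻ x in P.U j \ K, ‖F x‖ₑ ^ p) := by
  have hp0 : 0 < p := one_pos.trans_le hp
  have hsub : 𝓜.Q.Sub (nrs 𝓜 j) := fun x ⟨i, hi, hx⟩ => ⟨i, hx, fun y hy => ⟨i, hi, hy⟩⟩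
  have hX : MeasurableSet (nrs 𝓜 j \ P.BufSet j) :=
    (Tr.measurableSet_sub hsub).diff (Tr.measurableSet_sub (𝓜.sub_buf ok j))
  have hU : nrs 𝓜 j \ P.BufSet j ⊆ P.U j \ K := fun x ⟨⟨i, hi, hx⟩, hb⟩ =>
    ⟨hi.2 hx, fun hxK => Set.disjoint_left.1 (𝓜.disj_K ok fun h => hb (h hx)) hx (hK hxK)⟩
  have h1 : ∫⁻ x in nrs 𝓜 j \ P.BufSet j, ‖fderiv ℝ k x - F x‖ₑ ^ p ≤
      2 ^ p * ((∫⁻ x in nrs 𝓜 j \ P.BufSet j, ‖fderiv ℝ h x‖ₑ ^ p) +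
        ∫⁻ x in nrs 𝓜 j \ P.BufSet j, ‖F x‖ₑ ^ p) := by
    rw [← lintegral_add_right _ (hF.enorm.pow_const p), ← lintegral_const_mul' _ _
      (ENNReal.rpow_ne_top_of_nonneg hp0.le ENNReal.ofNat_ne_top)]
    refine setLIntegral_mono' hX fun x hx => ?_
    rw [(hk x fun hb => ?_).fderiv_eq]
    · exact (ENNReal.rpow_le_rpow enorm_sub_le hp0.le).trans (Sm.add_rpow_le hp _ _)
    · obtain ⟨j', hj'⟩ := mem_iUnion.1 hb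
      by_cases e : j' = j
      · exact hx.2 (e ▸ hj')
      · exact Set.disjoint_left.1 (Cube.U_disj ok j' j e) (Cube.buf_U ok j' hj') (hU hx).1
  refine h1.trans (mul_le_mul_right (add_le_add ?_ (lintegral_mono_set hU)) _)
  refine ena.2.2.2.1 𝓜.Q _ h hp0 𝓜.cvx (sdiff_subset.trans hsub.subset_carrier) ?_
  rintro i hi ⟨x, hx, ⟨l, hl, hxl⟩, hb⟩
  have e : i = l := 𝓜.Q.eq_of_subset_of_dim_le (𝓜.Q.cell_subset_of_mem hx hxl)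
    ((Tr.dim_le 𝓜.cvx l).trans hi.ge)
  exact ⟨e ▸ hl, hi, (𝓜.disj_K ok fun h => hb (h hx.1)).mono_right hK⟩

end T3

end P073.Nr
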